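import Vale.Agent.P224.MathlibUsed

/-!
Univariate integer polynomials as coefficient lists, with a kernel-computable positivity test on
a rational interval (Moebius substitution, all coefficients nonnegative).
-/

namespace Vale.Agent.P224.SP

/-- Horner evaluation -/
noncomputable def ev : List ℤ → ℝ → ℝ
  | [], _ => 0
  | (a :: l), x => (a : ℝ) + x * ev l x

/-- sum of two lists -/
def addL : List ℤ → List ℤ → List ℤ
  | [], m => m
  | l, [] => l
  | (a :: l), (b :: m) => (a + b) :: addL l m

/-- multiple of a list -/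
def smulL (k : ℤ) (l : List ℤ) : List ℤ := l.map (k * ·)

/-- product of two lists -/
def mulL : List ℤ → List ℤ → List ℤ
  | [], _ => []
  | (a :: l), m => addL (smulL a m) (0 :: mulL l m)

/-- derivative helper: `n a_0 + (n+1) a_1 x + ...` -/
def derAux : ℤ → List ℤ → List ℤ
  | _, [] => []
  | n, (a :: l) => (n * a) :: derAux (n + 1) l

/-- derivative -/
def derL : List ℤ → List ℤ
  | [] => []
  | (_ :: l) => derAux 1 l

@[simp] lemma ev_nil (x : ℝ) : ev [] x = 0 := rfl
@[simp] lemma ev_cons (a : ℤ) (l : List ℤ) (x : ℝ) : ev (a :: l) x = (a : ℝ) + x * ev l x := rfl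

lemma ev_addL (l m : List ℤ) (x : ℝ) : ev (addL l m) x = ev l x + ev m x := by
  induction l generalizing m with
  | nil => simp [addL]
  | cons a l ih =>
    cases m with
    | nil => simp [addL]
    | cons b m => simp only [addL, ev_cons, ih]; push_cast; ring

lemma ev_smulL (k : ℤ) (l : List ℤ) (x : ℝ) : ev (smulL k l) x = (k : ℝ) * ev l x := by
  induction l with
  | nil => simp [smulL]
  | cons a l ih =>
    have h : smulL k (a :: l) = (k * a) :: smulL k l := rfl
    rw [h, ev_cons, ev_cons, ih]; push_cast; ring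

lemma ev_mulL (l m : List ℤ) (x : ℝ) : ev (mulL l m) x = ev l x * ev m x := by
  induction l with
  | nil => simp [mulL]
  | cons a l ih => simp only [mulL, ev_addL, ev_smulL, ev_cons, ih]; push_cast; ring

lemma hasDerivAt_ev (l : List ℤ) (x : ℝ) : HasDerivAt (ev l) (ev (derL l) x) x := by
  induction l with
  | nil => exact hasDerivAt_const x (0 : ℝ)
  | cons a l ih =>
    have h1 : HasDerivAt (fun x : ℝ => (a : ℝ) + x * ev l x)
        (0 + (1 * ev l x + x * ev (derL l) x)) x :=
      (hasDerivAt_const x (a : ℝ)).fun_add ((hasDerivAt_id x).fun_mul ih)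
    refine h1.congr_deriv ?_
    have h2 : ev (derAux 1 l) x = ev l x + x * ev (derL l) x := by
      cases l with
      | nil => simp [derAux, derL]
      | cons b l =>
        have h3 : ∀ (n : ℤ) (l : List ℤ),
            ev (derAux (n + 1) l) x = ev (derAux n l) x + ev l x := by
          intro n l
          induction l generalizing n with
          | nil => simp [derAux]
          | cons b l ih2 => simp only [derAux, ev_cons, ih2 (n + 1)]; push_cast; ring
        simp only [derL, derAux, ev_cons]
        rw [h3 1 l]; push_cast; ring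
    have h4 : derL (a :: l) = derAux 1 l := rfl
    rw [h4, h2]; ring

lemma continuous_ev (l : List ℤ) : Continuous (ev l) :=
  continuous_iff_continuousAt.2 fun x => (hasDerivAt_ev l x).continuousAt

lemma ev_nonneg_of_all {l : List ℤ} (h : l.all (fun a => decide (0 ≤ a)) = true) {u : ℝ}
    (hu : 0 ≤ u) : 0 ≤ ev l u := by
  induction l with
  | nil => simp
  | cons a l ih =>
    simp only [List.all_cons, Bool.and_eq_true, decide_eq_true_eq] at h
    rw [ev_cons]
    have h1 : (0 : ℝ) ≤ a := by exact_mod_cast h.1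
    have h2 := mul_nonneg hu (ih h.2)
    linarith

/-- Moebius transform: `(C, E)` with `ev C u = ev l x * (d (1+u))^n`, `ev E u = (d (1+u))^n`,
`x = (A + B u) / (d (1 + u))`, `n = l.length`. -/
def mob (A B d : ℤ) : List ℤ → List ℤ × List ℤ
  | [] => ([], [1])
  | (a :: l) =>
    let r := mob A B d l
    let E := mulL [d, d] r.2
    (addL (smulL a E) (mulL [A, B] r.1), E)

lemma mob_spec (A B d : ℤ) (l : List ℤ) {x u : ℝ} (hx : x * (d * (1 + u)) = A + B * u) :
    ev (mob A B d l).1 u = ev l x * (d * (1 + u)) ^ l.length ∧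
      ev (mob A B d l).2 u = (d * (1 + u)) ^ l.length := by
  induction l with
  | nil => simp [mob]
  | cons a l ih =>
    obtain ⟨h1, h2⟩ := ih
    have h3 : ev (mulL [d, d] (mob A B d l).2) u = (d * (1 + u)) ^ (l.length + 1) := by
      rw [ev_mulL, h2, pow_succ]; simp only [ev_cons, ev_nil]; ring
    refine ⟨?_, ?_⟩
    · simp only [mob, ev_addL, ev_smulL, h3, List.length_cons]
      rw [ev_mulL, h1]
      simp only [ev_cons, ev_nil]
      have e1 : ((A : ℝ) + u * (B + u * 0)) = x * (d * (1 + u)) := by rw [hx]; ring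
      rw [e1]; ring
    · simp only [mob, List.length_cons]; exact h3

/-- the positivity test on `[A/d, B/d]` -/
def chk0 (A B d : ℤ) (l : List ℤ) : Bool :=
  decide (0 < d) && decide (A < B) && (mob A B d l).1.all (fun a => decide (0 ≤ a))

theorem nonneg_of_chk0 {A B d : ℤ} {l : List ℤ} (h : chk0 A B d l = true) {x : ℝ}
    (hA : (A : ℝ) ≤ d * x) (hB : d * x ≤ B) : 0 ≤ ev l x := by
  simp only [chk0, Bool.and_eq_true, decide_eq_true_eq] at h
  obtain ⟨⟨hd, hAB⟩, hall⟩ := h
  have hd' : (0 : ℝ) < d := by exact_mod_cast hd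
  have hAB' : (A : ℝ) < B := by exact_mod_cast hAB
  have key : ∀ x : ℝ, (A : ℝ) ≤ d * x → d * x < B → 0 ≤ ev l x := by
    intro x hA hB
    have hw : 0 < (B : ℝ) - d * x := by linarith
    set u : ℝ := (d * x - A) / (B - d * x) with hu
    have hu0 : 0 ≤ u := div_nonneg (by linarith) hw.le
    have hx : x * (d * (1 + u)) = A + B * u := by
      have h5 : ((B : ℝ) - d * x) * u = d * x - A := by rw [hu]; field_simp
      linear_combination (-1 : ℝ) * h5
    have h1 := (mob_spec A B d l hx).1
    have h2 := ev_nonneg_of_all hall hu0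
    rw [h1] at h2
    have h3 : (0 : ℝ) < (d * (1 + u)) ^ l.length := by positivity
    exact nonneg_of_mul_nonneg_left h2 h3
  rcases hB.lt_or_eq with hB | hB
  · exact key x hA hB
  · have h1 : Filter.Tendsto (ev l) (nhdsWithin x (Set.Iio x)) (nhds (ev l x)) :=
      (continuous_ev l).continuousAt.mono_left nhdsWithin_le_nhds
    refine ge_of_tendsto h1 ?_
    have h2 : (A : ℝ) / d < x := by
      rw [div_lt_iff₀ hd']; linarith
    filter_upwards [Ioo_mem_nhdsLT h2] with y hy
    refine key y ?_ ?_
    · have := hy.1; rw [div_lt_iff₀ hd'] at this; linarith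
    · have := mul_lt_mul_of_pos_left hy.2 hd'; linarith

/-! ### the same test by one big integer (Kronecker substitution) -/

/-- integer Horner evaluation -/
def evZ : List ℤ → ℤ → ℤ
  | [], _ => 0
  | (a :: l), x => a + x * evZ l x

lemma evZ_cast (l : List ℤ) (x : ℤ) : ((evZ l x : ℤ) : ℝ) = ev l (x : ℝ) := by
  induction l with
  | nil => simp [evZ]
  | cons a l ih => simp only [evZ, ev_cons]; push_cast; rw [ih]

/-- homogeneous Horner evaluation: `(sum l_i al^i be^(n-i), be^n)` -/
def hvP (al be : ℤ) : List ℤ → ℤ × ℤ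
  | [] => (0, 1)
  | (a :: l) =>
    let r := hvP al be l
    let E := be * r.2
    (a * E + al * r.1, E)

lemma hvP_spec {al be : ℤ} (l : List ℤ) {x : ℝ} (hx : x * be = al) :
    (((hvP al be l).1 : ℤ) : ℝ) = ev l x * (be : ℝ) ^ l.length ∧
      (((hvP al be l).2 : ℤ) : ℝ) = (be : ℝ) ^ l.length := by
  induction l with
  | nil => simp [hvP]
  | cons a l ih =>
    obtain ⟨h1, h2⟩ := ih
    refine ⟨?_, ?_⟩
    · simp only [hvP, List.length_cons, ev_cons]
      push_cast
      rw [h1, h2, ← hx]; ring
    · simp only [hvP, List.length_cons]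
      push_cast
      rw [h2]; ring

/-- bound of the coefficients of `mob` -/
def nbP (s d2 : ℤ) : List ℤ → ℤ × ℤ
  | [] => (0, 1)
  | (a :: l) =>
    let r := nbP s d2 l
    let E := d2 * r.2
    (|a| * E + s * r.1, E)

/-- sum of the absolute values -/
def nrmL : List ℤ → ℤ
  | [] => 0
  | (a :: l) => |a| + nrmL l

lemma nrmL_nonneg (l : List ℤ) : 0 ≤ nrmL l := by
  induction l with
  | nil => simp [nrmL]
  | cons a l ih => simp only [nrmL]; positivity

lemma nrmL_addL (l m : List ℤ) : nrmL (addL l m) ≤ nrmL l + nrmL m := by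
  induction l generalizing m with
  | nil => simp [addL, nrmL]
  | cons a l ih =>
    cases m with
    | nil => simp [addL, nrmL]
    | cons b m =>
      simp only [addL, nrmL]
      have := ih m
      have := abs_add_le a b
      linarith

lemma nrmL_smulL (k : ℤ) (l : List ℤ) : nrmL (smulL k l) = |k| * nrmL l := by
  induction l with
  | nil => simp [smulL, nrmL]
  | cons a l ih =>
    have h : smulL k (a :: l) = (k * a) :: smulL k l := rfl
    rw [h]; simp only [nrmL]; rw [ih, abs_mul]; ring

lemma nrmL_mulL (l m : List ℤ) : nrmL (mulL l m) ≤ nrmL l * nrmL m := by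
  induction l with
  | nil => simp [mulL, nrmL]
  | cons a l ih =>
    simp only [mulL]
    refine (nrmL_addL _ _).trans ?_
    rw [nrmL_smulL]
    simp only [nrmL, abs_zero, zero_add]
    have := ih
    linarith [add_mul |a| (nrmL l) (nrmL m)]

lemma nbP_spec (A B d : ℤ) (hd : 0 < d) (l : List ℤ) :
    nrmL (mob A B d l).1 ≤ (nbP (|A| + |B|) (2 * d) l).1 ∧
      nrmL (mob A B d l).2 ≤ (nbP (|A| + |B|) (2 * d) l).2 := by
  induction l with
  | nil => simp [mob, nbP, nrmL]
  | cons a l ih =>
    obtain ⟨h1, h2⟩ := ih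
    have hE : nrmL (mulL [d, d] (mob A B d l).2) ≤ 2 * d * (nbP (|A| + |B|) (2 * d) l).2 := by
      refine (nrmL_mulL _ _).trans ?_
      have h3 : nrmL [d, d] = 2 * d := by
        simp only [nrmL, abs_of_pos hd]; ring
      rw [h3]
      exact mul_le_mul_of_nonneg_left h2 (by positivity)
    refine ⟨?_, ?_⟩
    · simp only [mob, nbP]
      refine (nrmL_addL _ _).trans ?_
      rw [nrmL_smulL]
      have h4 : nrmL (mulL [A, B] (mob A B d l).1) ≤
          (|A| + |B|) * (nbP (|A| + |B|) (2 * d) l).1 := by
        refine (nrmL_mulL _ _).trans ?_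
        have h3 : nrmL [A, B] = |A| + |B| := by simp only [nrmL]; ring
        rw [h3]
        exact mul_le_mul_of_nonneg_left h1 (by positivity)
      have h5 := mul_le_mul_of_nonneg_left hE (abs_nonneg a)
      linarith
    · simp only [mob, nbP]; exact hE

lemma length_addL (l m : List ℤ) : (addL l m).length = max l.length m.length := by
  induction l generalizing m with
  | nil => simp [addL]
  | cons a l ih =>
    cases m with
    | nil => simp [addL]
    | cons b m => simp only [addL, List.length_cons, ih]; omega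

lemma length_smulL (k : ℤ) (l : List ℤ) : (smulL k l).length = l.length := by
  simp [smulL]

lemma length_mulL2 (a b : ℤ) (m : List ℤ) :
    (mulL [a, b] m).length ≤ max m.length 1 + 1 := by
  simp only [mulL, length_addL, length_smulL, List.length_cons, List.length_nil]
  omega

lemma length_mob (A B d : ℤ) (l : List ℤ) :
    (mob A B d l).1.length ≤ l.length + 1 ∧ (mob A B d l).2.length ≤ l.length + 1 := by
  induction l with
  | nil => simp [mob]
  | cons a l ih =>
    obtain ⟨h1, h2⟩ := ih
    have hE := length_mulL2 d d (mob A B d l).2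
    have hC := length_mulL2 A B (mob A B d l).1
    have hl : l.length + 1 ≥ 1 := by omega
    refine ⟨?_, ?_⟩
    · simp only [mob, length_addL, length_smulL, List.length_cons]; omega
    · simp only [mob, List.length_cons]; omega

/-- digit test: the lowest `n` digits in base `X` are all `< X / 2` -/
def dgN (X : ℕ) : ℕ → ℕ → Bool
  | 0, _ => true
  | (n + 1), v => Nat.blt (2 * (v % X)) X && dgN X n (v / X)

lemma all_of_dgN {X : ℕ} {C : List ℤ} {M : ℤ} (hM : ∀ c ∈ C, |c| ≤ M) (hX : 2 * M < X) {n : ℕ}
    (hn : C.length ≤ n) (h0 : 0 ≤ evZ C X) (h : dgN X n (evZ C X).toNat = true) :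
    ∀ c ∈ C, 0 ≤ c := by
  induction C generalizing n with
  | nil => simp
  | cons a C ih =>
    cases n with
    | zero => simp at hn
    | succ n =>
      simp only [List.length_cons, Nat.add_le_add_iff_right] at hn
      have ha : |a| ≤ M := hM a (by simp)
      have hM0 : 0 ≤ M := (abs_nonneg a).trans ha
      have hXpos : (0 : ℤ) < X := by linarith
      have hXn : 0 < X := by exact_mod_cast hXpos
      set e : ℤ := evZ C X with he
      have hev : evZ (a :: C) (X : ℤ) = a + X * e := rfl
      rw [hev] at h0 h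
      simp only [dgN, Bool.and_eq_true] at h
      obtain ⟨hd, hr⟩ := h
      have hd' : 2 * ((a + X * e).toNat % X) < X := by
        have := Nat.blt_eq.mp hd
        exact this
      have hcast : (((a + X * e).toNat : ℕ) : ℤ) = a + X * e := Int.toNat_of_nonneg h0
      have hmod : (((a + X * e).toNat % X : ℕ) : ℤ) = a % X := by
        rw [Int.natCast_mod, hcast, Int.add_mul_emod_self_left]
      have hlt : 2 * (a % (X : ℤ)) < X := by
        rw [← hmod]; exact_mod_cast hd'
      have hab := abs_le.1 ha
      have ha0 : 0 ≤ a := by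
        by_contra hneg
        push Not at hneg
        have h3 : a % (X : ℤ) = a + X := by
          rw [← Int.add_emod_right]
          exact Int.emod_eq_of_lt (by linarith) (by linarith)
        rw [h3] at hlt
        linarith
      have hamod : a % (X : ℤ) = a := Int.emod_eq_of_lt ha0 (by linarith)
      have hdiv : (((a + X * e).toNat / X : ℕ) : ℤ) = e := by
        rw [Int.natCast_div, hcast, Int.add_mul_ediv_left _ _ hXpos.ne',
          Int.ediv_eq_zero_of_lt ha0 (by linarith), zero_add]
      have he0 : 0 ≤ e := by rw [← hdiv]; positivity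
      have hdiv' : (a + X * e).toNat / X = e.toNat := by
        have : (((a + X * e).toNat / X : ℕ) : ℤ) = (e.toNat : ℤ) := by
          rw [hdiv, Int.toNat_of_nonneg he0]
        exact_mod_cast this
      rw [hdiv'] at hr
      intro c hc
      rcases List.mem_cons.1 hc with rfl | hc
      · exact ha0
      · exact ih (fun c hc => hM c (List.mem_cons_of_mem _ hc)) hn he0 hr c hc

lemma abs_le_nrmL {l : List ℤ} {c : ℤ} (hc : c ∈ l) : |c| ≤ nrmL l := by
  induction l with
  | nil => simp at hc
  | cons a l ih =>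
    simp only [nrmL]
    rcases List.mem_cons.1 hc with rfl | hc
    · linarith [nrmL_nonneg l]
    · linarith [ih hc, abs_nonneg a]

/-- the positivity test on `[A/d, B/d]`, fast form -/
def chk (A B d : ℤ) (l : List ℤ) : Bool :=
  let M := (nbP (|A| + |B|) (2 * d) l).1
  let X : ℕ := Nat.pow 2 (Nat.log2 M.toNat + 2)
  let v := (hvP (A + B * X) (d * (1 + X)) l).1
  decide (0 < d) && decide (A < B) && decide (2 * M < X) && decide (0 ≤ v) &&
    dgN X (l.length + 1) v.toNat

theorem nonneg_of_chk {A B d : ℤ} {l : List ℤ} (h : chk A B d l = true) {x : ℝ}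
    (hA : (A : ℝ) ≤ d * x) (hB : d * x ≤ B) : 0 ≤ ev l x := by
  simp only [chk, Bool.and_eq_true, decide_eq_true_eq] at h
  obtain ⟨⟨⟨⟨hd, hAB⟩, hM⟩, hv⟩, hdg⟩ := h
  set X : ℕ := Nat.pow 2 (Nat.log2 (nbP (|A| + |B|) (2 * d) l).1.toNat + 2) with hX
  have hval : (hvP (A + B * X) (d * (1 + X)) l).1 = evZ (mob A B d l).1 X := by
    have hb : (0 : ℝ) < ((d * (1 + X) : ℤ) : ℝ) := by
      have : (0 : ℤ) < d * (1 + X) := by positivity
      exact_mod_cast this
    have h1 := (hvP_spec (al := A + B * X) (be := d * (1 + X)) l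
      (x := ((A + B * X : ℤ) : ℝ) / ((d * (1 + X) : ℤ) : ℝ)) (by field_simp)).1
    have h2 := (mob_spec A B d l (x := ((A + B * X : ℤ) : ℝ) / ((d * (1 + X) : ℤ) : ℝ))
      (u := (X : ℝ)) (by push_cast at hb ⊢; field_simp)).1
    have h3 : (((hvP (A + B * X) (d * (1 + X)) l).1 : ℤ) : ℝ) =
        ((evZ (mob A B d l).1 X : ℤ) : ℝ) := by
      rw [h1, evZ_cast]
      push_cast at h2 ⊢
      rw [h2]
    exact_mod_cast h3
  rw [hval] at hv hdg
  have hall := all_of_dgN (C := (mob A B d l).1) (M := (nbP (|A| + |B|) (2 * d) l).1)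
    (fun c hc => (abs_le_nrmL hc).trans (nbP_spec A B d hd l).1) hM (length_mob A B d l).1 hv hdg
  refine nonneg_of_chk0 (A := A) (B := B) (d := d) ?_ hA hB
  simp only [chk0, Bool.and_eq_true, decide_eq_true_eq]
  refine ⟨⟨hd, hAB⟩, ?_⟩
  rw [List.all_eq_true]
  intro c hc
  exact decide_eq_true (hall c hc)

end Vale.Agent.P224.SP
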