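import Vale.Agent.P224.SP.CoreE

/-!
The pointwise inequality on `(0, 1)` of a certificate with a parameter in dimension five.
-/

namespace Vale.Agent.P224.SP

open Vale.Agent.P224.UE Vale.Agent.P224.POS Vale.Agent.P224.PO Vale.Agent.P224.SO Set
open scoped RealInnerProductSpace

noncomputable section

/-- a value column with its functions; `r0`, `r1` are the coefficients of `g`, `g'` in the base
functions -/
structure VE where
  K : VK
  g : ℝ → ℝ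
  g' : ℝ → ℝ
  k : ℕ
  lim : ℝ
  r0 : List PE
  r1 : List PE

/-- a row column with its function -/
structure RE where
  K : RK
  z : ℝ → ℝ
  r : List PE

/-- the value terms -/
def lG (V : List VE) : List GT := V.flatMap fun x => x.K.gts x.g x.g' x.k x.lim

/-- the rows -/
def lS (R : List RE) : OT.SCert := R.map fun x => (x.K.st, x.K.psi x.z)

/-- all columns -/
def cols (V : List VE) (R : List RE) : List ((ℝ → ℝ) × PE × List PE) :=
  (V.flatMap fun x => [(x.g', .sub (.c 0) x.K.M1, x.r1), (x.g, .sub (.c 0) x.K.M0, x.r0)])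
    ++ R.map fun x => (x.z, x.K.M, x.r)

/-- the polynomials of all columns -/
def pcols (V : List (VK × List PE × List PE)) (R : List (RK × List PE)) : List (PE × List PE) :=
  (V.flatMap fun x => [(.sub (.c 0) x.1.M1, x.2.2), (.sub (.c 0) x.1.M0, x.2.1)])
    ++ R.map fun x => (x.1.M, x.2)

lemma cols_map (V : List VE) (R : List RE) : ((cols V R).map fun c => c.2)
    = pcols (V.map fun x => (x.K, x.r0, x.r1)) (R.map fun x => (x.K, x.r)) := by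
  unfold cols pcols
  rw [List.map_append, List.map_map]
  congr 1
  · induction V with
    | nil => rfl
    | cons x V ih =>
      rw [List.flatMap_cons, List.map_append, ih]
      rfl
  · rw [List.map_map]
    rfl

lemma gS'_append (l l' : List VTm) (T : ℝ) (d : R9) : gS' (l ++ l') T d = gS' l T d + gS' l' T d := by
  unfold gS'
  rw [List.map_append, List.sum_append]

theorem tot_cols {V : List VE} {R : List RE} (hV : ∀ x ∈ V, x.K.q ≤ 6) (hR : ∀ x ∈ R, x.K.q ≤ 6)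
    {T : ℝ} (h0 : 0 < T) (h1 : T < 1) {d : R9} (hd : 1 - T * d 0 ≠ 0) :
    4 * √(AT T) * (1 - T * d 0) ^ 7 * ((OT.Rs 5 (lS R) T d + OT.Rs 5 (lS R) T (sw9 d)) / 2
        - gS' ((lG V).map GT.v) T d)
      = tot T (vT T (d 0) (d 1) (d 2) (d 3)) (cols V R) := by
  have e1 : 4 * √(AT T) * (1 - T * d 0) ^ 7 * gS' ((lG V).map GT.v) T d
      = -tot T (vT T (d 0) (d 1) (d 2) (d 3)) (V.flatMap fun x =>
        [(x.g', .sub (.c 0) x.K.M1, x.r1), (x.g, .sub (.c 0) x.K.M0, x.r0)]) := by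
    clear hR
    induction V with
    | nil => simp [lG, gS', tot]
    | cons x V ih =>
      have h2 := ih fun u hu => hV u (List.mem_cons_of_mem _ hu)
      have h3 := x.K.eq (hV x List.mem_cons_self) x.g x.g' x.k x.lim h0 h1 hd
      unfold lG tot at h2 ⊢
      rw [List.flatMap_cons, List.map_append, gS'_append, mul_add, h2, h3, List.flatMap_cons,
        List.map_append, List.sum_append]
      simp only [List.map_cons, List.map_nil, List.sum_cons, List.sum_nil, PE.ev_sub, PE.ev_c,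
        Int.cast_zero]
      ring
  have e2 : 4 * √(AT T) * (1 - T * d 0) ^ 7 * ((OT.Rs 5 (lS R) T d + OT.Rs 5 (lS R) T (sw9 d)) / 2)
      = tot T (vT T (d 0) (d 1) (d 2) (d 3)) (R.map fun x => (x.z, x.K.M, x.r)) := by
    clear e1 hV
    induction R with
    | nil => simp [lS, OT.Rs, tot]
    | cons x R ih =>
      have h2 := ih fun u hu => hR u (List.mem_cons_of_mem _ hu)
      have h3 := x.K.eq (hR x List.mem_cons_self) x.z h0 h1 hd
      unfold lS tot OT.Rs at h2 ⊢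
      rw [List.map_cons, List.map_cons, List.sum_cons, List.map_cons, List.sum_cons, List.map_cons,
        List.map_cons, List.sum_cons, ← h2, ← h3]
      ring
  rw [mul_sub, e2, e1]
  unfold tot cols
  rw [List.map_append, List.sum_append]
  ring

/-- **The pointwise inequality** on `(0, 1)`. -/
theorem hpos_of {V : List VE} {R : List RE} {pV : List (VK × List PE × List PE)}
    {pR : List (RK × List PE)} (hpV : (V.map fun x => (x.K, x.r0, x.r1)) = pV)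
    (hpR : (R.map fun x => (x.K, x.r)) = pR) (hV : (pV.all fun x => decide (x.1.q ≤ 6)) = true)
    (hR : (pR.all fun x => decide (x.1.q ≤ 6)) = true)
    {l : List Bs} {b : ℕ → ℝ → ℝ} (hb0 : ∀ T, b 0 T = 1) {Dn ω : ℝ → ℝ}
    (hDn : ∀ T ∈ Ioo (0 : ℝ) 1, 0 < Dn T) (hω : ∀ T ∈ Ioo (0 : ℝ) 1, 0 ≤ ω T)
    (hg : ∀ T ∈ Ioo (0 : ℝ) 1, ∀ f : ℕ → ℝ, f 4 = T → ∀ x ∈ V,
      Dn T * x.g T = ∑ p ∈ Finset.range (l.length + 1), b p T * PE.ev f (x.r0.getD p (.c 0)))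
    (hg' : ∀ T ∈ Ioo (0 : ℝ) 1, ∀ f : ℕ → ℝ, f 4 = T → ∀ x ∈ V,
      Dn T * x.g' T = ∑ p ∈ Finset.range (l.length + 1), b p T * PE.ev f (x.r1.getD p (.c 0)))
    (hz : ∀ T ∈ Ioo (0 : ℝ) 1, ∀ f : ℕ → ℝ, f 4 = T → ∀ x ∈ R,
      Dn T * x.z T = ∑ p ∈ Finset.range (l.length + 1), b p T * PE.ev f (x.r.getD p (.c 0)))
    (hid : ∀ f : ℕ → ℝ, (∀ i, 5 ≤ i → f i = 0) → ∀ p < l.length,
      PE.ev f (Wt (p + 1) (pcols pV pR)) = PE.ev f (l.getD p Bs.z).q)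
    {D : ℝ} (hD : 0 < D)
    (hδ : ∀ T ∈ Ioo (0 : ℝ) 1, ∀ f : ℕ → ℝ, f 4 = T → ∀ p < l.length,
      |D * b (p + 1) T - PE.ev f (l.getD p Bs.z).B|
        ≤ (l.getD p Bs.z).E * ω T
          * (1 - T) ^ (l.getD p Bs.z).h)
    {n2 n3 Dl : ℕ} (herr : errOk n2 n3 l Dl = true)
    {E : Type*} [NormedAddCommGroup E] [InnerProductSpace ℝ E] {H' : ℝ → R9 → ℝ} {HH : PE}
    (hH : ∀ T ∈ Ioo (0 : ℝ) 1, ∀ x N y w : E, ‖x‖ = 1 → ‖N‖ = 1 → ‖y‖ = 1 → ‖w‖ = 1 →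
      ⟪x, N⟫ = 0 → ⟪y, w⟫ = 0 → D * Dn T * (4 * √(AT T) * (1 - T * ⟪x, y⟫) ^ 7
        * H' T (dv x N y w 0)) ≤ PE.ev (vT T ⟪x, y⟫ ⟪x, w⟫ ⟪N, y⟫ ⟪N, w⟫) HH)
    (hQ : ∀ T ∈ Ioo (0 : ℝ) 1, ∀ x N y w : E, ‖x‖ = 1 → ‖N‖ = 1 → ‖y‖ = 1 → ‖w‖ = 1 →
      ⟪x, N⟫ = 0 → ⟪y, w⟫ = 0 → PE.ev (vT T ⟪x, y⟫ ⟪x, w⟫ ⟪N, y⟫ ⟪N, w⟫) HH
        ≤ D * PE.ev (vT T ⟪x, y⟫ ⟪x, w⟫ ⟪N, y⟫ ⟪N, w⟫) (Wt 0 (pcols pV pR))
          + PE.ev (vT T ⟪x, y⟫ ⟪x, w⟫ ⟪N, y⟫ ⟪N, w⟫) (Qs l)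
          - ω T * Dl * PE.ev (vT T ⟪x, y⟫ ⟪x, w⟫ ⟪N, y⟫ ⟪N, w⟫) (pW n2 n3)) :
    ∀ T ∈ Ioo (0 : ℝ) 1, ∀ x N y w : E, ‖x‖ = 1 → ‖N‖ = 1 → ‖y‖ = 1 → ‖w‖ = 1 →
      ⟪x, N⟫ = 0 → ⟪y, w⟫ = 0 →
      gS' ((lG V).map GT.v) T (dv x N y w 0) + H' T (dv x N y w 0)
        ≤ (OT.Rs 5 (lS R) T (dv x N y w 0) + OT.Rs 5 (lS R) T (sw9 (dv x N y w 0))) / 2 := by
  intro T hT x N y w hx hN hy hw hxN hyw
  have hrg := rg_vT hx hN hy hw hxN hyw hT.1 hT.2
  have hP : 0 < 1 - T * ⟪x, y⟫ := hrg.P0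
  have hqV : ∀ u ∈ V, u.K.q ≤ 6 := by
    intro u hu
    have h1 : (u.K, u.r0, u.r1) ∈ pV := by
      rw [← hpV]
      exact List.mem_map_of_mem hu
    exact of_decide_eq_true (List.all_eq_true.1 hV _ h1)
  have hqR : ∀ u ∈ R, u.K.q ≤ 6 := by
    intro u hu
    have h1 : (u.K, u.r) ∈ pR := by
      rw [← hpR]
      exact List.mem_map_of_mem hu
    exact of_decide_eq_true (List.all_eq_true.1 hR _ h1)
  have key := tot_cols hqV hqR hT.1 hT.2 (d := dv x N y w 0) (ne_of_gt hP)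
  have hmap : ((cols V R).map fun c => c.2) = pcols pV pR := by rw [cols_map, hpV, hpR]
  have hc := core hrg (vT4 _ _ _ _ _) (cols := cols V R) (l := l) (b := b) (hb0 T) (Dn := Dn T)
    (by
      intro c hc
      unfold cols at hc
      rcases List.mem_append.1 hc with hc | hc
      · obtain ⟨u, hu, hcu⟩ := List.mem_flatMap.1 hc
        rcases List.mem_cons.1 hcu with rfl | hcu
        · exact hg' T hT _ (vT4 _ _ _ _ _) u hu
        · rcases List.mem_cons.1 hcu with rfl | hcu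
          · exact hg T hT _ (vT4 _ _ _ _ _) u hu
          · exact absurd hcu List.not_mem_nil
      · obtain ⟨u, hu, rfl⟩ := List.mem_map.1 hc
        exact hz T hT _ (vT4 _ _ _ _ _) u hu)
    (fun p hp => by
      rw [hmap]
      exact hid _ (fun i hi => vT_ge _ _ _ _ _ hi) p hp)
    (D := D) (hω T hT) (hδ T hT _ (vT4 _ _ _ _ _)) herr
  rw [hmap] at hc
  have h2 := hQ T hT x N y w hx hN hy hw hxN hyw
  have h3 := hH T hT x N y w hx hN hy hw hxN hyw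
  have h4 : D * Dn T * (4 * √(AT T) * (1 - T * ⟪x, y⟫) ^ 7 * H' T (dv x N y w 0))
      ≤ D * Dn T * (4 * √(AT T) * (1 - T * ⟪x, y⟫) ^ 7
        * ((OT.Rs 5 (lS R) T (dv x N y w 0) + OT.Rs 5 (lS R) T (sw9 (dv x N y w 0))) / 2
          - gS' ((lG V).map GT.v) T (dv x N y w 0))) := by
    have e1 : (dv x N y w (0 : E)) 0 = ⟪x, y⟫ := rfl
    rw [e1] at key
    rw [key]
    exact (h3.trans h2).trans hc
  have hpos : 0 < D * Dn T * (4 * √(AT T) * (1 - T * ⟪x, y⟫) ^ 7) := by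
    have h5 := hDn T hT
    have h6 := Real.sqrt_pos.2 (AT_pos hT.1 hT.2)
    positivity
  have h7 := le_of_mul_le_mul_left (a := D * Dn T * (4 * √(AT T) * (1 - T * ⟪x, y⟫) ^ 7))
    (b := H' T (dv x N y w 0))
    (c := (OT.Rs 5 (lS R) T (dv x N y w 0) + OT.Rs 5 (lS R) T (sw9 (dv x N y w 0))) / 2
      - gS' ((lG V).map GT.v) T (dv x N y w 0)) (by
        refine le_trans (le_of_eq ?_) (h4.trans (le_of_eq ?_)) <;> ring) hpos
  linarith

end

end Vale.Agent.P224.SP
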