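import Vale.Agent.P224.SP.Zero
import Vale.Agent.P224.SP.AsmE

/-!
The certificate with a parameter in dimension five at the parameter zero: the inequality.
-/

namespace Vale.Agent.P224.SP

open Vale.Agent.P224.UE Vale.Agent.P224.POS Vale.Agent.P224.PO Vale.Agent.P224.SO Set
open scoped RealInnerProductSpace

noncomputable section

/-- the value of a column polynomial -/
lemma ev_VKQ (c : VK) (T : ℝ) (d : R9) : PE.ev (vT T (d 0) (d 1) (d 2) (d 3)) c.Q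
    = (1 - d 0) ^ c.a * d 3 ^ c.e
      * ((d 1 ^ c.i * d 2 ^ c.j + d 1 ^ c.j * d 2 ^ c.i) / √6 ^ (c.i + c.j)) := by
  have h6 : √(6 : ℝ) ≠ 0 := by positivity
  set f := vT T (d 0) (d 1) (d 2) (d 3) with hf
  have et : PE.ev f ptt = d 1 / √6 := by
    rw [eq_div_iff h6, mul_comm]
    exact ev_ptt _ _ _ _ _
  have ep : PE.ev f ppp = d 2 / √6 := by
    rw [eq_div_iff h6, mul_comm]
    exact ev_ppp _ _ _ _ _
  have ec : PE.ev f pc = d 3 := ev_pc _ _ _ _ _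
  have e0 : f 0 = d 0 := rfl
  simp only [VK.Q, PE.ev_mul, PE.ev_add, PE.ev_pow, PE.ev_sub, PE.ev_c, PE.ev_v, et, ep, ec, e0,
    Int.cast_one, div_pow]
  rw [pow_add]
  field_simp

lemma AT_zero : AT 0 = 5 := by
  unfold AT
  norm_num

/-- the value part at the parameter zero -/
theorem sum_phi0 (V : List VE) (d : R9) : ((lG V).map fun t => t.φ 0 * t.Q d).sum
    = √5 / 2 * (V.map fun x => x.g 0 * PE.ev (vT 0 (d 0) (d 1) (d 2) (d 3)) x.K.Q).sum := by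
  induction V with
  | nil => simp [lG]
  | cons x V ih =>
    have e : lG (x :: V) = x.K.gts x.g x.g' x.k x.lim ++ lG V := rfl
    rw [e, List.map_append, List.sum_append, ih, List.map_cons (f := fun x : VE =>
      x.g 0 * PE.ev (vT 0 (d 0) (d 1) (d 2) (d 3)) x.K.Q), List.sum_cons, ev_VKQ]
    simp only [VK.gts, List.map_cons, List.map_nil, List.sum_cons, List.sum_nil, GT.Q, VK.phi,
      AT_zero, add_zero]
    have h6p : √(6 : ℝ) ^ (x.K.i + x.K.j) ≠ 0 := pow_ne_zero _ (by positivity)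
    field_simp

/-- the exponents and the values at zero of the functions of the base -/
def pivV (l K : ℝ) : List (VK × ℝ) :=
  [(⟨3, 0, 0, 0, 0⟩, (-107 + 132 * l) / 25), (⟨4, 2, 0, 0, 0⟩, 9 * (l - 1) / 25),
   (⟨3, 0, 0, 0, 1⟩, (88 - 48 * l + 96 * K) / 25), (⟨2, 0, 1, 0, 1⟩, 9 * (l - 1) / 25),
   (⟨3, 0, 1, 0, 1⟩, 6 * (l - 1) / 25), (⟨2, 0, 2, 0, 0⟩, 2088 * (1 - l) / 25),
   (⟨3, 0, 2, 0, 0⟩, 2358 * (1 - l) / 25), (⟨4, 0, 2, 0, 0⟩, 333 * (1 - l) / 5),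
   (⟨3, 0, 2, 0, 1⟩, 0), (⟨4, 0, 2, 0, 1⟩, 0)]

lemma sum_piv (l K : ℝ) (d : R9) :
    ((pivV l K).map fun x => x.2 * PE.ev (vT 0 (d 0) (d 1) (d 2) (d 3)) x.1.Q).sum
      = 2 * G00 (√6) l K (d 0) (d 1) (d 2) (d 3) := by
  have h6 : √(6 : ℝ) ≠ 0 := by positivity
  have h66 : √(6 : ℝ) ^ 2 = 6 := Real.sq_sqrt (by norm_num)
  have h61 : (√(6 : ℝ))⁻¹ = √6 / 6 := by
    field_simp
    exact h66.symm
  simp only [pivV, List.map_cons, List.map_nil, List.sum_cons, List.sum_nil, ev_VKQ, G00, pow_zero,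
    pow_one, one_mul, mul_one, add_zero, zero_mul, h66, div_eq_mul_inv, h61]
  ring

/-- **The inequality at the parameter zero.** -/
theorem h0_of {l K κ X1 X2 ℓu ℓv D0 : ℝ} (h1 : X1 ≤ 1 - l) (h2 : 1 - l ≤ X2)
    {Vp Vf : List VE} (hp : (Vp.map fun x => (x.K, x.g 0)) = pivV l K)
    {F : List (VK × ℤ)} (hf : (Vf.map fun x => (x.K, x.g 0)) = F.map fun y => (y.1, y.2 / D0))
    {E : Type*} [NormedAddCommGroup E] [InnerProductSpace ℝ E]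
    (hQ : ∀ x N y w : E, ‖x‖ = 1 → ‖N‖ = 1 → ‖y‖ = 1 → ‖w‖ = 1 → ⟪x, N⟫ = 0 → ⟪y, w⟫ = 0 →
      ∀ f : ℕ → ℝ, f = vT 0 ⟪x, y⟫ ⟪x, w⟫ ⟪N, y⟫ ⟪N, w⟫ →
      0 ≤ X1 * (108 / 205 * f 3 ^ 2) - X2 * (29484 / 205 * f 2 ^ 2)
        + κ * (648 / 15625 * (f 2 ^ 2 * f 3) + 324 / 15625 * (f 1 * f 3 ^ 2)
          + 5508 / 3125 * (f 1 * f 2 ^ 2) - 708 / 15625 * (f 0 * f 3 ^ 2)
          + 3516 / 3125 * (f 0 * f 2 ^ 2))
        - (6 * ℓu * f 2 ^ 2 + ℓv * f 3 ^ 2)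
        - 1 / (2 * D0) * (F.map fun y => (y.2 : ℝ) * PE.ev f y.1.Q).sum)
    (x N y w : E) (hx : ‖x‖ = 1) (hN : ‖N‖ = 1) (hy : ‖y‖ = 1) (hw : ‖w‖ = 1)
    (hxN : ⟪x, N⟫ = 0) (hyw : ⟪y, w⟫ = 0) :
    ((lG (Vp ++ Vf)).map fun t => t.φ 0 * t.Q (dv x N y w 0)).sum
      ≤ √5 * (1 + (88 / 25 - 48 / 25 * l + 96 / 25 * K + 236 / 15625 * κ) * dv x N y w (0 : E) 3
          - (450 / 41 * (1 - l) * RF (-(187 / 100)) 14 (-(√6 / 6)) (dv x N y w 0)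
            + κ * dv x N y w (0 : E) 0 ^ 3) + R00 (√6) l κ (dv x N y w 0)
          - (ℓu * ((⟪x, w⟫ - ⟪N, y⟫) / 2) ^ 2
            + ℓv * (⟪N, w⟫ - ⟪x, y⟫ - √6 / 6 * ((⟪x, w⟫ + ⟪N, y⟫) / 2)) ^ 2)) := by
  have h66 : √(6 : ℝ) ^ 2 = 6 := Real.sq_sqrt (by norm_num)
  have h6 : √(6 : ℝ) ≠ 0 := by positivity
  set d := dv x N y w (0 : E) with hd
  have d0 : d 0 = ⟪x, y⟫ := rfl
  have d1 : d 1 = ⟪x, w⟫ := rfl
  have d2 : d 2 = ⟪N, y⟫ := rfl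
  have d3 : d 3 = ⟪N, w⟫ := rfl
  have hz := zero_id h66 l K κ d
  rw [sum_phi0, List.map_append, List.sum_append]
  have ep : (Vp.map fun x => x.g 0 * PE.ev (vT 0 (d 0) (d 1) (d 2) (d 3)) x.K.Q).sum
      = 2 * G00 (√6) l K (d 0) (d 1) (d 2) (d 3) := by
    rw [← sum_piv, ← hp, List.map_map]
    rfl
  have ef : (Vf.map fun x => x.g 0 * PE.ev (vT 0 (d 0) (d 1) (d 2) (d 3)) x.K.Q).sum
      = 1 / D0 * (F.map fun y => (y.2 : ℝ) * PE.ev (vT 0 (d 0) (d 1) (d 2) (d 3)) y.1.Q).sum := by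
    have e1 : (Vf.map fun x => x.g 0 * PE.ev (vT 0 (d 0) (d 1) (d 2) (d 3)) x.K.Q)
        = (Vf.map fun x => (x.K, x.g 0)).map fun z =>
          z.2 * PE.ev (vT 0 (d 0) (d 1) (d 2) (d 3)) z.1.Q := by
      rw [List.map_map]
      rfl
    rw [e1, hf, List.map_map, ← List.sum_map_mul_left]
    congr 1
    refine List.map_congr_left fun z _ => ?_
    simp only [Function.comp_apply]
    ring
  rw [ep, ef]
  have h5 := hQ x N y w hx hN hy hw hxN hyw _ rfl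
  have f0 : vT 0 ⟪x, y⟫ ⟪x, w⟫ ⟪N, y⟫ ⟪N, w⟫ 0 = d 0 := rfl
  have h12 : ∀ z : ℝ, z / (2 * √6) = √6 / 12 * z := by
    intro z
    field_simp
    rw [h66]
    ring
  have f1 : vT 0 ⟪x, y⟫ ⟪x, w⟫ ⟪N, y⟫ ⟪N, w⟫ 1 = √6 / 12 * (d 1 + d 2) := h12 _
  have f2 : vT 0 ⟪x, y⟫ ⟪x, w⟫ ⟪N, y⟫ ⟪N, w⟫ 2 = √6 / 12 * (d 2 - d 1) := h12 _
  have f3 : vT 0 ⟪x, y⟫ ⟪x, w⟫ ⟪N, y⟫ ⟪N, w⟫ 3 = d 3 - d 0 - √6 / 6 * ((d 1 + d 2) / 2) := by
    have e : vT 0 ⟪x, y⟫ ⟪x, w⟫ ⟪N, y⟫ ⟪N, w⟫ 3 = d 3 - d 0 - (d 1 + d 2) / (2 * √6) := rfl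
    rw [e, h12]
    ring
  rw [f0, f1, f2, f3] at h5
  rw [← d0, ← d1, ← d2, ← d3] at h5 ⊢
  set v := d 3 - d 0 - √6 / 6 * ((d 1 + d 2) / 2) with hv
  set u := √6 / 12 * (d 2 - d 1) with hu
  have hu2 : ℓu * ((d 1 - d 2) / 2) ^ 2 = 6 * ℓu * u ^ 2 := by
    rw [hu]
    linear_combination (-(6 * ℓu * (d 2 - d 1) ^ 2 / 144)) * h66
  have h7 : X1 * (108 / 205 * v ^ 2) ≤ (1 - l) * (108 / 205 * v ^ 2) :=
    mul_le_mul_of_nonneg_right h1 (by positivity)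
  have h8 : (1 - l) * (29484 / 205 * u ^ 2) ≤ X2 * (29484 / 205 * u ^ 2) :=
    mul_le_mul_of_nonneg_right h2 (by positivity)
  have h9 : (0 : ℝ) ≤ √5 := Real.sqrt_nonneg 5
  rw [hu2]
  have key : G00 (√6) l K (d 0) (d 1) (d 2) (d 3) + 1 / (2 * D0) * (F.map fun y =>
      (y.2 : ℝ) * PE.ev (vT 0 (d 0) (d 1) (d 2) (d 3)) y.1.Q).sum
      ≤ 1 + (88 / 25 - 48 / 25 * l + 96 / 25 * K + 236 / 15625 * κ) * d 3
          - (450 / 41 * (1 - l) * RF (-(187 / 100)) 14 (-(√6 / 6)) d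
            + κ * d 0 ^ 3) + R00 (√6) l κ d - (6 * ℓu * u ^ 2 + ℓv * v ^ 2) := by
    rw [hz]
    linarith
  have e3 : √5 / 2 * (2 * G00 (√6) l K (d 0) (d 1) (d 2) (d 3) + 1 / D0 * (F.map fun y =>
      (y.2 : ℝ) * PE.ev (vT 0 (d 0) (d 1) (d 2) (d 3)) y.1.Q).sum)
      = √5 * (G00 (√6) l K (d 0) (d 1) (d 2) (d 3) + 1 / (2 * D0) * (F.map fun y =>
      (y.2 : ℝ) * PE.ev (vT 0 (d 0) (d 1) (d 2) (d 3)) y.1.Q).sum) := by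
    rw [one_div, one_div, mul_inv]
    ring
  rw [e3]
  exact mul_le_mul_of_nonneg_left key h9

end

end Vale.Agent.P224.SP
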