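import Vale.Agent.P224.SP.ZeroF

/-!
The certificate with a parameter in dimension five at the parameter zero: data.
-/

namespace Vale.Agent.P224.SP

open Vale.Agent.P224.UE Vale.Agent.P224.POS Vale.Agent.P224.PO Vale.Agent.P224.SO Set
open scoped RealInnerProductSpace

noncomputable section

/-- the values at zero of the free value functions, times the denominator -/
def F0 : List (VK × ℤ) := [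
  (⟨3, 0, 0, 0, 0⟩, 1090183123696),
  (⟨3, 0, 0, 0, 1⟩, -2180366247392),
  (⟨3, 0, 0, 0, 2⟩, 1090183123696),
  (⟨3, 0, 1, 0, 0⟩, 2039314310560),
  (⟨3, 0, 1, 0, 1⟩, -1898262373728),
  (⟨3, 0, 1, 0, 2⟩, -141051936832),
  (⟨3, 0, 1, 1, 0⟩, 404039625016),
  (⟨3, 0, 1, 1, 1⟩, 141051936832),
  (⟨3, 0, 2, 0, 0⟩, 404039625016),
  (⟨3, 0, 2, 0, 1⟩, 141051936832),
  (⟨3, 0, 2, 1, 0⟩, -105788952624),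
  (⟨3, 0, 3, 0, 0⟩, -35262984208),
  (⟨3, 1, 0, 0, 0⟩, -2177812349792),
  (⟨3, 1, 0, 0, 1⟩, 2175258452192),
  (⟨3, 1, 0, 0, 2⟩, 2553897600),
  (⟨3, 1, 1, 0, 0⟩, -1893154578528),
  (⟨3, 1, 1, 0, 1⟩, -287211668864),
  (⟨3, 1, 1, 0, 2⟩, 0),
  (⟨3, 1, 1, 1, 0⟩, 142328885632),
  (⟨3, 1, 1, 1, 1⟩, 0),
  (⟨3, 1, 2, 0, 0⟩, 142328885632),
  (⟨3, 1, 2, 0, 1⟩, 0),
  (⟨3, 1, 2, 1, 0⟩, 0),
  (⟨3, 1, 3, 0, 0⟩, 0),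
  (⟨3, 2, 0, 0, 0⟩, 1085075328496),
  (⟨3, 2, 0, 0, 1⟩, 5107795200),
  (⟨3, 2, 0, 0, 2⟩, 0),
  (⟨3, 2, 1, 0, 0⟩, -146159732032),
  (⟨3, 2, 1, 0, 1⟩, 0),
  (⟨3, 2, 1, 0, 2⟩, 0),
  (⟨3, 2, 1, 1, 0⟩, 0),
  (⟨3, 2, 1, 1, 1⟩, 0),
  (⟨3, 2, 2, 0, 0⟩, 0),
  (⟨3, 2, 2, 0, 1⟩, 0),
  (⟨3, 2, 2, 1, 0⟩, 0),
  (⟨3, 2, 3, 0, 0⟩, 0),
  (⟨3, 3, 0, 0, 0⟩, 2553897600),
  (⟨3, 3, 0, 0, 1⟩, 0),
  (⟨3, 3, 0, 0, 2⟩, 0),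
  (⟨3, 3, 1, 0, 0⟩, 0),
  (⟨3, 3, 1, 0, 1⟩, 0),
  (⟨3, 3, 1, 0, 2⟩, 0),
  (⟨3, 3, 1, 1, 0⟩, 0),
  (⟨3, 3, 1, 1, 1⟩, 0),
  (⟨3, 3, 2, 0, 0⟩, 0),
  (⟨3, 3, 2, 0, 1⟩, 0),
  (⟨3, 3, 2, 1, 0⟩, 0),
  (⟨3, 3, 3, 0, 0⟩, 0),
  (⟨3, 4, 0, 0, 0⟩, 0),
  (⟨3, 4, 0, 0, 1⟩, 0),
  (⟨3, 4, 1, 0, 0⟩, 0),
  (⟨3, 4, 1, 0, 1⟩, 0),
  (⟨3, 4, 1, 1, 0⟩, 0),
  (⟨3, 4, 2, 0, 0⟩, 0),
  (⟨3, 5, 0, 0, 0⟩, 0),
  (⟨3, 5, 1, 0, 0⟩, 0),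
  (⟨4, 0, 0, 0, 0⟩, -1913133770416),
  (⟨4, 0, 0, 0, 1⟩, 3826267540832),
  (⟨4, 0, 0, 0, 2⟩, -1913133770416),
  (⟨4, 0, 1, 0, 0⟩, -3451009120112),
  (⟨4, 0, 1, 0, 1⟩, 3075750699392),
  (⟨4, 0, 1, 0, 2⟩, 375258420720),
  (⟨4, 0, 1, 1, 0⟩, -1680738530000),
  (⟨4, 0, 1, 1, 1⟩, 2610143562896),
  (⟨4, 0, 1, 1, 2⟩, 64725782504),
  (⟨4, 0, 2, 0, 0⟩, 647573166032),
  (⟨4, 0, 2, 0, 1⟩, -3619563534352),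
  (⟨4, 0, 2, 0, 2⟩, 64725782504),
  (⟨4, 0, 2, 1, 0⟩, 1048011049964),
  (⟨4, 0, 2, 1, 1⟩, -416429941388),
  (⟨4, 0, 2, 2, 0⟩, 48544336878),
  (⟨4, 0, 3, 0, 0⟩, -413849499228),
  (⟨4, 0, 3, 0, 1⟩, 157526811372),
  (⟨4, 0, 3, 1, 0⟩, 64725782504),
  (⟨4, 0, 4, 0, 0⟩, 16181445626),
  (⟨4, 1, 0, 0, 0⟩, 3826267540832),
  (⟨4, 1, 0, 0, 1⟩, -3826267540832),
  (⟨4, 1, 1, 0, 0⟩, 3075750699392),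
  (⟨4, 1, 1, 0, 1⟩, 750516841440),
  (⟨4, 1, 1, 1, 0⟩, -474171430528),
  (⟨4, 1, 1, 1, 1⟩, 129451565008),
  (⟨4, 1, 1, 1, 2⟩, 0),
  (⟨4, 1, 2, 0, 0⟩, -535248540928),
  (⟨4, 1, 2, 0, 1⟩, 129451565008),
  (⟨4, 1, 2, 0, 2⟩, 0),
  (⟨4, 1, 2, 1, 0⟩, -194177347512),
  (⟨4, 1, 2, 1, 1⟩, 0),
  (⟨4, 1, 2, 2, 0⟩, 0),
  (⟨4, 1, 3, 0, 0⟩, -64725782504),
  (⟨4, 1, 3, 0, 1⟩, 0),
  (⟨4, 1, 3, 1, 0⟩, 0),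
  (⟨4, 1, 4, 0, 0⟩, 0),
  (⟨4, 2, 0, 0, 0⟩, -1913133770416),
  (⟨4, 2, 1, 0, 0⟩, 375258420720),
  (⟨4, 2, 1, 1, 0⟩, 64725782504),
  (⟨4, 2, 1, 1, 1⟩, 0),
  (⟨4, 2, 1, 1, 2⟩, 0),
  (⟨4, 2, 2, 0, 0⟩, 64725782504),
  (⟨4, 2, 2, 0, 1⟩, 0),
  (⟨4, 2, 2, 0, 2⟩, 0),
  (⟨4, 2, 2, 1, 0⟩, 0),
  (⟨4, 2, 2, 1, 1⟩, 0),
  (⟨4, 2, 2, 2, 0⟩, 0),
  (⟨4, 2, 3, 0, 0⟩, 0),
  (⟨4, 2, 3, 0, 1⟩, 0),
  (⟨4, 2, 3, 1, 0⟩, 0),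
  (⟨4, 2, 4, 0, 0⟩, 0),
  (⟨4, 3, 1, 1, 0⟩, 0),
  (⟨4, 3, 1, 1, 1⟩, 0),
  (⟨4, 3, 1, 1, 2⟩, 0),
  (⟨4, 3, 2, 0, 0⟩, 0),
  (⟨4, 3, 2, 0, 1⟩, 0),
  (⟨4, 3, 2, 0, 2⟩, 0),
  (⟨4, 3, 2, 1, 0⟩, 0),
  (⟨4, 3, 2, 1, 1⟩, 0),
  (⟨4, 3, 2, 2, 0⟩, 0),
  (⟨4, 3, 3, 0, 0⟩, 0),
  (⟨4, 3, 3, 0, 1⟩, 0),
  (⟨4, 3, 3, 1, 0⟩, 0),
  (⟨4, 3, 4, 0, 0⟩, 0),
  (⟨4, 4, 1, 1, 0⟩, 0),
  (⟨4, 4, 1, 1, 1⟩, 0),
  (⟨4, 4, 2, 0, 0⟩, 0),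
  (⟨4, 4, 2, 0, 1⟩, 0),
  (⟨4, 4, 2, 1, 0⟩, 0),
  (⟨4, 4, 3, 0, 0⟩, 0),
  (⟨4, 5, 1, 1, 0⟩, 0),
  (⟨4, 5, 2, 0, 0⟩, 0),
  (⟨5, 0, 0, 0, 0⟩, 1060718997488),
  (⟨5, 0, 0, 0, 1⟩, -2121437994976),
  (⟨5, 0, 0, 0, 2⟩, 1060718997488),
  (⟨5, 0, 1, 0, 0⟩, 1797323781456),
  (⟨5, 0, 1, 0, 1⟩, -1473209567936),
  (⟨5, 0, 1, 0, 2⟩, -324114213520),
  (⟨5, 0, 1, 1, 0⟩, 1508195901784),
  (⟨5, 0, 1, 1, 1⟩, -3444244092672),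
  (⟨5, 0, 1, 1, 2⟩, -115767889560),
  (⟨5, 0, 2, 0, 0⟩, -1327241110456),
  (⟨5, 0, 2, 0, 1⟩, 4555544077952),
  (⟨5, 0, 2, 0, 2⟩, -115767889560),
  (⟨5, 0, 2, 1, 0⟩, -1660753786872),
  (⟨5, 0, 2, 1, 1⟩, 628687861804),
  (⟨5, 0, 2, 2, 0⟩, -74662718546),
  (⟨5, 0, 2, 2, 1⟩, -270784838330),
  (⟨5, 0, 3, 0, 0⟩, 873568015112),
  (⟨5, 0, 3, 0, 1⟩, -165616303564),
  (⟨5, 0, 3, 1, 0⟩, -115767889560),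
  (⟨5, 0, 4, 0, 0⟩, -41105171014),
  (⟨5, 0, 4, 0, 1⟩, 270784838330),
  (⟨5, 1, 0, 0, 0⟩, -2121437994976),
  (⟨5, 1, 0, 0, 1⟩, 2121437994976),
  (⟨5, 1, 1, 0, 0⟩, -1473209567936),
  (⟨5, 1, 1, 0, 1⟩, -648228427040),
  (⟨5, 1, 1, 1, 0⟩, 555649992640),
  (⟨5, 1, 1, 1, 1⟩, -231535779120),
  (⟨5, 1, 2, 0, 0⟩, 555649992640),
  (⟨5, 1, 2, 0, 1⟩, -231535779120),
  (⟨5, 1, 2, 1, 0⟩, 347303668680),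
  (⟨5, 1, 2, 2, 0⟩, 0),
  (⟨5, 1, 2, 2, 1⟩, 0),
  (⟨5, 1, 3, 0, 0⟩, 115767889560),
  (⟨5, 1, 4, 0, 0⟩, 0),
  (⟨5, 1, 4, 0, 1⟩, 0),
  (⟨5, 2, 0, 0, 0⟩, 1060718997488),
  (⟨5, 2, 1, 0, 0⟩, -324114213520),
  (⟨5, 2, 1, 1, 0⟩, -115767889560),
  (⟨5, 2, 2, 0, 0⟩, -115767889560),
  (⟨5, 2, 2, 2, 0⟩, 0),
  (⟨5, 2, 2, 2, 1⟩, 0),
  (⟨5, 2, 4, 0, 0⟩, 0),
  (⟨5, 2, 4, 0, 1⟩, 0),
  (⟨5, 3, 2, 2, 0⟩, 0),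
  (⟨5, 3, 2, 2, 1⟩, 0),
  (⟨5, 3, 4, 0, 0⟩, 0),
  (⟨5, 3, 4, 0, 1⟩, 0),
  (⟨6, 0, 0, 0, 0⟩, -240159179664),
  (⟨6, 0, 0, 0, 1⟩, 480318359328),
  (⟨6, 0, 0, 0, 2⟩, -240159179664),
  (⟨6, 0, 1, 0, 0⟩, -389241896896),
  (⟨6, 0, 1, 0, 1⟩, 298165434464),
  (⟨6, 0, 1, 0, 2⟩, 91076462432),
  (⟨6, 0, 1, 1, 0⟩, -230205161296),
  (⟨6, 0, 1, 1, 1⟩, 690711127344),
  (⟨6, 0, 1, 1, 2⟩, 51042107056),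
  (⟨6, 0, 2, 0, 0⟩, 274283120608),
  (⟨6, 0, 2, 0, 1⟩, -1077032480432),
  (⟨6, 0, 2, 0, 2⟩, 51042107056),
  (⟨6, 0, 2, 1, 0⟩, 695157033532),
  (⟨6, 0, 2, 1, 1⟩, -212257920416),
  (⟨6, 0, 2, 2, 0⟩, 26118381668),
  (⟨6, 0, 2, 2, 1⟩, 270784838330),
  (⟨6, 0, 3, 0, 0⟩, -399912142876),
  (⟨6, 0, 3, 0, 1⟩, 8089492192),
  (⟨6, 0, 3, 1, 0⟩, 51042107056),
  (⟨6, 0, 4, 0, 0⟩, 24923725388),
  (⟨6, 0, 4, 0, 1⟩, -270784838330),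
  (⟨6, 1, 0, 0, 0⟩, 480318359328),
  (⟨6, 1, 0, 0, 1⟩, -480318359328),
  (⟨6, 1, 1, 0, 0⟩, 298165434464),
  (⟨6, 1, 1, 0, 1⟩, 182152924864),
  (⟨6, 1, 1, 1, 0⟩, -193160676544),
  (⟨6, 1, 1, 1, 1⟩, 102084214112),
  (⟨6, 1, 2, 0, 0⟩, -193160676544),
  (⟨6, 1, 2, 0, 1⟩, 102084214112),
  (⟨6, 1, 2, 1, 0⟩, -153126321168),
  (⟨6, 1, 3, 0, 0⟩, -51042107056),
  (⟨6, 2, 0, 0, 0⟩, -240159179664),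
  (⟨6, 2, 1, 0, 0⟩, 91076462432),
  (⟨6, 2, 1, 1, 0⟩, 51042107056),
  (⟨6, 2, 2, 0, 0⟩, 51042107056)]


/-- the kernel identity for the free value functions at zero -/
theorem F0_id : chk [] ((PE.mul (.c 1) (fPE F0)).sub (zPE (-127428289408) 326137408 7214400))
    = true := by
  decide +kernel


/-- the coefficient of the cube -/
def kapD : ℝ := 23484375 / 8388608

/-- the coefficient of `‖e‖ ^ 2` -/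
def gamD : ℝ := 88 / 25 - 48 / 25 * Real.log (8 / 3)
  + 96 / 25 * (Real.log (4 + √15) - √15 / 2 - Real.log (3 / 2)) + 236 / 15625 * kapD

/-- the coefficient of the resource -/
def rhoD : ℝ := 450 / 41 * (1 - Real.log (8 / 3))

/-- **The inequality at the parameter zero**, with the data. -/
theorem h0_D {Vp Vf : List VE}
    (hp : (Vp.map fun x => (x.K, x.g 0))
      = pivV (Real.log (8 / 3)) (Real.log (4 + √15) - √15 / 2 - Real.log (3 / 2)))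
    (hf : (Vf.map fun x => (x.K, x.g 0)) = F0.map fun y => (y.1, (y.2 : ℝ) / 20132659200))
    {E : Type*} [NormedAddCommGroup E] [InnerProductSpace ℝ E]
    (x N y w : E) (hx : ‖x‖ = 1) (hN : ‖N‖ = 1) (hy : ‖y‖ = 1) (hw : ‖w‖ = 1)
    (hxN : ⟪x, N⟫ = 0) (hyw : ⟪y, w⟫ = 0) :
    ((lG (Vp ++ Vf)).map fun t => t.φ 0 * t.Q (dv x N y w 0)).sum
      ≤ √5 * (1 + gamD * dv x N y w (0 : E) 3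
          - (rhoD * RF (-(187 / 100)) 14 (-(√6 / 6)) (dv x N y w 0)
            + kapD * dv x N y w (0 : E) 0 ^ 3) + R00 (√6) (Real.log (8 / 3)) kapD (dv x N y w 0)
          - (1 / 15 * ((⟪x, w⟫ - ⟪N, y⟫) / 2) ^ 2
            + 1 / 500 * (⟪N, w⟫ - ⟪x, y⟫ - √6 / 6 * ((⟪x, w⟫ + ⟪N, y⟫) / 2)) ^ 2)) :=
  h0_of one_sub_log.1 one_sub_log.2 hp hf (fun x N y w _ _ _ _ _ _ f hfe =>
    hQ_of F0_id (D0 := 20132659200) (by norm_num) (by norm_num)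
      (by unfold kapD; norm_num) (by norm_num) (by norm_num) f (fun i hi => by
        rw [hfe]
        exact vT_ge _ _ _ _ _ hi)) x N y w hx hN hy hw hxN hyw

lemma rhoD_bd : (21 : ℝ) / 100 ≤ rhoD ∧ rhoD ≤ 211 / 1000 := by
  have h := one_sub_log
  unfold rhoD
  constructor <;> linarith [h.1, h.2]

lemma log_31_32 : |Real.log (31 / 32) + 3174869831 / 100000000000| ≤ 1 / 10000000000 := by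
  have h := Real.abs_log_sub_add_sum_range_le (x := 1 / 32) (by rw [abs_of_pos] <;> norm_num) 7
  have e1 : (1 : ℝ) - 1 / 32 = 31 / 32 := by norm_num
  rw [e1, abs_of_pos (show (0 : ℝ) < 1 / 32 by norm_num)] at h
  simp only [Finset.sum_range_succ, Finset.sum_range_zero] at h
  norm_num at h
  rw [abs_le] at h ⊢
  constructor <;> linarith [h.1, h.2]

lemma gamD_bd : (3 : ℝ) / 5 ≤ gamD ∧ gamD ≤ 61 / 100 := by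
  have h := one_sub_log
  have g1 := Real.log_two_gt_d9
  have g2 := Real.log_two_lt_d9
  have g3 := abs_le.1 log_31_32
  have s1 : (387298 : ℝ) / 100000 ≤ √15 := Real.le_sqrt_of_sq_le (by norm_num)
  have s2 : √(15 : ℝ) ≤ 387299 / 100000 := Real.sqrt_le_iff.2 ⟨by norm_num, by norm_num⟩
  have s3 : √(15 : ℝ) ^ 2 = 15 := Real.sq_sqrt (by norm_num)
  have e1 : Real.log (3 / 2) = 2 * Real.log 2 - Real.log (8 / 3) := by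
    have e : (3 / 2 : ℝ) = 2 ^ 2 / (8 / 3) := by norm_num
    rw [e, Real.log_div (by norm_num) (by norm_num), Real.log_pow]
    norm_num
  have e8 : Real.log 8 = 3 * Real.log 2 := by
    rw [show (8 : ℝ) = 2 ^ 3 by norm_num, Real.log_pow]
    norm_num
  have up : Real.log (4 + √15) ≤ 3 * Real.log 2 + Real.log (31 / 32) / 2
      + (8 * √15 - 31) / 124 := by
    have h1 : 2 * Real.log (4 + √15) = Real.log 62 + Real.log ((31 + 8 * √15) / 62) := by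
      rw [← Real.log_mul (by norm_num) (by positivity),
        show (2 : ℝ) * Real.log (4 + √15) = Real.log ((4 + √15) ^ 2) by
          rw [Real.log_pow]; norm_num]
      congr 1
      field_simp
      linear_combination s3
    have h2 := Real.log_le_sub_one_of_pos (show 0 < (31 + 8 * √15) / 62 by positivity)
    have h3 : Real.log 62 = 6 * Real.log 2 + Real.log (31 / 32) := by
      rw [show (62 : ℝ) = 2 ^ 6 * (31 / 32) by norm_num, Real.log_mul (by norm_num) (by norm_num),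
        Real.log_pow]
      norm_num
    linarith
  have lo : 3 * Real.log 2 + 1 - 8 * (4 - √15) ≤ Real.log (4 + √15) := by
    have h1 : Real.log 8 = Real.log (4 + √15) + Real.log (8 * (4 - √15)) := by
      rw [← Real.log_mul (by positivity) (by nlinarith)]
      congr 1
      linear_combination 8 * s3
    have h2 := Real.log_le_sub_one_of_pos (show 0 < 8 * (4 - √15) by nlinarith)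
    linarith
  unfold gamD kapD
  rw [e1]
  constructor <;> linarith [h.1, h.2, g3.1, g3.2]

end

end Vale.Agent.P224.SP
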