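import Vale.Agent.P224.SP.ZeroD

/-!
Numerical bounds for the constants of the certificate with a parameter in dimension five.
-/

namespace Vale.Agent.P224.SP

noncomputable section

lemma rhoD_bd2 : (21041 : ℝ) / 100000 ≤ rhoD ∧ rhoD ≤ 21042 / 100000 := by
  have h := one_sub_log
  unfold rhoD
  constructor <;> linarith [h.1, h.2]

lemma rhoD_lu : 95 / 100 * rhoD ≤ 3 * (1 / 15) := by linarith [rhoD_bd2.2]

lemma rhoD_lv : 95 / 10000 * rhoD ≤ 1 / 500 := by linarith [rhoD_bd2.2]

lemma rhoD_l3 : 3 * (1 / 15) ≤ 14 * rhoD + 73 / 2 * (1 / 500) := by linarith [rhoD_bd2.1]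

lemma gamD_bd2 : (6090 : ℝ) / 10000 ≤ gamD ∧ gamD ≤ 6096 / 10000 := by
  have h := one_sub_log
  have g1 := Real.log_two_gt_d9
  have g2 := Real.log_two_lt_d9
  have g3 := abs_le.1 log_31_32
  have s1 : (3872983 : ℝ) / 1000000 ≤ √15 := Real.le_sqrt_of_sq_le (by norm_num)
  have s2 : √(15 : ℝ) ≤ 3872984 / 1000000 := Real.sqrt_le_iff.2 ⟨by norm_num, by norm_num⟩
  have s3 : √(15 : ℝ) ^ 2 = 15 := Real.sq_sqrt (by norm_num)
  have e1 : Real.log (3 / 2) = 2 * Real.log 2 - Real.log (8 / 3) := by
    have e : (3 / 2 : ℝ) = 2 ^ 2 / (8 / 3) := by norm_num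
    rw [e, Real.log_div (by norm_num) (by norm_num), Real.log_pow]
    norm_num
  have e8 : Real.log 8 = 3 * Real.log 2 := by
    rw [show (8 : ℝ) = 2 ^ 3 by norm_num, Real.log_pow]
    norm_num
  have up : Real.log (4 + √15) ≤ 3 * Real.log 2 + Real.log (31 / 32) / 2
      + (8 * √15 - 31) / 124 := by
    have h1 : 2 * Real.log (4 + √15) = Real.log 62 + Real.log ((31 + 8 * √15) / 62) := by
      rw [← Real.log_mul (by norm_num) (by positivity),
        show (2 : ℝ) * Real.log (4 + √15) = Real.log ((4 + √15) ^ 2) by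
          rw [Real.log_pow]; norm_num]
      congr 1
      field_simp
      linear_combination s3
    have h2 := Real.log_le_sub_one_of_pos (show 0 < (31 + 8 * √15) / 62 by positivity)
    have h3 : Real.log 62 = 6 * Real.log 2 + Real.log (31 / 32) := by
      rw [show (62 : ℝ) = 2 ^ 6 * (31 / 32) by norm_num, Real.log_mul (by norm_num) (by norm_num),
        Real.log_pow]
      norm_num
    linarith
  have lo : 3 * Real.log 2 + 1 - 8 * (4 - √15) ≤ Real.log (4 + √15) := by
    have h1 : Real.log 8 = Real.log (4 + √15) + Real.log (8 * (4 - √15)) := by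
      rw [← Real.log_mul (by positivity) (by nlinarith)]
      congr 1
      linear_combination 8 * s3
    have h2 := Real.log_le_sub_one_of_pos (show 0 < 8 * (4 - √15) by nlinarith)
    linarith
  unfold gamD kapD
  rw [e1]
  constructor <;> linarith [h.1, h.2, g3.1, g3.2]

end

end Vale.Agent.P224.SP
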