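import Mathlib.Analysis.SpecialFunctions.Log.Deriv
import Mathlib.Analysis.SpecialFunctions.Exponential

/-!
Precise bounds for logarithms of small rational numbers.
-/

namespace Vale.Agent.P224.LG

open Real

lemma lgA : |log (15 / 16) + 6453852113757 / 100000000000000| ≤ 1 / 50000000000000 := by
  have h := Real.abs_log_sub_add_sum_range_le (x := 1 / 16) (by rw [abs_of_pos] <;> norm_num) 12
  have e1 : (1 : ℝ) - 1 / 16 = 15 / 16 := by norm_num
  rw [e1, abs_of_pos (show (0 : ℝ) < 1 / 16 by norm_num)] at h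
  simp only [Finset.sum_range_succ, Finset.sum_range_zero] at h
  norm_num at h
  rw [abs_le] at h ⊢
  constructor <;> linarith [h.1, h.2]

lemma lgB : |log (24 / 25) + 4082199452026 / 100000000000000| ≤ 1 / 50000000000000 := by
  have h := Real.abs_log_sub_add_sum_range_le (x := 1 / 25) (by rw [abs_of_pos] <;> norm_num) 10
  have e1 : (1 : ℝ) - 1 / 25 = 24 / 25 := by norm_num
  rw [e1, abs_of_pos (show (0 : ℝ) < 1 / 25 by norm_num)] at h
  simp only [Finset.sum_range_succ, Finset.sum_range_zero] at h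
  norm_num at h
  rw [abs_le] at h ⊢
  constructor <;> linarith [h.1, h.2]

lemma lgC : |log (80 / 81) + 1242251999856 / 100000000000000| ≤ 1 / 50000000000000 := by
  have h := Real.abs_log_sub_add_sum_range_le (x := 1 / 81) (by rw [abs_of_pos] <;> norm_num) 8
  have e1 : (1 : ℝ) - 1 / 81 = 80 / 81 := by norm_num
  rw [e1, abs_of_pos (show (0 : ℝ) < 1 / 81 by norm_num)] at h
  simp only [Finset.sum_range_succ, Finset.sum_range_zero] at h
  norm_num at h
  rw [abs_le] at h ⊢
  constructor <;> linarith [h.1, h.2]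

lemma lgD : |log (49 / 50) + 2020270731752 / 100000000000000| ≤ 1 / 50000000000000 := by
  have h := Real.abs_log_sub_add_sum_range_le (x := 1 / 50) (by rw [abs_of_pos] <;> norm_num) 9
  have e1 : (1 : ℝ) - 1 / 50 = 49 / 50 := by norm_num
  rw [e1, abs_of_pos (show (0 : ℝ) < 1 / 50 by norm_num)] at h
  simp only [Finset.sum_range_succ, Finset.sum_range_zero] at h
  norm_num at h
  rw [abs_le] at h ⊢
  constructor <;> linarith [h.1, h.2]

lemma lg2 : log 2 = -(7 * log (15 / 16) + 5 * log (24 / 25) + 3 * log (80 / 81)) := by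
  have h : 7 * log (15 / 16) + 5 * log (24 / 25) + 3 * log (80 / 81) + log 2 = log 1 := by
    rw [show (7 : ℝ) * log (15 / 16) = log ((15 / 16) ^ 7) by rw [Real.log_pow]; norm_num,
      show (5 : ℝ) * log (24 / 25) = log ((24 / 25) ^ 5) by rw [Real.log_pow]; norm_num,
      show (3 : ℝ) * log (80 / 81) = log ((80 / 81) ^ 3) by rw [Real.log_pow]; norm_num,
      ← Real.log_mul (by norm_num) (by norm_num), ← Real.log_mul (by norm_num) (by norm_num),
      ← Real.log_mul (by norm_num) (by norm_num)]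
    norm_num
  rw [Real.log_one] at h
  linarith

lemma lg3 : log 3 = -(11 * log (15 / 16) + 8 * log (24 / 25) + 5 * log (80 / 81)) := by
  have h : 11 * log (15 / 16) + 8 * log (24 / 25) + 5 * log (80 / 81) + log 3 = log 1 := by
    rw [show (11 : ℝ) * log (15 / 16) = log ((15 / 16) ^ 11) by rw [Real.log_pow]; norm_num,
      show (8 : ℝ) * log (24 / 25) = log ((24 / 25) ^ 8) by rw [Real.log_pow]; norm_num,
      show (5 : ℝ) * log (80 / 81) = log ((80 / 81) ^ 5) by rw [Real.log_pow]; norm_num,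
      ← Real.log_mul (by norm_num) (by norm_num), ← Real.log_mul (by norm_num) (by norm_num),
      ← Real.log_mul (by norm_num) (by norm_num)]
    norm_num
  rw [Real.log_one] at h
  linarith

lemma lg5 : log 5 = -(16 * log (15 / 16) + 12 * log (24 / 25) + 7 * log (80 / 81)) := by
  have h : 16 * log (15 / 16) + 12 * log (24 / 25) + 7 * log (80 / 81) + log 5 = log 1 := by
    rw [show (16 : ℝ) * log (15 / 16) = log ((15 / 16) ^ 16) by rw [Real.log_pow]; norm_num,
      show (12 : ℝ) * log (24 / 25) = log ((24 / 25) ^ 12) by rw [Real.log_pow]; norm_num,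
      show (7 : ℝ) * log (80 / 81) = log ((80 / 81) ^ 7) by rw [Real.log_pow]; norm_num,
      ← Real.log_mul (by norm_num) (by norm_num), ← Real.log_mul (by norm_num) (by norm_num),
      ← Real.log_mul (by norm_num) (by norm_num)]
    norm_num
  rw [Real.log_one] at h
  linarith

lemma lg7 : 2 * log 7 = log (49 / 50) + log 2 + 2 * log 5 := by
  rw [show (2 : ℝ) * log 7 = log (7 ^ 2) by rw [Real.log_pow]; norm_num,
    show (2 : ℝ) * log 5 = log (5 ^ 2) by rw [Real.log_pow]; norm_num,
    ← Real.log_mul (by norm_num) (by norm_num), ← Real.log_mul (by norm_num) (by norm_num)]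
  norm_num

lemma bd2 : (693147180558 : ℝ) / 1000000000000 ≤ log 2 ∧ log 2 ≤ 693147180562 / 1000000000000 := by
  have hA := abs_le.1 lgA
  have hB := abs_le.1 lgB
  have hC := abs_le.1 lgC
  rw [lg2]
  constructor <;> linarith [hA.1, hA.2, hB.1, hB.2, hC.1, hC.2]

lemma bd3 : (1098612288666 : ℝ) / 1000000000000 ≤ log 3 ∧ log 3 ≤ 1098612288670 / 1000000000000 := by
  have hA := abs_le.1 lgA
  have hB := abs_le.1 lgB
  have hC := abs_le.1 lgC
  rw [lg3]
  constructor <;> linarith [hA.1, hA.2, hB.1, hB.2, hC.1, hC.2]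

lemma bd5 : (1609437912432 : ℝ) / 1000000000000 ≤ log 5 ∧ log 5 ≤ 1609437912436 / 1000000000000 := by
  have hA := abs_le.1 lgA
  have hB := abs_le.1 lgB
  have hC := abs_le.1 lgC
  rw [lg5]
  constructor <;> linarith [hA.1, hA.2, hB.1, hB.2, hC.1, hC.2]

lemma bd7 : (1945910149053 : ℝ) / 1000000000000 ≤ log 7 ∧ log 7 ≤ 1945910149057 / 1000000000000 := by
  have hA := abs_le.1 lgA
  have hB := abs_le.1 lgB
  have hC := abs_le.1 lgC
  have hD := abs_le.1 lgD
  have h7 := lg7
  rw [lg2, lg5] at h7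
  constructor <;> linarith [hA.1, hA.2, hB.1, hB.2, hC.1, hC.2, hD.1, hD.2]

end Vale.Agent.P224.LG
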