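import Vale.Agent.P224.SP.Right0

/-!
Models of the scalar functions on `(1/4, 1)`.
-/

namespace Vale.Agent.P224.SP

open Set Real

/-- `f3c = b13 (L13 - L13 1)` -/
noncomputable def f3c (T : ℝ) : ℝ := b13 T * (L13 T - L13 1)

/-- `f4 = sqrt (3/5) b13` -/
noncomputable def f4 (T : ℝ) : ℝ := √(3 / 5) * b13 T

/-- radicands -/
def r1L : List ℤ := [5, -4, -1]
/-- radicand of `y1 y2` (times 25) -/
def r12L : List ℤ := [25, 0, -26, 0, 1]
/-- radicand of `b13` (times 5) -/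
def r3L : List ℤ := [5, 6, 1]

/-- the right domain -/
def SR : Set ℝ := Ioo (1 / 4) 1

/-- the right weight -/
noncomputable def wR (T : ℝ) : ℝ := (1 - T) ^ 8

lemma wtR : WtA SR wR := by
  intro T hT
  have h1 : (1 : ℝ) / 4 < T := hT.1
  have h2 : T < 1 := hT.2
  exact ⟨by linarith, h2.le, pow_nonneg (by linarith) 8, pow_le_one₀ (by linarith) (by linarith)⟩

lemma ev_r1L (T : ℝ) : ev r1L T = (1 - T) * (5 + T) := by
  simp only [r1L, ev_cons, ev_nil]; push_cast; ring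
lemma ev_r12L (T : ℝ) : ev r12L T = (1 - T ^ 2) * (25 - T ^ 2) := by
  simp only [r12L, ev_cons, ev_nil]; push_cast; ring
lemma ev_r3L (T : ℝ) : ev r3L T = (1 + T) * (5 + T) := by
  simp only [r3L, ev_cons, ev_nil]; push_cast; ring

lemma y1_one : y1 1 = 0 := by unfold y1; rw [qR_1]; norm_num
lemma y12_one : y12 1 = 0 := by unfold y12; rw [qR_12]; norm_num

lemma continuous_y1 : Continuous y1 := (continuous_qR _ _).sqrt
lemma continuous_b13 : Continuous b13 := (continuous_qR _ _).sqrt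
lemma continuous_y12 : Continuous y12 := ((continuous_qR _ _).comp (continuous_pow 2)).sqrt

lemma continuousOn_qL {b c k : ℝ} (hk : 0 < k) {S : Set ℝ} (hS : ∀ T ∈ S, 0 < T)
    (hD : ∀ T ∈ S, 0 < qD b T) : ContinuousOn (qL b c k) S := by
  unfold qL
  refine ContinuousOn.log ?_ fun x hx => ?_
  · refine ContinuousOn.div ((continuous_qD b).add (continuous_qR b c).sqrt).continuousOn
      (continuous_const.mul continuous_id).continuousOn fun x hx => ?_
    exact (mul_pos hk (hS x hx)).ne'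
  · exact (div_pos (by linarith [hD x hx, Real.sqrt_nonneg (qR b c x)])
      (mul_pos hk (hS x hx))).ne'

lemma continuousOn_l1 : ContinuousOn l1 (Ioc 0 1) :=
  continuousOn_qL (by norm_num) (fun _ hT => hT.1) fun _ hT => qD_1_pos hT.2

lemma continuousOn_L13 : ContinuousOn L13 (Ioi 0) :=
  continuousOn_qL (by norm_num) (fun _ hT => hT) fun _ hT => qD_3_pos hT

lemma continuousOn_L0 : ContinuousOn L0 (Ioc 0 1) := by
  have h : ContinuousOn (qL (-26 / 25) (1 / 25) (12 / 25)) (Ioc 0 1) := by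
    refine continuousOn_qL (by norm_num) (fun _ hT => hT.1) fun T hT => ?_
    unfold qD; linarith [hT.2]
  refine h.comp (continuous_pow 2).continuousOn fun T hT => ?_
  exact ⟨pow_pos hT.1 2, pow_le_one₀ hT.1.le hT.2⟩

lemma chk_of_mem {k : ℕ} {l : List ℤ} (h : chkN k 1 4 4 l = true) (hk : k ≠ 0) {T : ℝ}
    (hT : T ∈ Ioo (1 / 4 : ℝ) 1) : 0 ≤ ev l T := by
  refine nonneg_of_chkN h hk (by norm_num) ?_ ?_
  · push_cast; linarith [hT.1]
  · push_cast; linarith [hT.2]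

/-- upper list -/
def upL (q : List ℤ) (E : ℤ) (k : ℕ) : List ℤ := addL q (smulL E (powZ k))
/-- lower list -/
def loL (q : List ℤ) (E : ℤ) (k : ℕ) : List ℤ := addL q (smulL (-E) (powZ k))

lemma ev_upL (q : List ℤ) (E : ℤ) (k : ℕ) (T : ℝ) :
    ev (upL q E k) T = ev q T + E * (1 - T) ^ k := by
  rw [upL, ev_addL, ev_smulL, ev_powZ]
lemma ev_loL (q : List ℤ) (E : ℤ) (k : ℕ) (T : ℝ) :
    ev (loL q E k) T = ev q T - E * (1 - T) ^ k := by
  rw [loL, ev_addL, ev_smulL, ev_powZ]; push_cast; ring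

lemma c1u : chkN 4 1 4 4 (smulL (-1) (cL r1L (upL rq1 rE1 7) (2 * 1 * 5 * rD1))) = true := by
  decide +kernel

lemma c1l : chkN 4 1 4 4 (cL r1L (loL rq1 rE1 7) (2 * 1 * 5 * rD1)) = true := by
  decide +kernel

lemma c2u : chkN 4 1 4 4 (smulL (-1) (cL r12L (upL rq2 rE2 7) (2 * 2 * 25 * rD2))) = true := by
  decide +kernel

lemma c2l : chkN 4 1 4 4 (cL r12L (loL rq2 rE2 7) (2 * 2 * 25 * rD2)) = true := by
  decide +kernel

lemma c3u : chkN 4 1 4 4 (smulL (-1) (cG r3L (upL rq3 rE3 8) (2 * 1 * rD3))) = true := by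
  decide +kernel

lemma c3l : chkN 4 1 4 4 (cG r3L (loL rq3 rE3 8) (2 * 1 * rD3)) = true := by
  decide +kernel

lemma c4a : chkN 1 1 4 4 (addL (smulL 25 (mulL (upL rq4 rE4 8) (upL rq4 rE4 8)))
      (smulL (-3 * (rD4 * rD4)) r3L)) = true := by
  decide +kernel

lemma c4b : chkN 1 1 4 4 (addL (smulL (-25) (mulL (loL rq4 rE4 8) (loL rq4 rE4 8)))
      (smulL (3 * (rD4 * rD4)) r3L)) = true := by
  decide +kernel

lemma c4c : chkN 1 1 4 4 (upL rq4 rE4 8) = true := by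
  decide +kernel

lemma ap_f1 : Ap SR wR f1 (5 * rD1) (mulL r1L rq1) (6 * rE1) := by
  intro T hT
  have hT0 : (0 : ℝ) < T := by linarith [hT.1]
  have hy := y1_pos hT0 hT.2
  have hk : (5 : ℝ) ≠ 0 := by norm_num
  have hyd : ∀ T ∈ Ioo (1 / 4 : ℝ) 1,
      HasDerivAt y1 (ev (derL r1L) T / (2 * ((5 : ℤ) : ℝ) * y1 T)) T := by
    intro x hx
    have hx0 : (0 : ℝ) < x := by linarith [hx.1]
    refine (hasDerivAt_y1 hx0 hx.2).congr_deriv ?_
    have := (y1_pos hx0 hx.2).ne'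
    simp only [r1L, derL, derAux, ev_cons, ev_nil]
    push_cast
    field_simp
    ring
  have hL : ∀ T ∈ Ioo (1 / 4 : ℝ) 1, HasDerivAt l1 (-((1 : ℤ) : ℝ) / (T * y1 T)) T := by
    intro x hx
    have hx0 : (0 : ℝ) < x := by linarith [hx.1]
    simpa using hasDerivAt_l1 hx0 hx.2
  have hy2 : ∀ T ∈ Ioo (1 / 4 : ℝ) 1, (((5 : ℤ) : ℝ)) * y1 T ^ 2 = ev r1L T := by
    intro x hx
    have hx0 : (0 : ℝ) < x := by linarith [hx.1]
    rw [y1_sq hx0 hx.2, ev_r1L]; push_cast; ring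
  have hyc : ContinuousOn y1 (Ioc (1 / 4) 1) := continuous_y1.continuousOn
  have hLc : ContinuousOn l1 (Ioc (1 / 4) 1) :=
    continuousOn_l1.mono (Ioc_subset_Ioc_left (by norm_num))
  have hyp : ∀ T ∈ Ioo (1 / 4 : ℝ) 1, 0 < y1 T := fun x hx =>
    y1_pos (by linarith [hx.1]) hx.2
  have hTc : T ∈ Ioc (1 / 4 : ℝ) 1 := ⟨hT.1, hT.2.le⟩
  have hu : (rD1 : ℝ) * l1 T ≤ y1 T * ev (upL rq1 rE1 7) T := by
    refine le_of_cL (k0 := 5) (n := 1) (a := 1 / 4) (by norm_num) (by norm_num) hyp hy2 hyd hL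
      hyc hLc y1_one l1_one (fun x hx => ?_) hTc
    have h1 := c1u
    have h2 := chk_of_mem h1 (by norm_num) hx
    rw [ev_smulL] at h2; push_cast at h2 ⊢; linarith
  have hl : y1 T * ev (loL rq1 rE1 7) T ≤ (rD1 : ℝ) * l1 T := by
    refine ge_of_cL (k0 := 5) (n := 1) (a := 1 / 4) (by norm_num) (by norm_num) hyp hy2 hyd hL
      hyc hLc y1_one l1_one (fun x hx => ?_) hTc
    have h1 := c1l
    exact chk_of_mem h1 (by norm_num) hx
  rw [ev_upL] at hu
  rw [ev_loL] at hl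
  have hq := hy2 T hT
  rw [ev_mulL, ← hq]
  unfold f1 wR
  push_cast at hq ⊢
  rw [ev_r1L] at hq
  have hE : (0 : ℝ) ≤ rE1 := by
    have : (0 : ℤ) ≤ rE1 := by decide +kernel
    exact_mod_cast this
  have h1T : 0 < 1 - T := by linarith [hT.2]
  have hw : 0 ≤ (rE1 : ℝ) * (1 - T) ^ 7 := mul_nonneg hE (pow_nonneg h1T.le 7)
  have hb : 5 * y1 T ^ 2 * ((rE1 : ℝ) * (1 - T) ^ 7) ≤ 6 * rE1 * (1 - T) ^ 8 := by
    have e1 : 6 * (rE1 : ℝ) * (1 - T) ^ 8 = (6 * (1 - T)) * (rE1 * (1 - T) ^ 7) := by ring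
    rw [e1, hq]
    refine mul_le_mul_of_nonneg_right ?_ hw
    nlinarith [hT.2]
  rw [abs_le]
  constructor
  · nlinarith [mul_le_mul_of_nonneg_left hl (mul_nonneg (by norm_num : (0 : ℝ) ≤ 5) hy.le)]
  · nlinarith [mul_le_mul_of_nonneg_left hu (mul_nonneg (by norm_num : (0 : ℝ) ≤ 5) hy.le)]

lemma ap_f2 : Ap SR wR f2 (25 * rD2) (mulL r12L rq2) (50 * rE2) := by
  intro T hT
  have hT0 : (0 : ℝ) < T := by linarith [hT.1]
  have hy := y12_pos hT0 hT.2
  have hyd : ∀ T ∈ Ioo (1 / 4 : ℝ) 1,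
      HasDerivAt y12 (ev (derL r12L) T / (2 * ((25 : ℤ) : ℝ) * y12 T)) T := by
    intro x hx
    have hx0 : (0 : ℝ) < x := by linarith [hx.1]
    refine (hasDerivAt_y12 hx0 hx.2).congr_deriv ?_
    have := (y12_pos hx0 hx.2).ne'
    simp only [r12L, derL, derAux, ev_cons, ev_nil]
    push_cast
    field_simp
    ring
  have hL : ∀ T ∈ Ioo (1 / 4 : ℝ) 1, HasDerivAt L0 (-((2 : ℤ) : ℝ) / (T * y12 T)) T := by
    intro x hx
    have hx0 : (0 : ℝ) < x := by linarith [hx.1]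
    have := hasDerivAt_L0 hx0 hx.2
    push_cast
    exact this
  have hy2 : ∀ T ∈ Ioo (1 / 4 : ℝ) 1, (((25 : ℤ) : ℝ)) * y12 T ^ 2 = ev r12L T := by
    intro x hx
    have hx0 : (0 : ℝ) < x := by linarith [hx.1]
    rw [y12_sq hx0 hx.2, ev_r12L]; push_cast; ring
  have hyc : ContinuousOn y12 (Ioc (1 / 4) 1) := continuous_y12.continuousOn
  have hLc : ContinuousOn L0 (Ioc (1 / 4) 1) :=
    continuousOn_L0.mono (Ioc_subset_Ioc_left (by norm_num))
  have hyp : ∀ T ∈ Ioo (1 / 4 : ℝ) 1, 0 < y12 T := fun x hx =>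
    y12_pos (by linarith [hx.1]) hx.2
  have hTc : T ∈ Ioc (1 / 4 : ℝ) 1 := ⟨hT.1, hT.2.le⟩
  have hu : (rD2 : ℝ) * L0 T ≤ y12 T * ev (upL rq2 rE2 7) T := by
    refine le_of_cL (k0 := 25) (n := 2) (a := 1 / 4) (by norm_num) (by norm_num) hyp hy2 hyd hL
      hyc hLc y12_one L0_one (fun x hx => ?_) hTc
    have h1 := c2u
    have h2 := chk_of_mem h1 (by norm_num) hx
    rw [ev_smulL] at h2; push_cast at h2 ⊢; linarith
  have hl : y12 T * ev (loL rq2 rE2 7) T ≤ (rD2 : ℝ) * L0 T := by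
    refine ge_of_cL (k0 := 25) (n := 2) (a := 1 / 4) (by norm_num) (by norm_num) hyp hy2 hyd hL
      hyc hLc y12_one L0_one (fun x hx => ?_) hTc
    have h1 := c2l
    exact chk_of_mem h1 (by norm_num) hx
  rw [ev_upL] at hu
  rw [ev_loL] at hl
  have hq := hy2 T hT
  rw [ev_mulL, ← hq]
  unfold f2 wR
  push_cast at hq ⊢
  rw [ev_r12L] at hq
  have hE : (0 : ℝ) ≤ rE2 := by
    have : (0 : ℤ) ≤ rE2 := by decide +kernel
    exact_mod_cast this
  have h1T : 0 < 1 - T := by linarith [hT.2]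
  have hw : 0 ≤ (rE2 : ℝ) * (1 - T) ^ 7 := mul_nonneg hE (pow_nonneg h1T.le 7)
  have hb : 25 * y12 T ^ 2 * ((rE2 : ℝ) * (1 - T) ^ 7) ≤ 50 * rE2 * (1 - T) ^ 8 := by
    have e1 : 50 * (rE2 : ℝ) * (1 - T) ^ 8 = (50 * (1 - T)) * (rE2 * (1 - T) ^ 7) := by ring
    rw [e1, hq]
    refine mul_le_mul_of_nonneg_right ?_ hw
    have e2 : (1 - T ^ 2) * (25 - T ^ 2) = (1 - T) * ((1 + T) * (25 - T ^ 2)) := by ring
    rw [e2, mul_comm (50 : ℝ)]
    refine mul_le_mul_of_nonneg_left ?_ h1T.le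
    nlinarith [hT.2, hT0]
  rw [abs_le]
  constructor
  · nlinarith [mul_le_mul_of_nonneg_left hl (mul_nonneg (by norm_num : (0 : ℝ) ≤ 25) hy.le)]
  · nlinarith [mul_le_mul_of_nonneg_left hu (mul_nonneg (by norm_num : (0 : ℝ) ≤ 25) hy.le)]

lemma ap_f3 : Ap SR wR f3c rD3 rq3 rE3 := by
  intro T hT
  have hT0 : (0 : ℝ) < T := by linarith [hT.1]
  have hyd : ∀ T ∈ Ioo (1 / 4 : ℝ) 1,
      HasDerivAt b13 (ev (derL r3L) T / (2 * ((5 : ℤ) : ℝ) * b13 T)) T := by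
    intro x hx
    have hx0 : (0 : ℝ) < x := by linarith [hx.1]
    refine (hasDerivAt_b13 hx0).congr_deriv ?_
    have := (b13_pos hx0).ne'
    simp only [r3L, derL, derAux, ev_cons, ev_nil]
    push_cast
    field_simp
    ring
  have hL : ∀ T ∈ Ioo (1 / 4 : ℝ) 1,
      HasDerivAt (fun T => L13 T - L13 1) (-((1 : ℤ) : ℝ) / (T * b13 T)) T := by
    intro x hx
    have hx0 : (0 : ℝ) < x := by linarith [hx.1]
    have := (hasDerivAt_L13 hx0).sub_const (L13 1)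
    push_cast
    exact this
  have hy2 : ∀ T ∈ Ioo (1 / 4 : ℝ) 1, (((5 : ℤ) : ℝ)) * b13 T ^ 2 = ev r3L T := by
    intro x hx
    have hx0 : (0 : ℝ) < x := by linarith [hx.1]
    rw [b13_sq hx0, ev_r3L]; push_cast; ring
  have hyc : ContinuousOn b13 (Ioc (1 / 4) 1) := continuous_b13.continuousOn
  have hLc : ContinuousOn (fun T => L13 T - L13 1) (Ioc (1 / 4) 1) :=
    (continuousOn_L13.mono fun x hx => (by linarith [hx.1] : (0 : ℝ) < x)).sub
      continuousOn_const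
  have hyp : ∀ T ∈ Ioc (1 / 4 : ℝ) 1, 0 < b13 T := fun x hx =>
    b13_pos (by linarith [hx.1])
  have hTc : T ∈ Ioc (1 / 4 : ℝ) 1 := ⟨hT.1, hT.2.le⟩
  have hz : ∀ E : ℤ, ev rq3 1 + E * (1 - 1) ^ 8 = 0 := by
    intro E
    have h1 : rq3.foldr (fun a s => a + s) 0 = 0 := by decide +kernel
    have h2 : ∀ l : List ℤ, ev l 1 = ((l.foldr (fun a s => a + s) 0 : ℤ) : ℝ) := by
      intro l
      induction l with
      | nil => simp
      | cons a l ih => simp only [ev_cons, List.foldr_cons, ih]; push_cast; ring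
    rw [h2, h1]; norm_num
  have hu : (rD3 : ℝ) * (b13 T * (L13 T - L13 1)) ≤ ev (upL rq3 rE3 8) T := by
    refine le_of_cG (L := fun T => L13 T - L13 1) (k0 := 5) (n := 1) (a := 1 / 4) (by norm_num)
      (by norm_num) hyp hy2 hyd hL hyc hLc (by simp) ?_ (fun x hx => ?_) hTc
    · rw [ev_upL, hz]
    have h1 := c3u
    have h2 := chk_of_mem h1 (by norm_num) hx
    rw [ev_smulL] at h2; push_cast at h2 ⊢; linarith
  have hl : ev (loL rq3 rE3 8) T ≤ (rD3 : ℝ) * (b13 T * (L13 T - L13 1)) := by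
    refine ge_of_cG (L := fun T => L13 T - L13 1) (k0 := 5) (n := 1) (a := 1 / 4) (by norm_num)
      (by norm_num) hyp hy2 hyd hL hyc hLc (by simp) ?_ (fun x hx => ?_) hTc
    · have := hz (-rE3)
      rw [ev_loL]
      push_cast at this
      linarith
    have h1 := c3l
    exact chk_of_mem h1 (by norm_num) hx
  rw [ev_upL] at hu
  rw [ev_loL] at hl
  unfold f3c wR
  rw [abs_le]
  constructor <;> linarith

lemma le_of_sq {a b : ℝ} (hb : 0 ≤ b) (h : a ^ 2 ≤ b ^ 2) : a ≤ b := by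
  by_contra hc
  push Not at hc
  have : b ^ 2 < a ^ 2 := by nlinarith
  linarith

lemma ap_f4 : Ap SR wR f4 rD4 rq4 rE4 := by
  intro T hT
  have hT0 : (0 : ℝ) < T := by linarith [hT.1]
  have hD : (0 : ℝ) < rD4 := by
    have : (0 : ℤ) < rD4 := by decide +kernel
    exact_mod_cast this
  have hf : f4 T ^ 2 = 3 / 25 * ev r3L T := by
    unfold f4
    rw [mul_pow, Real.sq_sqrt (by norm_num), b13_sq hT0, ev_r3L]; ring
  have hf0 : 0 ≤ f4 T := mul_nonneg (Real.sqrt_nonneg _) (Real.sqrt_nonneg _)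
  have h1 := c4a
  have h2 := c4b
  have h3 := c4c
  have h1' := chk_of_mem h1 (by norm_num) hT
  have h2' := chk_of_mem h2 (by norm_num) hT
  have h3' := chk_of_mem h3 (by norm_num) hT
  rw [ev_addL, ev_smulL, ev_smulL, ev_mulL] at h1' h2'
  push_cast at h1' h2'
  have hu : (rD4 : ℝ) * f4 T ≤ ev (upL rq4 rE4 8) T := by
    refine (pow_le_pow_iff_left₀ (mul_nonneg hD.le hf0) h3' two_ne_zero).1 ?_
    rw [mul_pow, hf, sq (ev (upL rq4 rE4 8) T)]
    linarith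
  have hl : ev (loL rq4 rE4 8) T ≤ (rD4 : ℝ) * f4 T := by
    refine le_of_sq (mul_nonneg hD.le hf0) ?_
    rw [mul_pow, hf, sq (ev (loL rq4 rE4 8) T)]
    linarith
  rw [ev_upL] at hu
  rw [ev_loL] at hl
  unfold wR
  rw [abs_le]
  constructor <;> linarith

end Vale.Agent.P224.SP
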