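import Vale.Agent.P224.SP.UPoly

/-!
Polynomial models with weighted remainder: `|D f T - ev l T| <= E w T` on a set `S` of `[0,1]`.
-/

namespace Vale.Agent.P224.SP

open Set

/-- sum of the absolute values of the coefficients -/
def sAbs : List ℤ → ℤ
  | [] => 0
  | (a :: l) => |a| + sAbs l

lemma sAbs_nonneg (l : List ℤ) : 0 ≤ sAbs l := by
  induction l with
  | nil => simp [sAbs]
  | cons a l ih => simp only [sAbs]; positivity

lemma abs_ev_le (l : List ℤ) {x : ℝ} (h0 : 0 ≤ x) (h1 : x ≤ 1) : |ev l x| ≤ (sAbs l : ℝ) := by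
  induction l with
  | nil => simp [sAbs]
  | cons a l ih =>
    simp only [sAbs, ev_cons]
    push_cast
    refine (abs_add_le _ _).trans ?_
    rw [abs_mul, abs_of_nonneg h0]
    have h2 : x * |ev l x| ≤ 1 * (sAbs l : ℝ) :=
      mul_le_mul h1 ih (abs_nonneg _) zero_le_one
    linarith

/-- polynomial model -/
def Ap (S : Set ℝ) (w f : ℝ → ℝ) (D : ℤ) (l : List ℤ) (E : ℤ) : Prop :=
  ∀ T ∈ S, |D * f T - ev l T| ≤ E * w T

/-- admissible domain and weight -/
def WtA (S : Set ℝ) (w : ℝ → ℝ) : Prop := ∀ T ∈ S, 0 ≤ T ∧ T ≤ 1 ∧ 0 ≤ w T ∧ w T ≤ 1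

section

variable {S : Set ℝ} {w w' f g : ℝ → ℝ} {D D' E E' c : ℤ} {l m : List ℤ}

lemma Ap.mono (h : Ap S w f D l E) (hw : WtA S w) (hE : E ≤ E') : Ap S w f D l E' := by
  intro T hT
  refine (h T hT).trans ?_
  have : (E : ℝ) ≤ E' := by exact_mod_cast hE
  exact mul_le_mul_of_nonneg_right this (hw T hT).2.2.1

lemma Ap.subset (h : Ap S w f D l E) {S' : Set ℝ} (hS : S' ⊆ S) : Ap S' w f D l E :=
  fun T hT => h T (hS hT)

lemma Ap.congr (h : Ap S w f D l E) (hg : ∀ T ∈ S, g T = f T) : Ap S w g D l E := by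
  intro T hT; rw [hg T hT]; exact h T hT

lemma Ap.weight (h : Ap S w f D l E) (hE : 0 ≤ E) (hw : ∀ T ∈ S, w T ≤ w' T) :
    Ap S w' f D l E := by
  intro T hT
  refine (h T hT).trans ?_
  exact mul_le_mul_of_nonneg_left (hw T hT) (by exact_mod_cast hE)

lemma Ap.poly (S : Set ℝ) (w : ℝ → ℝ) (N : List ℤ) : Ap S w (ev N) 1 N 0 := by
  intro T _; simp

lemma Ap.add (h : Ap S w f D l E) (h' : Ap S w g D m E') :
    Ap S w (fun T => f T + g T) D (addL l m) (E + E') := by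
  intro T hT
  have h1 := h T hT
  have h2 := h' T hT
  rw [ev_addL]
  push_cast
  have e : (D : ℝ) * (f T + g T) - (ev l T + ev m T) =
      (D * f T - ev l T) + (D * g T - ev m T) := by ring
  rw [e]
  refine (abs_add_le _ _).trans ?_
  linarith

lemma Ap.scale (h : Ap S w f D l E) (k : ℤ) : Ap S w f (k * D) (smulL k l) (|k| * E) := by
  intro T hT
  have h1 := h T hT
  rw [ev_smulL]
  push_cast
  have e : (k : ℝ) * D * f T - k * ev l T = k * (D * f T - ev l T) := by ring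
  rw [e, abs_mul, mul_assoc]
  exact mul_le_mul_of_nonneg_left h1 (abs_nonneg _)

lemma Ap.smul (h : Ap S w f D l E) (k : ℤ) :
    Ap S w (fun T => k * f T) D (smulL k l) (|k| * E) := by
  intro T hT
  have h1 := h T hT
  rw [ev_smulL]
  push_cast
  have e : (D : ℝ) * (k * f T) - k * ev l T = k * (D * f T - ev l T) := by ring
  rw [e, abs_mul, mul_assoc]
  exact mul_le_mul_of_nonneg_left h1 (abs_nonneg _)

lemma Ap.pmul (h : Ap S w f D l E) (hw : WtA S w) (N : List ℤ) :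
    Ap S w (fun T => ev N T * f T) D (mulL N l) (sAbs N * E) := by
  intro T hT
  have h1 := h T hT
  obtain ⟨h0, h01, hw0, hw1⟩ := hw T hT
  rw [ev_mulL]
  push_cast
  have e : (D : ℝ) * (ev N T * f T) - ev N T * ev l T = ev N T * (D * f T - ev l T) := by ring
  rw [e, abs_mul, mul_assoc]
  exact mul_le_mul (abs_ev_le N h0 h01) h1 (abs_nonneg _) (by exact_mod_cast sAbs_nonneg N)

lemma Ap.mul (h : Ap S w f D l E) (h' : Ap S w g D' m E') (hw : WtA S w) (hE : 0 ≤ E)
    (hE' : 0 ≤ E') :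
    Ap S w (fun T => f T * g T) (D * D') (mulL l m) (E * (sAbs m + E') + sAbs l * E') := by
  intro T hT
  have h1 := h T hT
  have h2 := h' T hT
  obtain ⟨h0, h01, hw0, hw1⟩ := hw T hT
  have hE0 : (0 : ℝ) ≤ E := by exact_mod_cast hE
  have hE0' : (0 : ℝ) ≤ E' := by exact_mod_cast hE'
  rw [ev_mulL]
  push_cast
  have e : (D : ℝ) * D' * (f T * g T) - ev l T * ev m T =
      (D * f T - ev l T) * (D' * g T) + ev l T * (D' * g T - ev m T) := by ring
  rw [e]
  have h3 : |(D' : ℝ) * g T| ≤ sAbs m + E' := by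
    have e2 : (D' : ℝ) * g T = (D' * g T - ev m T) + ev m T := by ring
    rw [e2]
    refine (abs_add_le _ _).trans ?_
    have h4 := abs_ev_le m h0 h01
    have h5 : (E' : ℝ) * w T ≤ E' * 1 := mul_le_mul_of_nonneg_left hw1 hE0'
    linarith
  refine (abs_add_le _ _).trans ?_
  rw [abs_mul ((D : ℝ) * f T - ev l T), abs_mul (ev l T)]
  have h4 : |(D : ℝ) * f T - ev l T| * |(D' : ℝ) * g T| ≤ E * w T * (sAbs m + E') :=
    mul_le_mul h1 h3 (abs_nonneg _) (mul_nonneg hE0 hw0)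
  have h5 : |ev l T| * |(D' : ℝ) * g T - ev m T| ≤ sAbs l * (E' * w T) :=
    mul_le_mul (abs_ev_le l h0 h01) h2 (abs_nonneg _) (by exact_mod_cast sAbs_nonneg l)
  calc _ ≤ E * w T * (sAbs m + E') + sAbs l * (E' * w T) := add_le_add h4 h5
    _ = (E * (sAbs m + E') + sAbs l * E') * w T := by ring

/-- a real constant times a function whose model is small with respect to the weight `w'` -/
lemma Ap.cmul (h : Ap S w f D l E) (hE : 0 ≤ E) {c : ℝ} {Dc n Ec : ℤ}
    (hc : |Dc * c - n| ≤ Ec) {K : ℤ} (hl : ∀ T ∈ S, |ev l T| ≤ K * w' T)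
    (hww : ∀ T ∈ S, w T ≤ w' T) :
    Ap S w' (fun T => c * f T) (Dc * D) (smulL n l) (Ec * (K + E) + |n| * E) := by
  intro T hT
  have h1 := h T hT
  have hE0 : (0 : ℝ) ≤ E := by exact_mod_cast hE
  have hEc : (0 : ℝ) ≤ Ec := (abs_nonneg _).trans hc
  have h2 : (E : ℝ) * w T ≤ E * w' T := mul_le_mul_of_nonneg_left (hww T hT) hE0
  rw [ev_smulL]
  push_cast
  have e : (Dc : ℝ) * D * (c * f T) - n * ev l T =
      (Dc * c - n) * (D * f T) + n * (D * f T - ev l T) := by ring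
  rw [e]
  have h3 : |(D : ℝ) * f T| ≤ (K + E) * w' T := by
    have e2 : (D : ℝ) * f T = (D * f T - ev l T) + ev l T := by ring
    rw [e2]
    refine (abs_add_le _ _).trans ?_
    have := hl T hT
    linarith
  refine (abs_add_le _ _).trans ?_
  rw [abs_mul ((Dc : ℝ) * c - n), abs_mul (n : ℝ)]
  have h4 : |(Dc : ℝ) * c - n| * |(D : ℝ) * f T| ≤ Ec * ((K + E) * w' T) :=
    mul_le_mul hc h3 (abs_nonneg _) hEc
  have h5 : |(n : ℝ)| * |(D : ℝ) * f T - ev l T| ≤ |(n : ℝ)| * (E * w' T) :=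
    mul_le_mul_of_nonneg_left (h1.trans h2) (abs_nonneg _)
  calc _ ≤ Ec * ((K + E) * w' T) + |(n : ℝ)| * (E * w' T) := add_le_add h4 h5
    _ = (Ec * (K + E) + |(n : ℝ)| * E) * w' T := by ring

/-- the product with a bounded-error function, for a model that is small w.r.t. `w'` -/
lemma Ap.fmul (h : Ap S w f D l E) (hE : 0 ≤ E) {g : ℝ → ℝ} {Dg Eg : ℤ} {m : List ℤ}
    (hg : ∀ T ∈ S, |Dg * g T - ev m T| ≤ Eg) (hS : ∀ T ∈ S, 0 ≤ T ∧ T ≤ 1)
    {K : ℤ} (hl : ∀ T ∈ S, |ev l T| ≤ K * w' T) (hww : ∀ T ∈ S, w T ≤ w' T) :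
    Ap S w' (fun T => g T * f T) (Dg * D) (mulL m l) (Eg * (K + E) + sAbs m * E) := by
  intro T hT
  have h1 := h T hT
  obtain ⟨h0, h01⟩ := hS T hT
  have hE0 : (0 : ℝ) ≤ E := by exact_mod_cast hE
  have hEc : (0 : ℝ) ≤ Eg := (abs_nonneg _).trans (hg T hT)
  have h2 : (E : ℝ) * w T ≤ E * w' T := mul_le_mul_of_nonneg_left (hww T hT) hE0
  rw [ev_mulL]
  push_cast
  have e : (Dg : ℝ) * D * (g T * f T) - ev m T * ev l T =
      (Dg * g T - ev m T) * (D * f T) + ev m T * (D * f T - ev l T) := by ring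
  rw [e]
  have h3 : |(D : ℝ) * f T| ≤ (K + E) * w' T := by
    have e2 : (D : ℝ) * f T = (D * f T - ev l T) + ev l T := by ring
    rw [e2]
    refine (abs_add_le _ _).trans ?_
    have := hl T hT
    linarith
  refine (abs_add_le _ _).trans ?_
  rw [abs_mul ((Dg : ℝ) * g T - ev m T), abs_mul (ev m T)]
  have h4 : |(Dg : ℝ) * g T - ev m T| * |(D : ℝ) * f T| ≤ Eg * ((K + E) * w' T) :=
    mul_le_mul (hg T hT) h3 (abs_nonneg _) hEc
  have h5 : |ev m T| * |(D : ℝ) * f T - ev l T| ≤ sAbs m * (E * w' T) :=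
    mul_le_mul (abs_ev_le m h0 h01) (h1.trans h2) (abs_nonneg _)
      (by exact_mod_cast sAbs_nonneg m)
  calc _ ≤ Eg * ((K + E) * w' T) + sAbs m * (E * w' T) := add_le_add h4 h5
    _ = (Eg * (K + E) + sAbs m * E) * w' T := by ring

end

/-- coefficients below `n` vanish -/
def van (n : ℕ) (l : List ℤ) : Bool := (l.take n).all (fun a => decide (a = 0))

lemma ev_van {n : ℕ} {l : List ℤ} (h : van n l = true) (x : ℝ) :
    ev l x = x ^ n * ev (l.drop n) x := by
  induction n generalizing l with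
  | zero => simp
  | succ n ih =>
    cases l with
    | nil => simp
    | cons a l =>
      simp only [van, List.take_succ_cons, List.all_cons, Bool.and_eq_true,
        decide_eq_true_eq] at h
      have h2 := ih (l := l) h.2
      rw [ev_cons, h.1, h2, List.drop_succ_cons]
      push_cast
      ring

lemma abs_ev_le_of_van {n : ℕ} {l : List ℤ} (h : van n l = true) {x : ℝ} (h0 : 0 ≤ x)
    (h1 : x ≤ 1) : |ev l x| ≤ (sAbs (l.drop n) : ℝ) * x ^ n := by
  rw [ev_van h, abs_mul, abs_of_nonneg (pow_nonneg h0 n), mul_comm]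
  exact mul_le_mul_of_nonneg_right (abs_ev_le _ h0 h1) (pow_nonneg h0 n)

/-- the positivity test on `k` equal pieces of `[A/d, B/d]` -/
def chkN (k : ℕ) (A B d : ℤ) (l : List ℤ) : Bool :=
  (List.range k).all fun i => chk (k * A + i * (B - A)) (k * A + (i + 1) * (B - A)) (k * d) l

theorem nonneg_of_chkN {k : ℕ} {A B d : ℤ} {l : List ℤ} (h : chkN k A B d l = true)
    (hk : k ≠ 0) (hAB : A < B) {x : ℝ}
    (hA : (A : ℝ) ≤ d * x) (hB : d * x ≤ B) : 0 ≤ ev l x := by
  simp only [chkN, List.all_eq_true, List.mem_range] at h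
  have hw : (0 : ℝ) < B - A := by
    have : (A : ℝ) < B := by exact_mod_cast hAB
    linarith
  have hk0 : (0 : ℝ) < k := by exact_mod_cast Nat.pos_of_ne_zero hk
  -- position
  set y : ℝ := k * (d * x - A) / (B - A) with hy
  have hy0 : 0 ≤ y := div_nonneg (mul_nonneg hk0.le (by linarith)) hw.le
  have hyk : y ≤ k := by
    rw [hy, div_le_iff₀ hw]
    exact mul_le_mul_of_nonneg_left (by linarith) hk0.le
  have hyw : y * (B - A) = k * (d * x - A) := by
    rw [hy]; field_simp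
  rcases hyk.lt_or_eq with hlt | heq
  · have h1 : ⌊y⌋₊ < k := (Nat.floor_lt hy0).2 hlt
    have h2 : (⌊y⌋₊ : ℝ) ≤ y := Nat.floor_le hy0
    have h3 : y < (⌊y⌋₊ : ℝ) + 1 := Nat.lt_floor_add_one y
    refine nonneg_of_chk (h _ h1) ?_ ?_
    · push_cast
      have := mul_le_mul_of_nonneg_right h2 hw.le
      linarith
    · push_cast
      have := mul_le_mul_of_nonneg_right h3.le hw.le
      linarith
  · obtain ⟨j, rfl⟩ := Nat.exists_eq_succ_of_ne_zero hk
    refine nonneg_of_chk (h j (Nat.lt_succ_self j)) ?_ ?_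
    · push_cast
      push_cast at hyw heq
      rw [heq] at hyw
      have hj : (0 : ℝ) ≤ j := Nat.cast_nonneg j
      nlinarith
    · push_cast
      push_cast at hyw heq
      rw [heq] at hyw
      linarith

/-- comparison from the right end -/
lemma compR {f g f' g' : ℝ → ℝ} {a b : ℝ}
    (hf : ∀ x ∈ Ioo a b, HasDerivAt f (f' x) x) (hg : ∀ x ∈ Ioo a b, HasDerivAt g (g' x) x)
    (hfc : ContinuousOn f (Ioc a b)) (hgc : ContinuousOn g (Ioc a b))
    (h : ∀ x ∈ Ioo a b, f' x ≤ g' x) (hb : g b ≤ f b) {x : ℝ} (hx : x ∈ Ioc a b) :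
    g x ≤ f x := by
  have hsub : Icc x b ⊆ Ioc a b := fun y hy => ⟨lt_of_lt_of_le hx.1 hy.1, hy.2⟩
  have hanti : AntitoneOn (fun T => f T - g T) (Icc x b) := by
    refine antitoneOn_of_deriv_nonpos (convex_Icc x b) ((hfc.mono hsub).sub (hgc.mono hsub))
      ?_ ?_
    · intro y hy
      rw [interior_Icc] at hy
      have hy' : y ∈ Ioo a b := ⟨lt_trans hx.1 hy.1, hy.2⟩
      exact ((hf y hy').fun_sub (hg y hy')).differentiableAt.differentiableWithinAt
    · intro y hy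
      rw [interior_Icc] at hy
      have hy' : y ∈ Ioo a b := ⟨lt_trans hx.1 hy.1, hy.2⟩
      rw [((hf y hy').fun_sub (hg y hy')).deriv]
      linarith [h y hy']
  have h2 := hanti ⟨le_rfl, hx.2⟩ ⟨hx.2, le_rfl⟩ hx.2
  simp only at h2
  linarith

/-- comparison from the left end -/
lemma compL {f g f' g' : ℝ → ℝ} {a b : ℝ}
    (hf : ∀ x ∈ Ioo a b, HasDerivAt f (f' x) x) (hg : ∀ x ∈ Ioo a b, HasDerivAt g (g' x) x)
    (hfc : ContinuousOn f (Ico a b)) (hgc : ContinuousOn g (Ico a b))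
    (h : ∀ x ∈ Ioo a b, g' x ≤ f' x) (hb : g a ≤ f a) {x : ℝ} (hx : x ∈ Ico a b) :
    g x ≤ f x := by
  have hsub : Icc a x ⊆ Ico a b := fun y hy => ⟨hy.1, lt_of_le_of_lt hy.2 hx.2⟩
  have hmono : MonotoneOn (fun T => f T - g T) (Icc a x) := by
    refine monotoneOn_of_deriv_nonneg (convex_Icc a x) ((hfc.mono hsub).sub (hgc.mono hsub))
      ?_ ?_
    · intro y hy
      rw [interior_Icc] at hy
      have hy' : y ∈ Ioo a b := ⟨hy.1, lt_trans hy.2 hx.2⟩
      exact ((hf y hy').fun_sub (hg y hy')).differentiableAt.differentiableWithinAt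
    · intro y hy
      rw [interior_Icc] at hy
      have hy' : y ∈ Ioo a b := ⟨hy.1, lt_trans hy.2 hx.2⟩
      rw [((hf y hy').fun_sub (hg y hy')).deriv]
      linarith [h y hy']
  have h2 := hmono ⟨le_rfl, hx.1⟩ ⟨hx.1, le_rfl⟩ hx.1
  simp only at h2
  linarith

end Vale.Agent.P224.SP
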