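import Vale.Agent.P224.SP.CoreT

/-!
The pointwise inequality on `(0, 1)` from truncated columns.
-/

namespace Vale.Agent.P224.SP

open Vale.Agent.P224.UE Vale.Agent.P224.POS Vale.Agent.P224.PO Vale.Agent.P224.SO Set
open scoped RealInnerProductSpace

noncomputable section

/-- a value column: exponents, coefficients `s` of `g`, coefficients `r1` of `dn g'`, approximations
`Z0`, `Z1` of `D g`, `D g'` with errors and truncated parts -/
structure VX where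
  K : VK
  s : List PE
  r1 : List PE
  Z0 : PE
  E0 : ℕ
  h0 : ℕ
  L20 : WE
  L30 : WE
  Z1 : PE
  E1 : ℕ
  h1 : ℕ
  L21 : WE
  L31 : WE

/-- a row column -/
structure RX where
  K : RK
  r : List PE
  Z : PE
  E : ℕ
  h : ℕ
  L2 : WE
  L3 : WE

/-- the column of the derivative -/
def VX.cl1 (x : VX) : Cl := ⟨.sub (.c 0) x.K.M1, x.r1, x.Z1, x.E1, x.h1, x.L21, x.L31⟩

/-- the column of the function -/
def VX.cl0 (dn : PE) (x : VX) : Cl :=
  ⟨.sub (.c 0) x.K.M0, x.s.map (.mul dn), x.Z0, x.E0, x.h0, x.L20, x.L30⟩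

/-- the column of a row -/
def RX.cl (x : RX) : Cl := ⟨x.K.M, x.r, x.Z, x.E, x.h, x.L2, x.L3⟩

/-- all columns -/
def clX (dn : PE) (V : List VX) (R : List RX) : List Cl :=
  (V.flatMap fun x => [x.cl1, x.cl0 dn]) ++ R.map fun x => x.cl

/-- the denominator as a function -/
def dF (dn : PE) (T : ℝ) : ℝ := PE.ev (fT T) dn

/-- all columns with their functions -/
def fX (n : ℕ) (b : ℕ → ℝ → ℝ) (dn : PE) (V : List VX) (R : List RX) : List ((ℝ → ℝ) × Cl) :=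
  (V.flatMap fun x => [(cmb n b (dF dn) x.r1, x.cl1), (cmb1 n b x.s, x.cl0 dn)])
    ++ R.map fun x => (cmb n b (dF dn) x.r, x.cl)

lemma fX_map (n : ℕ) (b : ℕ → ℝ → ℝ) (dn : PE) (V : List VX) (R : List RX) :
    ((fX n b dn V R).map fun c => c.2) = clX dn V R := by
  unfold fX clX
  rw [List.map_append, List.map_map]
  congr 1
  induction V with
  | nil => rfl
  | cons x V ih =>
    rw [List.flatMap_cons, List.map_append, ih]
    rfl

/-- the value columns -/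
def gX (n : ℕ) (b : ℕ → ℝ → ℝ) (dn : PE) (x : VX × ℕ × ℝ) : VE :=
  mkV n b dn (x.1.K, x.1.s, x.1.r1, x.2.1, x.2.2)

/-- the row columns -/
def rX (n : ℕ) (b : ℕ → ℝ → ℝ) (dn : PE) (x : RX) : RE := mkR n b (dF dn) (x.K, x.r)

lemma tot_fX {n : ℕ} {b : ℕ → ℝ → ℝ} {dn : PE} {lV : List (VX × ℕ × ℝ)} {V : List VX}
    (hlV : (lV.map fun x => x.1) = V) (R : List RX) (T : ℝ) (f : ℕ → ℝ) :
    tot T f (cols (lV.map (gX n b dn)) (R.map (rX n b dn)))
      = ((fX n b dn V R).map fun c => c.1 T * PE.ev f c.2.M).sum := by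
  subst hlV
  unfold tot cols fX
  rw [List.map_append, List.map_append, List.sum_append, List.sum_append]
  congr 1
  · induction lV with
    | nil => rfl
    | cons x V ih =>
      rw [List.map_cons (f := gX n b dn), List.flatMap_cons, List.map_append, List.sum_append, ih,
        List.map_cons (f := fun x : VX × ℕ × ℝ => x.1), List.flatMap_cons, List.map_append,
        List.sum_append]
      rfl
  · rw [List.map_map, List.map_map, List.map_map]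
    rfl

/-- **The pointwise inequality** on `(0, 1)`. -/
theorem hpos_T {dn : PE} (hdn : only4 dn = true) (hDn : ∀ T ∈ Ioo (0 : ℝ) 1, 0 < dF dn T)
    {lV : List (VX × ℕ × ℝ)} {V : List VX} (hlV : (lV.map fun x => x.1) = V) {R : List RX}
    (hV : (V.all fun x => decide (x.K.q ≤ 6) && ((x.s.all only4 && x.r1.all only4)
      && (only4 x.Z0 && only4 x.Z1))) = true)
    (hR : (R.all fun x => decide (x.K.q ≤ 6) && (x.r.all only4 && only4 x.Z)) = true)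
    {n : ℕ} {b : ℕ → ℝ → ℝ}
    (hct : ∀ f : ℕ → ℝ, (∀ i, 5 ≤ i → f i = 0) → ∀ p < n, PE.ev f (Ct p (clX dn V R)) = 0)
    (htr : ∀ f : ℕ → ℝ, (∀ i, 5 ≤ i → f i = 0) → ∀ c ∈ clX dn V R, PE.ev f c.tr = 0)
    {D : ℝ} (hD : 0 < D)
    (hδ0 : ∀ T ∈ Ioo (0 : ℝ) 1, ∀ x ∈ V,
      |D * cmb1 n b x.s T - PE.ev (fT T) x.Z0| ≤ x.E0 * (1 - T) ^ x.h0)
    (hδ1 : ∀ T ∈ Ioo (0 : ℝ) 1, ∀ x ∈ V,
      |D * cmb n b (dF dn) x.r1 T - PE.ev (fT T) x.Z1| ≤ x.E1 * (1 - T) ^ x.h1)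
    (hδr : ∀ T ∈ Ioo (0 : ℝ) 1, ∀ x ∈ R,
      |D * cmb n b (dF dn) x.r T - PE.ev (fT T) x.Z| ≤ x.E * (1 - T) ^ x.h)
    {n2 n3 Dl : ℕ} (herr : errT n2 n3 (clX dn V R) Dl = true)
    {E : Type*} [NormedAddCommGroup E] [InnerProductSpace ℝ E]
    (hQ : ∀ T ∈ Ioo (0 : ℝ) 1, ∀ x N y w : E, ‖x‖ = 1 → ‖N‖ = 1 → ‖y‖ = 1 → ‖w‖ = 1 →
      ⟪x, N⟫ = 0 → ⟪y, w⟫ = 0 → 0 ≤ PE.ev (vT T ⟪x, y⟫ ⟪x, w⟫ ⟪N, y⟫ ⟪N, w⟫)
        (.sub (Qt (clX dn V R)) (.mul (.c (Int.ofNat Dl)) (pW n2 n3)))) :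
    ∀ T ∈ Ioo (0 : ℝ) 1, ∀ x N y w : E, ‖x‖ = 1 → ‖N‖ = 1 → ‖y‖ = 1 → ‖w‖ = 1 →
      ⟪x, N⟫ = 0 → ⟪y, w⟫ = 0 →
      gS' ((lG (lV.map (gX n b dn))).map GT.v) T (dv x N y w 0)
        ≤ (OT.Rs 5 (lS (R.map (rX n b dn))) T (dv x N y w 0)
          + OT.Rs 5 (lS (R.map (rX n b dn))) T (sw9 (dv x N y w 0))) / 2 := by
  intro T hT x N y w hx hN hy hw hxN hyw
  have hrg := rg_vT hx hN hy hw hxN hyw hT.1 hT.2
  have hP : 0 < 1 - T * ⟪x, y⟫ := hrg.P0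
  have hV' : ∀ u ∈ V, u.K.q ≤ 6 ∧ ((u.s.all only4) = true ∧ (u.r1.all only4) = true)
      ∧ only4 u.Z0 = true ∧ only4 u.Z1 = true := by
    intro u hu
    have h2 := List.all_eq_true.1 hV _ hu
    rw [Bool.and_eq_true, Bool.and_eq_true, Bool.and_eq_true, Bool.and_eq_true,
      decide_eq_true_eq] at h2
    exact h2
  have hR' : ∀ u ∈ R, u.K.q ≤ 6 ∧ (u.r.all only4) = true ∧ only4 u.Z = true := by
    intro u hu
    have h2 := List.all_eq_true.1 hR _ hu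
    rw [Bool.and_eq_true, Bool.and_eq_true, decide_eq_true_eq] at h2
    exact h2
  have hqV : ∀ u ∈ lV.map (gX n b dn), u.K.q ≤ 6 := by
    intro u hu
    obtain ⟨v, hv, rfl⟩ := List.mem_map.1 hu
    refine (hV' v.1 ?_).1
    rw [← hlV]
    exact List.mem_map_of_mem hv
  have hqR : ∀ u ∈ R.map (rX n b dn), u.K.q ≤ 6 := by
    intro u hu
    obtain ⟨v, hv, rfl⟩ := List.mem_map.1 hu
    exact (hR' v hv).1
  have key := tot_cols hqV hqR hT.1 hT.2 (d := dv x N y w 0) (ne_of_gt hP)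
  have e1 : (dv x N y w (0 : E)) 0 = ⟪x, y⟫ := rfl
  rw [tot_fX hlV, e1] at key
  set f := vT T ⟪x, y⟫ ⟪x, w⟫ ⟪N, y⟫ ⟪N, w⟫ with hfd
  have e2 : vT T ⟪x, y⟫ ((dv x N y w (0 : E)) 1) ((dv x N y w (0 : E)) 2)
      ((dv x N y w (0 : E)) 3) = f := rfl
  rw [e2] at key
  have hf4 : f 4 = T := rfl
  have hf5 : ∀ i, 5 ≤ i → f i = 0 := fun i hi => vT_ge _ _ _ _ _ hi
  have hdn0 : dF dn T ≠ 0 := (hDn T hT).ne'
  have hmem : ∀ c ∈ fX n b dn V R, (∃ u ∈ V, c = (cmb n b (dF dn) u.r1, u.cl1))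
      ∨ (∃ u ∈ V, c = (cmb1 n b u.s, u.cl0 dn)) ∨ ∃ u ∈ R, c = (cmb n b (dF dn) u.r, u.cl) := by
    intro c hc
    unfold fX at hc
    rcases List.mem_append.1 hc with hc | hc
    · obtain ⟨u, hu, hcu⟩ := List.mem_flatMap.1 hc
      rcases List.mem_cons.1 hcu with rfl | hcu
      · exact Or.inl ⟨u, hu, rfl⟩
      · rcases List.mem_cons.1 hcu with rfl | hcu
        · exact Or.inr (Or.inl ⟨u, hu, rfl⟩)
        · exact absurd hcu List.not_mem_nil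
    · obtain ⟨u, hu, rfl⟩ := List.mem_map.1 hc
      exact Or.inr (Or.inr ⟨u, hu, rfl⟩)
  have hc := coreT hrg hf4 (l := fX n b dn V R) (n := n) (b := b) hdn0
    (by
      intro c hc
      rcases hmem c hc with ⟨u, hu, rfl⟩ | ⟨u, hu, rfl⟩ | ⟨u, hu, rfl⟩
      · exact cmb_eq hdn0 hf4 (hV' u hu).2.1.2
      · exact cmb1_eq hf4 hdn (hV' u hu).2.1.1
      · exact cmb_eq hdn0 hf4 (hR' u hu).2.1)
    (fun p hp => by
      rw [fX_map]
      exact hct f hf5 p hp)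
    (fun c hc => htr f hf5 c.2 (by
      rw [← fX_map n b]
      exact List.mem_map_of_mem hc))
    (D := D)
    (by
      intro c hc _
      rcases hmem c hc with ⟨u, hu, rfl⟩ | ⟨u, hu, rfl⟩ | ⟨u, hu, rfl⟩
      · have := hδ1 T hT u hu
        rw [← ev_only4 hf4 _ (hV' u hu).2.2.2] at this
        exact this
      · have := hδ0 T hT u hu
        rw [← ev_only4 hf4 _ (hV' u hu).2.2.1] at this
        exact this
      · have := hδr T hT u hu
        rw [← ev_only4 hf4 _ (hR' u hu).2.2] at this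
        exact this)
    (n2 := n2) (n3 := n3) (Dl := Dl) (by rw [fX_map]; exact herr)
  rw [fX_map, ← key] at hc
  have h2 := hQ T hT x N y w hx hN hy hw hxN hyw
  rw [PE.ev_sub, PE.ev_mul, PE.ev_c, Int.ofNat_eq_natCast, Int.cast_natCast] at h2
  have h3 := h2.trans hc
  have hpos : 0 < D * (4 * √(AT T) * (1 - T * ⟪x, y⟫) ^ 7) := by
    have h6 := Real.sqrt_pos.2 (AT_pos hT.1 hT.2)
    positivity
  rw [← mul_assoc] at h3
  have h7 := nonneg_of_mul_nonneg_right h3 hpos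
  linarith

end

end Vale.Agent.P224.SP
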