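import Vale.Agent.P224.SP.CoreT

/-!
The pointwise inequality on `(0, 1)` from truncated columns, arbitrary coefficient functions.
-/

namespace Vale.Agent.P224.SP

open Vale.Agent.P224.UE Vale.Agent.P224.POS Vale.Agent.P224.PO Vale.Agent.P224.SO Set
open scoped RealInnerProductSpace

noncomputable section

/-- a value column: exponents, coefficients `r0`, `r1` of `dn g`, `dn g'` in the base functions,
approximations `Z0`, `Z1` of `D g`, `D g'` with errors and truncated parts -/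
structure VY where
  K : VK
  r0 : List PE
  r1 : List PE
  Z0 : PE
  E0 : ℕ
  h0 : ℕ
  L20 : WE
  L30 : WE
  Z1 : PE
  E1 : ℕ
  h1 : ℕ
  L21 : WE
  L31 : WE

/-- a row column -/
structure RY where
  K : RK
  r : List PE
  Z : PE
  E : ℕ
  h : ℕ
  L2 : WE
  L3 : WE

/-- the column of the derivative -/
def VY.cl1 (x : VY) : Cl := ⟨.sub (.c 0) x.K.M1, x.r1, x.Z1, x.E1, x.h1, x.L21, x.L31⟩

/-- the column of the function -/
def VY.cl0 (x : VY) : Cl := ⟨.sub (.c 0) x.K.M0, x.r0, x.Z0, x.E0, x.h0, x.L20, x.L30⟩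

/-- the column of a row -/
def RY.cl (x : RY) : Cl := ⟨x.K.M, x.r, x.Z, x.E, x.h, x.L2, x.L3⟩

/-- all columns -/
def clY (V : List VY) (R : List RY) : List Cl :=
  (V.flatMap fun x => [x.cl1, x.cl0]) ++ R.map fun x => x.cl

/-- the denominator as a function -/
def dY (dn : PE) (T : ℝ) : ℝ := PE.ev (fT T) dn

/-- all columns with their functions -/
def fY (lV : List (VY × (ℝ → ℝ) × (ℝ → ℝ) × ℕ × ℝ)) (lR : List (RY × (ℝ → ℝ))) :
    List ((ℝ → ℝ) × Cl) :=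
  (lV.flatMap fun x => [(x.2.2.1, x.1.cl1), (x.2.1, x.1.cl0)]) ++ lR.map fun x => (x.2, x.1.cl)

lemma fY_map (lV : List (VY × (ℝ → ℝ) × (ℝ → ℝ) × ℕ × ℝ)) (lR : List (RY × (ℝ → ℝ))) :
    ((fY lV lR).map fun c => c.2) = clY (lV.map fun x => x.1) (lR.map fun x => x.1) := by
  unfold fY clY
  rw [List.map_append, List.map_map, List.map_map]
  congr 1
  induction lV with
  | nil => rfl
  | cons x V ih =>
    rw [List.flatMap_cons, List.map_append, ih]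
    rfl

/-- the value column as an element of the list of value columns -/
def gY (x : VY × (ℝ → ℝ) × (ℝ → ℝ) × ℕ × ℝ) : VE :=
  ⟨x.1.K, x.2.1, x.2.2.1, x.2.2.2.1, x.2.2.2.2, x.1.r0, x.1.r1⟩

/-- the row column as an element of the list of row columns -/
def rY (x : RY × (ℝ → ℝ)) : RE := ⟨x.1.K, x.2, x.1.r⟩

lemma tot_fY (lV : List (VY × (ℝ → ℝ) × (ℝ → ℝ) × ℕ × ℝ)) (lR : List (RY × (ℝ → ℝ))) (T : ℝ)
    (f : ℕ → ℝ) : tot T f (cols (lV.map gY) (lR.map rY))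
      = ((fY lV lR).map fun c => c.1 T * PE.ev f c.2.M).sum := by
  unfold tot cols fY
  rw [List.map_append, List.map_append, List.sum_append, List.sum_append]
  congr 1
  · induction lV with
    | nil => rfl
    | cons x V ih =>
      rw [List.map_cons (f := gY), List.flatMap_cons, List.map_append, List.sum_append, ih,
        List.flatMap_cons, List.map_append, List.sum_append]
      rfl
  · rw [List.map_map, List.map_map, List.map_map]
    rfl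

/-- **The pointwise inequality** on `(0, 1)`. -/
theorem hpos_Y {dn : PE} (hDn : ∀ T ∈ Ioo (0 : ℝ) 1, 0 < dY dn T)
    {lV : List (VY × (ℝ → ℝ) × (ℝ → ℝ) × ℕ × ℝ)} {V : List VY} (hlV : (lV.map fun x => x.1) = V)
    {lR : List (RY × (ℝ → ℝ))} {R : List RY} (hlR : (lR.map fun x => x.1) = R)
    (hV : (V.all fun x => decide (x.K.q ≤ 6) && ((x.r0.all only4 && x.r1.all only4)
      && (only4 x.Z0 && only4 x.Z1))) = true)
    (hR : (R.all fun x => decide (x.K.q ≤ 6) && (x.r.all only4 && only4 x.Z)) = true)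
    {n : ℕ} {b : ℕ → ℝ → ℝ}
    (hg0 : ∀ T ∈ Ioo (0 : ℝ) 1, ∀ x ∈ lV, dY dn T * x.2.1 T
      = ∑ p ∈ Finset.range n, b p T * PE.ev (fT T) (x.1.r0.getD p (.c 0)))
    (hg1 : ∀ T ∈ Ioo (0 : ℝ) 1, ∀ x ∈ lV, dY dn T * x.2.2.1 T
      = ∑ p ∈ Finset.range n, b p T * PE.ev (fT T) (x.1.r1.getD p (.c 0)))
    (hz : ∀ T ∈ Ioo (0 : ℝ) 1, ∀ x ∈ lR, dY dn T * x.2 T
      = ∑ p ∈ Finset.range n, b p T * PE.ev (fT T) (x.1.r.getD p (.c 0)))
    (hct : ∀ f : ℕ → ℝ, (∀ i, 5 ≤ i → f i = 0) → ∀ p < n, PE.ev f (Ct p (clY V R)) = 0)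
    (htr : ∀ f : ℕ → ℝ, (∀ i, 5 ≤ i → f i = 0) → ∀ c ∈ clY V R, PE.ev f c.tr = 0)
    {D : ℝ} (hD : 0 < D)
    (hδ0 : ∀ T ∈ Ioo (0 : ℝ) 1, ∀ x ∈ lV, x.1.cl0.nz = true →
      |D * x.2.1 T - PE.ev (fT T) x.1.Z0| ≤ x.1.E0 * (1 - T) ^ x.1.h0)
    (hδ1 : ∀ T ∈ Ioo (0 : ℝ) 1, ∀ x ∈ lV, x.1.cl1.nz = true →
      |D * x.2.2.1 T - PE.ev (fT T) x.1.Z1| ≤ x.1.E1 * (1 - T) ^ x.1.h1)
    (hδr : ∀ T ∈ Ioo (0 : ℝ) 1, ∀ x ∈ lR, x.1.cl.nz = true →
      |D * x.2 T - PE.ev (fT T) x.1.Z| ≤ x.1.E * (1 - T) ^ x.1.h)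
    {n2 n3 Dl : ℕ} (herr : errT n2 n3 (clY V R) Dl = true)
    {E : Type*} [NormedAddCommGroup E] [InnerProductSpace ℝ E]
    (hQ : ∀ T ∈ Ioo (0 : ℝ) 1, ∀ x N y w : E, ‖x‖ = 1 → ‖N‖ = 1 → ‖y‖ = 1 → ‖w‖ = 1 →
      ⟪x, N⟫ = 0 → ⟪y, w⟫ = 0 → 0 ≤ PE.ev (vT T ⟪x, y⟫ ⟪x, w⟫ ⟪N, y⟫ ⟪N, w⟫)
        (.sub (Qt (clY V R)) (.mul (.c (Int.ofNat Dl)) (pW n2 n3)))) :
    ∀ T ∈ Ioo (0 : ℝ) 1, ∀ x N y w : E, ‖x‖ = 1 → ‖N‖ = 1 → ‖y‖ = 1 → ‖w‖ = 1 →
      ⟪x, N⟫ = 0 → ⟪y, w⟫ = 0 →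
      gS' ((lG (lV.map gY)).map GT.v) T (dv x N y w 0)
        ≤ (OT.Rs 5 (lS (lR.map rY)) T (dv x N y w 0)
          + OT.Rs 5 (lS (lR.map rY)) T (sw9 (dv x N y w 0))) / 2 := by
  intro T hT x N y w hx hN hy hw hxN hyw
  have hrg := rg_vT hx hN hy hw hxN hyw hT.1 hT.2
  have hP : 0 < 1 - T * ⟪x, y⟫ := hrg.P0
  have hV' : ∀ u ∈ lV, u.1.K.q ≤ 6 ∧ ((u.1.r0.all only4) = true ∧ (u.1.r1.all only4) = true)
      ∧ only4 u.1.Z0 = true ∧ only4 u.1.Z1 = true := by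
    intro u hu
    have h1 : u.1 ∈ V := by
      rw [← hlV]
      exact List.mem_map_of_mem (f := fun x : VY × (ℝ → ℝ) × (ℝ → ℝ) × ℕ × ℝ => x.1) hu
    have h2 := List.all_eq_true.1 hV _ h1
    rw [Bool.and_eq_true, Bool.and_eq_true, Bool.and_eq_true, Bool.and_eq_true,
      decide_eq_true_eq] at h2
    exact h2
  have hR' : ∀ u ∈ lR, u.1.K.q ≤ 6 ∧ (u.1.r.all only4) = true ∧ only4 u.1.Z = true := by
    intro u hu
    have h1 : u.1 ∈ R := by
      rw [← hlR]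
      exact List.mem_map_of_mem (f := fun x : RY × (ℝ → ℝ) => x.1) hu
    have h2 := List.all_eq_true.1 hR _ h1
    rw [Bool.and_eq_true, Bool.and_eq_true, decide_eq_true_eq] at h2
    exact h2
  have hqV : ∀ u ∈ lV.map gY, u.K.q ≤ 6 := by
    intro u hu
    obtain ⟨v, hv, rfl⟩ := List.mem_map.1 hu
    exact (hV' v hv).1
  have hqR : ∀ u ∈ lR.map rY, u.K.q ≤ 6 := by
    intro u hu
    obtain ⟨v, hv, rfl⟩ := List.mem_map.1 hu
    exact (hR' v hv).1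
  have key := tot_cols hqV hqR hT.1 hT.2 (d := dv x N y w 0) (ne_of_gt hP)
  have e1 : (dv x N y w (0 : E)) 0 = ⟪x, y⟫ := rfl
  rw [tot_fY, e1] at key
  set f := vT T ⟪x, y⟫ ⟪x, w⟫ ⟪N, y⟫ ⟪N, w⟫ with hfd
  have e2 : vT T ⟪x, y⟫ ((dv x N y w (0 : E)) 1) ((dv x N y w (0 : E)) 2)
      ((dv x N y w (0 : E)) 3) = f := rfl
  rw [e2] at key
  have hf4 : f 4 = T := rfl
  have hf5 : ∀ i, 5 ≤ i → f i = 0 := fun i hi => vT_ge _ _ _ _ _ hi
  have hdn0 : dY dn T ≠ 0 := (hDn T hT).ne'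
  have hmap : ((fY lV lR).map fun c => c.2) = clY V R := by rw [fY_map, hlV, hlR]
  have hmem : ∀ c ∈ fY lV lR, (∃ u ∈ lV, c = (u.2.2.1, u.1.cl1))
      ∨ (∃ u ∈ lV, c = (u.2.1, u.1.cl0)) ∨ ∃ u ∈ lR, c = (u.2, u.1.cl) := by
    intro c hc
    unfold fY at hc
    rcases List.mem_append.1 hc with hc | hc
    · obtain ⟨u, hu, hcu⟩ := List.mem_flatMap.1 hc
      rcases List.mem_cons.1 hcu with rfl | hcu
      · exact Or.inl ⟨u, hu, rfl⟩
      · rcases List.mem_cons.1 hcu with rfl | hcu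
        · exact Or.inr (Or.inl ⟨u, hu, rfl⟩)
        · exact absurd hcu List.not_mem_nil
    · obtain ⟨u, hu, rfl⟩ := List.mem_map.1 hc
      exact Or.inr (Or.inr ⟨u, hu, rfl⟩)
  have hgen : ∀ r : List PE, (r.all only4) = true → ∀ p, PE.ev f (r.getD p (.c 0))
      = PE.ev (fT T) (r.getD p (.c 0)) := by
    intro r hr p
    by_cases hp : p < r.length
    · rw [List.getD_eq_getElem _ _ hp]
      exact ev_only4 hf4 _ (List.all_eq_true.1 hr _ (List.getElem_mem hp))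
    · rw [List.getD_eq_default _ _ (not_lt.1 hp)]
      rfl
  have hc := coreT hrg hf4 (l := fY lV lR) (n := n) (b := b) hdn0
    (by
      intro c hc
      rcases hmem c hc with ⟨u, hu, rfl⟩ | ⟨u, hu, rfl⟩ | ⟨u, hu, rfl⟩
      · refine (hg1 T hT u hu).trans (Finset.sum_congr rfl fun p _ => ?_)
        have := hgen _ (hV' u hu).2.1.2 p
        change _ = b p T * PE.ev f (u.1.r1.getD p (.c 0))
        rw [this]
      · refine (hg0 T hT u hu).trans (Finset.sum_congr rfl fun p _ => ?_)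
        have := hgen _ (hV' u hu).2.1.1 p
        change _ = b p T * PE.ev f (u.1.r0.getD p (.c 0))
        rw [this]
      · refine (hz T hT u hu).trans (Finset.sum_congr rfl fun p _ => ?_)
        have := hgen _ (hR' u hu).2.1 p
        change _ = b p T * PE.ev f (u.1.r.getD p (.c 0))
        rw [this])
    (fun p hp => by
      rw [hmap]
      exact hct f hf5 p hp)
    (fun c hc => htr f hf5 c.2 (by
      rw [← hmap]
      exact List.mem_map_of_mem hc))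
    (D := D)
    (by
      intro c hc hnz
      rcases hmem c hc with ⟨u, hu, rfl⟩ | ⟨u, hu, rfl⟩ | ⟨u, hu, rfl⟩
      · have := hδ1 T hT u hu hnz
        rw [← ev_only4 hf4 _ (hV' u hu).2.2.2] at this
        exact this
      · have := hδ0 T hT u hu hnz
        rw [← ev_only4 hf4 _ (hV' u hu).2.2.1] at this
        exact this
      · have := hδr T hT u hu hnz
        rw [← ev_only4 hf4 _ (hR' u hu).2.2] at this
        exact this)
    (n2 := n2) (n3 := n3) (Dl := Dl) (by rw [hmap]; exact herr)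
  rw [hmap, ← key] at hc
  have h2 := hQ T hT x N y w hx hN hy hw hxN hyw
  rw [PE.ev_sub, PE.ev_mul, PE.ev_c, Int.ofNat_eq_natCast, Int.cast_natCast] at h2
  have h3 := h2.trans hc
  have hpos : 0 < D * (4 * √(AT T) * (1 - T * ⟪x, y⟫) ^ 7) := by
    have h6 := Real.sqrt_pos.2 (AT_pos hT.1 hT.2)
    positivity
  rw [← mul_assoc] at h3
  have h7 := nonneg_of_mul_nonneg_right h3 hpos
  linarith

end

end Vale.Agent.P224.SP
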