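import Vale.Agent.P224.SP.CoreZ

/-!
The pointwise inequality on `(0, 1)` from truncated columns, arbitrary coefficient functions.
-/

namespace Vale.Agent.P224.SP

open Vale.Agent.P224.UE Vale.Agent.P224.POS Vale.Agent.P224.PO Vale.Agent.P224.SO Set
open scoped RealInnerProductSpace

noncomputable section

/-- a value column: exponents, coefficients `r0`, `r1` of `dn g`, `dn g'` in the base functions,
approximations `Z0`, `Z1` of `D g`, `D g'` with errors and truncated parts -/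
structure VZ where
  K : VK
  r0 : List PE
  r1 : List PE
  Z0 : PE
  E0 : ℕ
  h0 : ℕ
  L20 : WG
  L30 : WG
  Z1 : PE
  E1 : ℕ
  h1 : ℕ
  L21 : WG
  L31 : WG

/-- a row column -/
structure RZ where
  K : RL
  r : List PE
  Z : PE
  E : ℕ
  h : ℕ
  L2 : WG
  L3 : WG

/-- the column of the derivative -/
def VZ.cl1 (x : VZ) : Cz := ⟨.sub (.c 0) x.K.M1, x.r1, x.Z1, x.E1, x.h1, x.L21, x.L31⟩

/-- the column of the function -/
def VZ.cl0 (x : VZ) : Cz := ⟨.sub (.c 0) x.K.M0, x.r0, x.Z0, x.E0, x.h0, x.L20, x.L30⟩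

/-- the column of a row -/
def RZ.cl (x : RZ) : Cz := ⟨x.K.M, x.r, x.Z, x.E, x.h, x.L2, x.L3⟩

/-- all columns -/
def clZ (V : List VZ) (R : List RZ) : List Cz :=
  (V.flatMap fun x => [x.cl1, x.cl0]) ++ R.map fun x => x.cl

/-- the denominator as a function -/
def dZ (dn : PE) (T : ℝ) : ℝ := PE.ev (fT T) dn

/-- all columns with their functions -/
def fZ (lV : List (VZ × (ℝ → ℝ) × (ℝ → ℝ) × ℕ × ℝ)) (lR : List (RZ × (ℝ → ℝ))) :
    List ((ℝ → ℝ) × Cz) :=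
  (lV.flatMap fun x => [(x.2.2.1, x.1.cl1), (x.2.1, x.1.cl0)]) ++ lR.map fun x => (x.2, x.1.cl)

lemma fZ_map (lV : List (VZ × (ℝ → ℝ) × (ℝ → ℝ) × ℕ × ℝ)) (lR : List (RZ × (ℝ → ℝ))) :
    ((fZ lV lR).map fun c => c.2) = clZ (lV.map fun x => x.1) (lR.map fun x => x.1) := by
  unfold fZ clZ
  rw [List.map_append, List.map_map, List.map_map]
  congr 1
  induction lV with
  | nil => rfl
  | cons x V ih =>
    rw [List.flatMap_cons, List.map_append, ih]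
    rfl

/-- the value terms of a value column with its functions -/
def gZ (x : VZ × (ℝ → ℝ) × (ℝ → ℝ) × ℕ × ℝ) : List GT :=
  x.1.K.gts x.2.1 x.2.2.1 x.2.2.2.1 x.2.2.2.2

/-- the value terms -/
def lGZ (lV : List (VZ × (ℝ → ℝ) × (ℝ → ℝ) × ℕ × ℝ)) : List GT := lV.flatMap gZ

/-- the rows -/
def lRZ (lR : List (RZ × (ℝ → ℝ))) : OT.SCert := lSZ (lR.map fun x => (x.1.K, x.2))

lemma tot_fZ {lV : List (VZ × (ℝ → ℝ) × (ℝ → ℝ) × ℕ × ℝ)} {lR : List (RZ × (ℝ → ℝ))}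
    (hV : ∀ x ∈ lV, x.1.K.q ≤ 6) (hR : ∀ x ∈ lR, x.1.K.q ≤ 6)
    {T : ℝ} (h0 : 0 < T) (h1 : T < 1) {d : R9} (hd : 1 - T * d 0 ≠ 0) :
    4 * √(AT T) * (1 - T * d 0) ^ 7
        * ((OT.Rs 5 (lRZ lR) T d + OT.Rs 5 (lRZ lR) T (sw9 d)) / 2
        - gS' ((lGZ lV).map GT.v) T d)
      = ((fZ lV lR).map fun c =>
        c.1 T * PE.ev (vT T (d 0) (d 1) (d 2) (d 3)) c.2.M).sum := by
  have e1 : 4 * √(AT T) * (1 - T * d 0) ^ 7 * gS' ((lGZ lV).map GT.v) T d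
      = -((lV.flatMap fun x => [(x.2.2.1, x.1.cl1), (x.2.1, x.1.cl0)]).map
        fun c : (ℝ → ℝ) × Cz =>
          c.1 T * PE.ev (vT T (d 0) (d 1) (d 2) (d 3)) c.2.M).sum := by
    clear hR
    induction lV with
    | nil => simp [lGZ, gS']
    | cons x V ih =>
      have h2 := ih fun u hu => hV u (List.mem_cons_of_mem _ hu)
      have h3 := x.1.K.eq (hV x List.mem_cons_self) x.2.1 x.2.2.1 x.2.2.2.1 x.2.2.2.2 h0 h1 hd
      unfold lGZ gZ at h2 ⊢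
      rw [List.flatMap_cons, List.map_append, gS'_append, mul_add, h2, h3, List.flatMap_cons,
        List.map_append, List.sum_append]
      simp only [List.map_cons, List.map_nil, List.sum_cons, List.sum_nil, VZ.cl1, VZ.cl0,
        PE.ev_sub, PE.ev_c, Int.cast_zero]
      ring
  have e2 := lSZ_eq (R := lR.map fun x => (x.1.K, x.2)) (by
    intro u hu
    obtain ⟨v, hv, rfl⟩ := List.mem_map.1 hu
    exact hR v hv) h0 h1 hd
  rw [mul_sub, e1]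
  unfold lRZ fZ
  rw [e2, List.map_append, List.sum_append, List.map_map, List.map_map]
  have e3 : ((fun x : RL × (ℝ → ℝ) => x.2 T * PE.ev (vT T (d 0) (d 1) (d 2) (d 3)) x.1.M)
      ∘ fun x : RZ × (ℝ → ℝ) => (x.1.K, x.2))
      = ((fun c : (ℝ → ℝ) × Cz => c.1 T * PE.ev (vT T (d 0) (d 1) (d 2) (d 3)) c.2.M)
      ∘ fun x : RZ × (ℝ → ℝ) => (x.2, x.1.cl)) := rfl
  rw [e3]
  ring

/-- **The pointwise inequality** on `(0, 1)`. -/
theorem hpos_Z {dn : PE} (hDn : ∀ T ∈ Ioo (0 : ℝ) 1, 0 < dZ dn T)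
    {lV : List (VZ × (ℝ → ℝ) × (ℝ → ℝ) × ℕ × ℝ)} {V : List VZ} (hlV : (lV.map fun x => x.1) = V)
    {lR : List (RZ × (ℝ → ℝ))} {R : List RZ} (hlR : (lR.map fun x => x.1) = R)
    (hV : (V.all fun x => decide (x.K.q ≤ 6) && ((x.r0.all only4 && x.r1.all only4)
      && (only4 x.Z0 && only4 x.Z1))) = true)
    (hR : (R.all fun x => decide (x.K.q ≤ 6) && (x.r.all only4 && only4 x.Z)) = true)
    {n : ℕ} {b : ℕ → ℝ → ℝ}
    (hg0 : ∀ T ∈ Ioo (0 : ℝ) 1, ∀ x ∈ lV, dZ dn T * x.2.1 T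
      = ∑ p ∈ Finset.range n, b p T * PE.ev (fT T) (x.1.r0.getD p (.c 0)))
    (hg1 : ∀ T ∈ Ioo (0 : ℝ) 1, ∀ x ∈ lV, dZ dn T * x.2.2.1 T
      = ∑ p ∈ Finset.range n, b p T * PE.ev (fT T) (x.1.r1.getD p (.c 0)))
    (hz : ∀ T ∈ Ioo (0 : ℝ) 1, ∀ x ∈ lR, dZ dn T * x.2 T
      = ∑ p ∈ Finset.range n, b p T * PE.ev (fT T) (x.1.r.getD p (.c 0)))
    (hct : ∀ f : ℕ → ℝ, (∀ i, 5 ≤ i → f i = 0) → ∀ p < n, PE.ev f (Ctz p (clZ V R)) = 0)
    (htr : ∀ f : ℕ → ℝ, (∀ i, 5 ≤ i → f i = 0) → ∀ c ∈ clZ V R, PE.ev f c.tr = 0)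
    {D : ℝ} (hD : 0 < D)
    (hδ0 : ∀ T ∈ Ioo (0 : ℝ) 1, ∀ x ∈ lV, x.1.cl0.nz = true →
      |D * x.2.1 T - PE.ev (fT T) x.1.Z0| ≤ x.1.E0 * (1 - T) ^ x.1.h0)
    (hδ1 : ∀ T ∈ Ioo (0 : ℝ) 1, ∀ x ∈ lV, x.1.cl1.nz = true →
      |D * x.2.2.1 T - PE.ev (fT T) x.1.Z1| ≤ x.1.E1 * (1 - T) ^ x.1.h1)
    (hδr : ∀ T ∈ Ioo (0 : ℝ) 1, ∀ x ∈ lR, x.1.cl.nz = true →
      |D * x.2 T - PE.ev (fT T) x.1.Z| ≤ x.1.E * (1 - T) ^ x.1.h)
    {J n2 n3 D2 D3 : ℕ} (herr : errZ J n2 n3 (clZ V R) D2 D3 = true)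
    {E : Type*} [NormedAddCommGroup E] [InnerProductSpace ℝ E]
    (hQ : ∀ T ∈ Ioo (0 : ℝ) 1, ∀ x N y w : E, ‖x‖ = 1 → ‖N‖ = 1 → ‖y‖ = 1 → ‖w‖ = 1 →
      ⟪x, N⟫ = 0 → ⟪y, w⟫ = 0 → 0 ≤ PE.ev (vT T ⟪x, y⟫ ⟪x, w⟫ ⟪N, y⟫ ⟪N, w⟫)
        (.sub (Qz (clZ V R)) (pW2 n2 n3 D2 D3))) :
    ∀ T ∈ Ioo (0 : ℝ) 1, ∀ x N y w : E, ‖x‖ = 1 → ‖N‖ = 1 → ‖y‖ = 1 → ‖w‖ = 1 →
      ⟪x, N⟫ = 0 → ⟪y, w⟫ = 0 →
      gS' ((lGZ lV).map GT.v) T (dv x N y w 0)
        ≤ (OT.Rs 5 (lRZ lR) T (dv x N y w 0)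
          + OT.Rs 5 (lRZ lR) T (sw9 (dv x N y w 0))) / 2 := by
  intro T hT x N y w hx hN hy hw hxN hyw
  have hrg := rgG_vT hx hN hy hw hxN hyw hT.1 hT.2
  have hP : 0 < 1 - T * ⟪x, y⟫ := hrg.r.P0
  have hV' : ∀ u ∈ lV, u.1.K.q ≤ 6 ∧ ((u.1.r0.all only4) = true ∧ (u.1.r1.all only4) = true)
      ∧ only4 u.1.Z0 = true ∧ only4 u.1.Z1 = true := by
    intro u hu
    have h1 : u.1 ∈ V := by
      rw [← hlV]
      exact List.mem_map_of_mem (f := fun x : VZ × (ℝ → ℝ) × (ℝ → ℝ) × ℕ × ℝ => x.1) hu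
    have h2 := List.all_eq_true.1 hV _ h1
    rw [Bool.and_eq_true, Bool.and_eq_true, Bool.and_eq_true, Bool.and_eq_true,
      decide_eq_true_eq] at h2
    exact h2
  have hR' : ∀ u ∈ lR, u.1.K.q ≤ 6 ∧ (u.1.r.all only4) = true ∧ only4 u.1.Z = true := by
    intro u hu
    have h1 : u.1 ∈ R := by
      rw [← hlR]
      exact List.mem_map_of_mem (f := fun x : RZ × (ℝ → ℝ) => x.1) hu
    have h2 := List.all_eq_true.1 hR _ h1
    rw [Bool.and_eq_true, Bool.and_eq_true, decide_eq_true_eq] at h2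
    exact h2
  have key := tot_fZ (fun u hu => (hV' u hu).1) (fun u hu => (hR' u hu).1) hT.1 hT.2
    (d := dv x N y w 0) (ne_of_gt hP)
  have e1 : (dv x N y w (0 : E)) 0 = ⟪x, y⟫ := rfl
  rw [e1] at key
  set f := vT T ⟪x, y⟫ ⟪x, w⟫ ⟪N, y⟫ ⟪N, w⟫ with hfd
  have e2 : vT T ⟪x, y⟫ ((dv x N y w (0 : E)) 1) ((dv x N y w (0 : E)) 2)
      ((dv x N y w (0 : E)) 3) = f := rfl
  rw [e2] at key
  have hf4 : f 4 = T := rfl
  have hf5 : ∀ i, 5 ≤ i → f i = 0 := fun i hi => vT_ge _ _ _ _ _ hi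
  have hdn0 : dZ dn T ≠ 0 := (hDn T hT).ne'
  have hmap : ((fZ lV lR).map fun c => c.2) = clZ V R := by rw [fZ_map, hlV, hlR]
  have hmem : ∀ c ∈ fZ lV lR, (∃ u ∈ lV, c = (u.2.2.1, u.1.cl1))
      ∨ (∃ u ∈ lV, c = (u.2.1, u.1.cl0)) ∨ ∃ u ∈ lR, c = (u.2, u.1.cl) := by
    intro c hc
    unfold fZ at hc
    rcases List.mem_append.1 hc with hc | hc
    · obtain ⟨u, hu, hcu⟩ := List.mem_flatMap.1 hc
      rcases List.mem_cons.1 hcu with rfl | hcu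
      · exact Or.inl ⟨u, hu, rfl⟩
      · rcases List.mem_cons.1 hcu with rfl | hcu
        · exact Or.inr (Or.inl ⟨u, hu, rfl⟩)
        · exact absurd hcu List.not_mem_nil
    · obtain ⟨u, hu, rfl⟩ := List.mem_map.1 hc
      exact Or.inr (Or.inr ⟨u, hu, rfl⟩)
  have hgen : ∀ r : List PE, (r.all only4) = true → ∀ p, PE.ev f (r.getD p (.c 0))
      = PE.ev (fT T) (r.getD p (.c 0)) := by
    intro r hr p
    by_cases hp : p < r.length
    · rw [List.getD_eq_getElem _ _ hp]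
      exact ev_only4 hf4 _ (List.all_eq_true.1 hr _ (List.getElem_mem hp))
    · rw [List.getD_eq_default _ _ (not_lt.1 hp)]
      rfl
  have hc := coreZ hrg hf4 (l := fZ lV lR) (n := n) (b := b) hdn0
    (by
      intro c hc
      rcases hmem c hc with ⟨u, hu, rfl⟩ | ⟨u, hu, rfl⟩ | ⟨u, hu, rfl⟩
      · refine (hg1 T hT u hu).trans (Finset.sum_congr rfl fun p _ => ?_)
        have := hgen _ (hV' u hu).2.1.2 p
        change _ = b p T * PE.ev f (u.1.r1.getD p (.c 0))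
        rw [this]
      · refine (hg0 T hT u hu).trans (Finset.sum_congr rfl fun p _ => ?_)
        have := hgen _ (hV' u hu).2.1.1 p
        change _ = b p T * PE.ev f (u.1.r0.getD p (.c 0))
        rw [this]
      · refine (hz T hT u hu).trans (Finset.sum_congr rfl fun p _ => ?_)
        have := hgen _ (hR' u hu).2.1 p
        change _ = b p T * PE.ev f (u.1.r.getD p (.c 0))
        rw [this])
    (fun p hp => by
      rw [hmap]
      exact hct f hf5 p hp)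
    (fun c hc => htr f hf5 c.2 (by
      rw [← hmap]
      exact List.mem_map_of_mem hc))
    (D := D)
    (by
      intro c hc hnz
      rcases hmem c hc with ⟨u, hu, rfl⟩ | ⟨u, hu, rfl⟩ | ⟨u, hu, rfl⟩
      · have := hδ1 T hT u hu hnz
        rw [← ev_only4 hf4 _ (hV' u hu).2.2.2] at this
        exact this
      · have := hδ0 T hT u hu hnz
        rw [← ev_only4 hf4 _ (hV' u hu).2.2.1] at this
        exact this
      · have := hδr T hT u hu hnz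
        rw [← ev_only4 hf4 _ (hR' u hu).2.2] at this
        exact this)
    (J := J) (n2 := n2) (n3 := n3) (D2 := D2) (D3 := D3) (by rw [hmap]; exact herr)
  rw [hmap, ← key] at hc
  have h2 := hQ T hT x N y w hx hN hy hw hxN hyw
  rw [PE.ev_sub] at h2
  have h3 := h2.trans hc
  have hpos : 0 < D * (4 * √(AT T) * (1 - T * ⟪x, y⟫) ^ 7) := by
    have h6 := Real.sqrt_pos.2 (AT_pos hT.1 hT.2)
    positivity
  rw [← mul_assoc] at h3
  have h7 := nonneg_of_mul_nonneg_right h3 hpos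
  linarith

end

end Vale.Agent.P224.SP
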