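import Vale.Agent.P224.SP.AsmT

/-!
Columns with an exact polynomial part and a part in the base functions which is approximated.
-/

namespace Vale.Agent.P224.SP

open Vale.Agent.P224.UE Vale.Agent.P224.POS Vale.Agent.P224.PO Vale.Agent.P224.SO Set
open scoped RealInnerProductSpace

noncomputable section

/-- the base functions: number zero is the constant one -/
def bs (φ : ℕ → ℝ → ℝ) (p : ℕ) (T : ℝ) : ℝ := Nat.rec (motive := fun _ => ℝ) 1 (fun k _ => φ k T) p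

lemma bs_zero (φ : ℕ → ℝ → ℝ) (T : ℝ) : bs φ 0 T = 1 := rfl

lemma bs_succ (φ : ℕ → ℝ → ℝ) (k : ℕ) (T : ℝ) : bs φ (k + 1) T = φ k T := rfl

/-- a combination of base functions: polynomial part `q`, parts `s` -/
structure Cf where
  /-- the polynomial part -/
  q : PE
  /-- the coefficients of the base functions (times `dn` for derivatives and rows) -/
  s : List PE
  /-- the approximation of `D` times the second part -/
  B : PE
  /-- the error -/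
  E : ℕ
  /-- the power of `1 - T` in the error -/
  h : ℕ

/-- a value column -/
structure VC where
  K : VK
  c0 : Cf
  c1 : Cf
  L20 : WE
  L30 : WE
  L21 : WE
  L31 : WE

/-- a row column -/
structure RC where
  K : RK
  c : Cf
  L2 : WE
  L3 : WE

/-- the value column with all data -/
def VC.x (dn : PE) (D : ℕ) (x : VC) : VX :=
  ⟨x.K, x.c0.q :: x.c0.s, .mul dn x.c1.q :: x.c1.s,
    .add (.mul (.c (Int.ofNat D)) x.c0.q) x.c0.B, x.c0.E, x.c0.h, x.L20, x.L30,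
    .add (.mul (.c (Int.ofNat D)) x.c1.q) x.c1.B, x.c1.E, x.c1.h, x.L21, x.L31⟩

/-- the row column with all data -/
def RC.x (dn : PE) (D : ℕ) (x : RC) : RX :=
  ⟨x.K, .mul dn x.c.q :: x.c.s, .add (.mul (.c (Int.ofNat D)) x.c.q) x.c.B, x.c.E, x.c.h,
    x.L2, x.L3⟩

/-- the approximation without denominator -/
def Cf.ok0 (D : ℕ) (n : ℕ) (φ : ℕ → ℝ → ℝ) (c : Cf) : Prop := ∀ T ∈ Ioo (0 : ℝ) 1,
  |D * (∑ p ∈ Finset.range n, φ p T * PE.ev (fT T) (c.s.getD p (.c 0))) - PE.ev (fT T) c.B|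
    ≤ c.E * (1 - T) ^ c.h

/-- the approximation with denominator -/
def Cf.ok1 (D : ℕ) (n : ℕ) (φ : ℕ → ℝ → ℝ) (dn : PE) (c : Cf) : Prop := ∀ T ∈ Ioo (0 : ℝ) 1,
  |D * ((∑ p ∈ Finset.range n, φ p T * PE.ev (fT T) (c.s.getD p (.c 0))) / dF dn T)
    - PE.ev (fT T) c.B| ≤ c.E * (1 - T) ^ c.h

/-- an exact polynomial -/
lemma Cf.ok0_of_nil (D : ℕ) (n : ℕ) (φ : ℕ → ℝ → ℝ) (q : PE) (h : ℕ) :
    Cf.ok0 D n φ ⟨q, [], .c 0, 0, h⟩ := by
  intro T _
  simp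

lemma Cf.ok1_of_nil (D : ℕ) (n : ℕ) (φ : ℕ → ℝ → ℝ) (dn q : PE) (h : ℕ) :
    Cf.ok1 D n φ dn ⟨q, [], .c 0, 0, h⟩ := by
  intro T _
  simp

lemma sum_bs (n : ℕ) (φ : ℕ → ℝ → ℝ) (T : ℝ) (q : PE) (s : List PE) :
    ∑ p ∈ Finset.range (n + 1), bs φ p T * PE.ev (fT T) ((q :: s).getD p (.c 0))
      = PE.ev (fT T) q
        + ∑ p ∈ Finset.range n, φ p T * PE.ev (fT T) (s.getD p (.c 0)) := by
  rw [Finset.sum_range_succ', bs_zero, List.getD_cons_zero, one_mul, add_comm]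
  rfl

/-- **The pointwise inequality** on `(0, 1)`. -/
theorem hpos_C {dn : PE} (hdn : only4 dn = true) (hDn : ∀ T ∈ Ioo (0 : ℝ) 1, 0 < dF dn T)
    {D : ℕ} (hD : 0 < D) {lV : List (VC × ℕ × ℝ)} {V : List VC} (hlV : (lV.map fun x => x.1) = V)
    {R : List RC}
    (hV : ((V.map (VC.x dn D)).all fun x => decide (x.K.q ≤ 6) && ((x.s.all only4
      && x.r1.all only4) && (only4 x.Z0 && only4 x.Z1))) = true)
    (hR : ((R.map (RC.x dn D)).all fun x => decide (x.K.q ≤ 6) && (x.r.all only4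
      && only4 x.Z)) = true)
    {n : ℕ} {φ : ℕ → ℝ → ℝ}
    (hct : ∀ f : ℕ → ℝ, (∀ i, 5 ≤ i → f i = 0) → ∀ p < n + 1,
      PE.ev f (Ct p (clX dn (V.map (VC.x dn D)) (R.map (RC.x dn D)))) = 0)
    (htr : ∀ f : ℕ → ℝ, (∀ i, 5 ≤ i → f i = 0) →
      ∀ c ∈ clX dn (V.map (VC.x dn D)) (R.map (RC.x dn D)), PE.ev f c.tr = 0)
    (hδ0 : ∀ x ∈ V, x.c0.ok0 D n φ) (hδ1 : ∀ x ∈ V, x.c1.ok1 D n φ dn)
    (hδr : ∀ x ∈ R, x.c.ok1 D n φ dn)
    {n2 n3 Dl : ℕ}
    (herr : errT n2 n3 (clX dn (V.map (VC.x dn D)) (R.map (RC.x dn D))) Dl = true)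
    {E : Type*} [NormedAddCommGroup E] [InnerProductSpace ℝ E]
    (hQ : ∀ T ∈ Ioo (0 : ℝ) 1, ∀ x N y w : E, ‖x‖ = 1 → ‖N‖ = 1 → ‖y‖ = 1 → ‖w‖ = 1 →
      ⟪x, N⟫ = 0 → ⟪y, w⟫ = 0 → 0 ≤ PE.ev (vT T ⟪x, y⟫ ⟪x, w⟫ ⟪N, y⟫ ⟪N, w⟫)
        (.sub (Qt (clX dn (V.map (VC.x dn D)) (R.map (RC.x dn D))))
          (.mul (.c (Int.ofNat Dl)) (pW n2 n3)))) :
    ∀ T ∈ Ioo (0 : ℝ) 1, ∀ x N y w : E, ‖x‖ = 1 → ‖N‖ = 1 → ‖y‖ = 1 → ‖w‖ = 1 →
      ⟪x, N⟫ = 0 → ⟪y, w⟫ = 0 →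
      gS' ((lG (lV.map fun x => gX (n + 1) (bs φ) dn (x.1.x dn D, x.2))).map GT.v) T (dv x N y w 0)
        ≤ (OT.Rs 5 (lS (R.map fun x => rX (n + 1) (bs φ) dn (x.x dn D))) T (dv x N y w 0)
          + OT.Rs 5 (lS (R.map fun x => rX (n + 1) (bs φ) dn (x.x dn D))) T
            (sw9 (dv x N y w 0))) / 2 := by
  have key := hpos_T hdn hDn (lV := lV.map fun x => (x.1.x dn D, x.2)) (V := V.map (VC.x dn D))
    (by
      rw [List.map_map, ← hlV, List.map_map]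
      rfl)
    (R := R.map (RC.x dn D)) hV hR (n := n + 1) (b := bs φ) hct htr
    (D := D) (by exact_mod_cast hD)
    (fun T hT x hx => by
      obtain ⟨u, hu, rfl⟩ := List.mem_map.1 hx
      have h1 := hδ0 u hu T hT
      have e1 : cmb1 (n + 1) (bs φ) (u.x dn D).s T = PE.ev (fT T) u.c0.q
          + ∑ p ∈ Finset.range n, φ p T * PE.ev (fT T) (u.c0.s.getD p (.c 0)) :=
        sum_bs n φ T u.c0.q u.c0.s
      have e2 : PE.ev (fT T) (u.x dn D).Z0 = D * PE.ev (fT T) u.c0.q + PE.ev (fT T) u.c0.B := by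
        change PE.ev (fT T) (.add (.mul (.c (Int.ofNat D)) u.c0.q) u.c0.B) = _
        rw [PE.ev_add, PE.ev_mul, PE.ev_c, Int.ofNat_eq_natCast, Int.cast_natCast]
      rw [e1, e2]
      refine le_trans (le_of_eq ?_) h1
      congr 1
      ring)
    (fun T hT x hx => by
      obtain ⟨u, hu, rfl⟩ := List.mem_map.1 hx
      have h1 := hδ1 u hu T hT
      have e1 : cmb (n + 1) (bs φ) (dF dn) (u.x dn D).r1 T = PE.ev (fT T) u.c1.q
          + (∑ p ∈ Finset.range n, φ p T * PE.ev (fT T) (u.c1.s.getD p (.c 0))) / dF dn T := by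
        have h2 := sum_bs n φ T (.mul dn u.c1.q) u.c1.s
        change (∑ p ∈ Finset.range (n + 1), bs φ p T
          * PE.ev (fT T) ((.mul dn u.c1.q :: u.c1.s).getD p (.c 0))) / dF dn T = _
        rw [h2, PE.ev_mul, add_div]
        congr 1
        exact mul_div_cancel_left₀ _ (hDn T hT).ne'
      have e2 : PE.ev (fT T) (u.x dn D).Z1 = D * PE.ev (fT T) u.c1.q + PE.ev (fT T) u.c1.B := by
        change PE.ev (fT T) (.add (.mul (.c (Int.ofNat D)) u.c1.q) u.c1.B) = _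
        rw [PE.ev_add, PE.ev_mul, PE.ev_c, Int.ofNat_eq_natCast, Int.cast_natCast]
      rw [e1, e2]
      refine le_trans (le_of_eq ?_) h1
      congr 1
      ring)
    (fun T hT x hx => by
      obtain ⟨u, hu, rfl⟩ := List.mem_map.1 hx
      have h1 := hδr u hu T hT
      have e1 : cmb (n + 1) (bs φ) (dF dn) (u.x dn D).r T = PE.ev (fT T) u.c.q
          + (∑ p ∈ Finset.range n, φ p T * PE.ev (fT T) (u.c.s.getD p (.c 0))) / dF dn T := by
        have h2 := sum_bs n φ T (.mul dn u.c.q) u.c.s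
        change (∑ p ∈ Finset.range (n + 1), bs φ p T
          * PE.ev (fT T) ((.mul dn u.c.q :: u.c.s).getD p (.c 0))) / dF dn T = _
        rw [h2, PE.ev_mul, add_div]
        congr 1
        exact mul_div_cancel_left₀ _ (hDn T hT).ne'
      have e2 : PE.ev (fT T) (u.x dn D).Z = D * PE.ev (fT T) u.c.q + PE.ev (fT T) u.c.B := by
        change PE.ev (fT T) (.add (.mul (.c (Int.ofNat D)) u.c.q) u.c.B) = _
        rw [PE.ev_add, PE.ev_mul, PE.ev_c, Int.ofNat_eq_natCast, Int.cast_natCast]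
      rw [e1, e2]
      refine le_trans (le_of_eq ?_) h1
      congr 1
      ring)
    herr hQ
  intro T hT x N y w h1 h2 h3 h4 h5 h6
  have h7 := key T hT x N y w h1 h2 h3 h4 h5 h6
  rw [List.map_map, List.map_map] at h7
  exact h7

end

end Vale.Agent.P224.SP
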