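import Vale.Agent.P224.SP.Near2
import Vale.Agent.P224.SP.Ap

/-!
Polynomial models at `T = 0`: on `(0, 1/4]`, with remainder a multiple of `T ^ 24`.
-/

namespace Vale.Agent.P224.SP

open Set Filter Real
open scoped Topology

/-- the left interval -/
def SL : Set ℝ := Ioc (0 : ℝ) (1 / 4)

/-- the weight on the left interval -/
noncomputable def wL (T : ℝ) : ℝ := T ^ 24

/-- regular part of `l1` -/
noncomputable def lam1 (T : ℝ) : ℝ := Real.log ((qD (-4 / 5) T + y1 T) / 2)

/-- regular part of `L0` -/
noncomputable def lam0 (T : ℝ) : ℝ := Real.log ((qD (-26 / 25) (T ^ 2) + y12 T) / 2)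

/-- regular part of `L13` -/
noncomputable def lam3 (T : ℝ) : ℝ := Real.log ((qD (6 / 5) T + b13 T) / 2)

lemma lam1_eq (T : ℝ) : lam1 T = qU (-4 / 5) (-1 / 5) T := rfl
lemma lam0_eq (T : ℝ) : lam0 T = qU (-26 / 25) (1 / 25) (T ^ 2) := rfl
lemma lam3_eq (T : ℝ) : lam3 T = qU (6 / 5) (1 / 5) T := rfl

lemma wt_SL : WtA SL wL := by
  intro T hT
  have h0 : 0 ≤ T := hT.1.le
  have h1 : T ≤ 1 := hT.2.trans (by norm_num)
  exact ⟨h0, h1, pow_nonneg h0 _, pow_le_one₀ h0 h1⟩

/-- `f1 = y1 (lam1 + log (10/3) - log T)` -/
lemma f1_left {T : ℝ} (h0 : 0 < T) (h1 : T < 1) :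
    f1 T = y1 T * (lam1 T + Real.log (10 / 3) - Real.log T) := by
  unfold f1 l1
  rw [qL_eq_qU (by norm_num) h0 (qR_1_pos h0 h1) (qD_1_pos h1.le), lam1_eq]
  have e : (2 : ℝ) / (3 / 5) = 10 / 3 := by norm_num
  rw [e]
  ring

/-- `f2 = y12 (lam0 + log (25/6) - 2 log T)` -/
lemma f2_left {T : ℝ} (h0 : 0 < T) (h1 : T < 1) :
    f2 T = y12 T * (lam0 T + Real.log (25 / 6) - 2 * Real.log T) := by
  unfold f2 L0
  rw [qL_eq_qU (by norm_num) (by positivity) (qR_12_pos h0 h1) (qD_12_pos h0 h1.le), lam0_eq,
    Real.log_pow]
  have e : (2 : ℝ) / (12 / 25) = 25 / 6 := by norm_num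
  rw [e]
  push_cast
  ring

/-- `f3 = b13 (lam3 + log 5 - log T)` -/
lemma f3_left {T : ℝ} (h0 : 0 < T) :
    f3 T = b13 T * (lam3 T + Real.log 5 - Real.log T) := by
  unfold f3 L13
  rw [qL_eq_qU (by norm_num) h0 (qR_3_pos h0) (qD_3_pos h0), lam3_eq]
  have e : (2 : ℝ) / (2 / 5) = 5 := by norm_num
  rw [e]
  ring

lemma ev_snoc (l : List ℤ) (c : ℤ) (x : ℝ) :
    ev (l ++ [c]) x = ev l x + c * x ^ l.length := by
  induction l with
  | nil => simp
  | cons a l ih =>
    rw [List.cons_append, ev_cons, ih, ev_cons, List.length_cons, pow_succ]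
    ring

/-- the polynomial in `T ^ 2` -/
def sqL : List ℤ → List ℤ
  | [] => []
  | (a :: l) => a :: 0 :: sqL l

lemma ev_sqL (l : List ℤ) (x : ℝ) : ev (sqL l) x = ev l (x ^ 2) := by
  induction l with
  | nil => rfl
  | cons a l ih =>
    simp only [sqL, ev_cons, ih]
    push_cast
    ring

lemma ap_of_evq {f : ℝ} {D E : ℤ} {l : List ℤ} {x w : ℝ} (hD : 0 < D)
    (h1 : evq (l ++ [-E]) D x ≤ f) (h2 : f ≤ evq (l ++ [E]) D x) (hw : x ^ l.length = w) :
    |D * f - ev l x| ≤ E * w := by
  have hD' : (0 : ℝ) < D := by exact_mod_cast hD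
  unfold evq at h1 h2
  rw [ev_snoc, div_le_iff₀ hD', hw] at h1
  rw [ev_snoc, le_div_iff₀ hD', hw] at h2
  push_cast at h1 h2
  rw [abs_le]
  constructor <;> linarith

/-- Taylor coefficients at `0` (times `dY1`) -/
def cY1 : List ℤ :=
  [1250000000000000000000, -500000000000000000000, -225000000000000000000, -90000000000000000000,
  -56250000000000000000, -38700000000000000000, -28845000000000000000, -22554000000000000000,
  -18265725000000000000, -15184350000000000000, -12882559500000000000, -11109310200000000000,
  -9708901065000000000, -8580039246000000000, -7654283914500000000, -6883890697800000000,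
  -6234641892011250000, -5681438436163500000, -5205495168521775000, -4792501860790950000,
  -4431385555634004750, -4113458160320852100, -3831817224575963295, -3580916908869129438]

/-- common denominator -/
def dY1 : ℤ := 1250000000000000000000

/-- remainder constant -/
def eY1 : ℤ := 6250000000000000000

/-- Taylor coefficients at `0` (times `dY12`) -/
def cY12 : List ℤ :=
  [2384185791015625, 0, -1239776611328125, 0, -274658203125000, 0, -142822265625000, 0,
  -90087890625000, 0, -63298828125000, 0, -47571328125000, 0, -37425740625000, 0,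
  -30435467625000, 0, -25379385525000, 0, -21583183710600, 0, -18647313790248, 0]

/-- common denominator -/
def dY12 : ℤ := 2384185791015625

/-- remainder constant -/
def eY12 : ℤ := 19073486328125

/-- Taylor coefficients at `0` (times `dB13`) -/
def cB13 : List ℤ :=
  [2384185791015625, 1430511474609375, -190734863281250, 114440917968750, -76293945312500,
  54931640625000, -41809082031250, 33142089843750, -27087402343750, 22668457031250,
  -19329589843750, 16735253906250, -14672578125000, 13000851562500, -11623792968750,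
  10473560156250, -9501130312500, 8670297375000, -7953805393750, 7330787456250, -6785027159500,
  6303752413800, -5876782098790, 5495911673634]

/-- common denominator -/
def dB13 : ℤ := 2384185791015625

/-- remainder constant -/
def eB13 : ℤ := 7152557373046

/-- Taylor coefficients at `0` (times `dLa1`) -/
def cLa1 : List ℤ :=
  [0, -13385572200000000000000000000, -5688868185000000000000000000,
  -3123300180000000000000000000, -2066397708375000000000000000, -1490081897304000000000000000,
  -1140205349283000000000000000, -908467311866400000000000000, -745833625505718750000000000,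
  -626520779264380000000000000, -535940255089659420000000000, -465259135985869680000000000,
  -408853542873211936500000000, -362989741626108828000000000, -325101991132397407500000000,
  -293375066467074223632000000, -266492367150142565275593750, -243478170008753192112600000,
  -223595645787194491585775000, -206279069369097805860780000, -191087645832111732204005505,
  -177673372120145309315948040, -165758231941516262872018377, -155117730496676496555978972]

/-- common denominator -/
def dLa1 : ℤ := 33463930500000000000000000000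

/-- remainder constant -/
def eLa1 : ℤ := 267711444000000000000000000

/-- Taylor coefficients at `0` (times `dLa0x`) -/
def cLa0x : List ℤ :=
  [0, -6873321533203125000, -2548416137695312500, -1411322021484375000, -925001037597656250,
  -665543394140625000, -508181673398437500, -404350951021875000, -331622136163828125,
  -278352732582925000, -237960532291218660, -206472894949607832]

/-- common denominator -/
def dLa0x : ℤ := 13217926025390625000

/-- remainder constant -/
def eLa0x : ℤ := 264358520507812500

/-- Taylor coefficients at `0` (times `dLa3`) -/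
def cLa3 : List ℤ :=
  [0, 306371434020996093750000, -112336192474365234375000, 61274286804199218750000,
  -39828286422729492187500, 28529307936035156250000, -21726500449951171875000,
  17257640274316406250000, -14136386460974121093750, 11854858816582031250000,
  -10127445495432890625000, 8782402262198906250000, -7710867100710210937500,
  6840832298259093750000, -6122960349342890625000, 5522430424192431750000,
  -5014038100301902546875, 4579137058181335650000, -4203667460229362125000,
  3876848557193782170000, -3590290035621667958580, 3337374619453816758960,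
  -3112820673198053329512, 2912366852631589809456]

/-- common denominator -/
def dLa3 : ℤ := 510619056701660156250000

/-- remainder constant -/
def eLa3 : ℤ := 4084952453613281250000

set_option maxRecDepth 20000 in
theorem ap_y1 : Ap SL wL y1 dY1 cY1 eY1 := by
  intro T hT
  have hA : ((0 : ℤ) : ℝ) ≤ (4 : ℤ) * T := by
    push_cast
    linarith [hT.1]
  have hB : ((4 : ℤ) : ℝ) * T ≤ (1 : ℤ) := by
    push_cast
    linarith [hT.2]
  have h := sqrt_encl (y := y1 T) (R := qR (-4 / 5) (-1 / 5) T) (RL := [5, -4, -1]) (dR := 5) (by norm_num)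
    (T := T) (by unfold qR evq; simp only [ev_cons, ev_nil]; push_cast; ring) rfl
    (PL := cY1 ++ [-eY1]) (QL := cY1 ++ [eY1]) (dP := dY1) (A := 0) (B := 1) (d := 4)
    (by decide +kernel) hA hB (by decide +kernel) (by decide +kernel) (by decide +kernel)
  exact ap_of_evq (by decide +kernel) h.1 h.2 rfl

set_option maxRecDepth 20000 in
theorem ap_y12 : Ap SL wL y12 dY12 cY12 eY12 := by
  intro T hT
  have hA : ((0 : ℤ) : ℝ) ≤ (4 : ℤ) * T := by
    push_cast
    linarith [hT.1]
  have hB : ((4 : ℤ) : ℝ) * T ≤ (1 : ℤ) := by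
    push_cast
    linarith [hT.2]
  have h := sqrt_encl (y := y12 T) (R := qR (-26 / 25) (1 / 25) (T ^ 2)) (RL := [25, 0, -26, 0, 1]) (dR := 25) (by norm_num)
    (T := T) (by unfold qR evq; simp only [ev_cons, ev_nil]; push_cast; ring) rfl
    (PL := cY12 ++ [-eY12]) (QL := cY12 ++ [eY12]) (dP := dY12) (A := 0) (B := 1) (d := 4)
    (by decide +kernel) hA hB (by decide +kernel) (by decide +kernel) (by decide +kernel)
  exact ap_of_evq (by decide +kernel) h.1 h.2 rfl

set_option maxRecDepth 20000 in
theorem ap_b13 : Ap SL wL b13 dB13 cB13 eB13 := by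
  intro T hT
  have hA : ((0 : ℤ) : ℝ) ≤ (4 : ℤ) * T := by
    push_cast
    linarith [hT.1]
  have hB : ((4 : ℤ) : ℝ) * T ≤ (1 : ℤ) := by
    push_cast
    linarith [hT.2]
  have h := sqrt_encl (y := b13 T) (R := qR (6 / 5) (1 / 5) T) (RL := [5, 6, 1]) (dR := 5) (by norm_num)
    (T := T) (by unfold qR evq; simp only [ev_cons, ev_nil]; push_cast; ring) rfl
    (PL := cB13 ++ [-eB13]) (QL := cB13 ++ [eB13]) (dP := dB13) (A := 0) (B := 1) (d := 4)
    (by decide +kernel) hA hB (by decide +kernel) (by decide +kernel) (by decide +kernel)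
  exact ap_of_evq (by decide +kernel) h.1 h.2 rfl

set_option maxRecDepth 20000 in
theorem ap_lam1 : Ap SL wL lam1 dLa1 cLa1 eLa1 := by
  intro T hT
  rw [lam1_eq]
  have h := qU_encl (b := -4 / 5) (c := -1 / 5) (RL := [5, -4, -1]) (dR := 5) (by norm_num)
    (fun T => by unfold qR evq; simp only [ev_cons, ev_nil]; push_cast; ring) (e := 1 / 4)
    (fun x hx => by rw [qR_1]; exact mul_pos (by linarith [hx.2]) (by linarith [hx.1])) (fun x hx => by unfold qD; linarith [hx.2])
    (VL := cLa1 ++ [eLa1]) (WL := cLa1 ++ [-eLa1]) (dV := dLa1) (B := 1) (d := 4)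
    (by decide +kernel) (by norm_num) (by norm_num) (by decide +kernel) (by decide +kernel)
    (by decide +kernel) (by decide +kernel) (by decide +kernel) (T := T) ⟨hT.1.le, hT.2⟩
  exact ap_of_evq (by decide +kernel) h.1 h.2 rfl

set_option maxRecDepth 20000 in
theorem ap_lam3 : Ap SL wL lam3 dLa3 cLa3 eLa3 := by
  intro T hT
  rw [lam3_eq]
  have h := qU_encl (b := 6 / 5) (c := 1 / 5) (RL := [5, 6, 1]) (dR := 5) (by norm_num)
    (fun T => by unfold qR evq; simp only [ev_cons, ev_nil]; push_cast; ring) (e := 1 / 4)
    (fun x hx => by rw [qR_3]; exact mul_pos (by linarith [hx.1]) (by linarith [hx.1])) (fun x hx => by unfold qD; linarith [hx.1])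
    (VL := cLa3 ++ [eLa3]) (WL := cLa3 ++ [-eLa3]) (dV := dLa3) (B := 1) (d := 4)
    (by decide +kernel) (by norm_num) (by norm_num) (by decide +kernel) (by decide +kernel)
    (by decide +kernel) (by decide +kernel) (by decide +kernel) (T := T) ⟨hT.1.le, hT.2⟩
  exact ap_of_evq (by decide +kernel) h.1 h.2 rfl

/-- Taylor coefficients at `0` (times `dLa0`) -/
def cLa0 : List ℤ := sqL cLa0x

/-- common denominator -/
def dLa0 : ℤ := dLa0x

/-- remainder constant -/
def eLa0 : ℤ := eLa0x

set_option maxRecDepth 20000 in
theorem ap_lam0 : Ap SL wL lam0 dLa0 cLa0 eLa0 := by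
  intro T hT
  rw [lam0_eq]
  have hT2 : T ^ 2 ∈ Icc (0 : ℝ) (1 / 16) := by
    refine ⟨sq_nonneg T, ?_⟩
    have h1 := hT.1
    have h2 := hT.2
    nlinarith
  have h := qU_encl (b := -26 / 25) (c := 1 / 25) (RL := [25, -26, 1]) (dR := 25) (by norm_num)
    (fun T => by unfold qR evq; simp only [ev_cons, ev_nil]; push_cast; ring) (e := 1 / 16)
    (fun x hx => by unfold qR; nlinarith [hx.1, hx.2]) (fun x hx => by unfold qD; linarith [hx.2])
    (VL := cLa0x ++ [eLa0x]) (WL := cLa0x ++ [-eLa0x]) (dV := dLa0x) (B := 1) (d := 16)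
    (by decide +kernel) (by norm_num) (by norm_num) (by decide +kernel) (by decide +kernel)
    (by decide +kernel) (by decide +kernel) (by decide +kernel) (T := T ^ 2) hT2
  have h3 := ap_of_evq (l := cLa0x) (E := eLa0x) (D := dLa0x) (w := (T ^ 2) ^ 12)
    (by decide +kernel) h.1 h.2 rfl
  unfold cLa0 dLa0 eLa0 wL
  rw [ev_sqL]
  rw [← pow_mul] at h3
  exact h3

end Vale.Agent.P224.SP
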