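import Vale.Agent.P224.SP.Ap

/-!
Combination of the models near `T = 0`, with the constants and the logarithm.
-/

namespace Vale.Agent.P224.SP

open Set

/-- Horner bound of the absolute value on `[0, 1/q]` -/
def sQ (q : ℕ) : List ℤ → ℤ
  | [] => 0
  | (a :: l) => |a| + sQ q l / q + 1

lemma sQ_nonneg (q : ℕ) (l : List ℤ) : 0 ≤ sQ q l := by
  induction l with
  | nil => simp [sQ]
  | cons a l ih =>
    simp only [sQ]
    have : 0 ≤ sQ q l / q := Int.ediv_nonneg ih (by positivity)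
    positivity

lemma abs_ev_le_sQ {q : ℕ} (hq : 0 < q) (l : List ℤ) {x : ℝ} (h0 : 0 ≤ x) (h1 : q * x ≤ 1) :
    |ev l x| ≤ (sQ q l : ℝ) := by
  induction l with
  | nil => simp [sQ]
  | cons a l ih =>
    simp only [sQ, ev_cons]
    push_cast
    refine (abs_add_le _ _).trans ?_
    rw [abs_mul, abs_of_nonneg h0]
    have hq' : (0 : ℝ) < q := by exact_mod_cast hq
    have hn : (0 : ℝ) ≤ sQ q l := by exact_mod_cast sQ_nonneg q l
    have h2 : x * |ev l x| ≤ x * (sQ q l : ℝ) := mul_le_mul_of_nonneg_left ih h0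
    have h3 : x * (sQ q l : ℝ) ≤ (sQ q l : ℝ) / q := by
      rw [le_div_iff₀ hq']
      nlinarith
    have h4 : ((sQ q l : ℤ) : ℝ) / q ≤ ((sQ q l / (q : ℤ) : ℤ) : ℝ) + 1 := by
      have h5 : (sQ q l : ℤ) < (sQ q l / (q : ℤ) + 1) * q :=
        Int.lt_ediv_add_one_mul_self _ (by exact_mod_cast hq)
      rw [div_le_iff₀ hq']
      have : ((sQ q l : ℤ) : ℝ) ≤ (((sQ q l / (q : ℤ) + 1) * q : ℤ) : ℝ) := by
        exact_mod_cast h5.le
      push_cast at this
      linarith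
    have : (a : ℝ) = ((a : ℤ) : ℝ) := rfl
    linarith

lemma abs_ev_le_sQ_van {q n : ℕ} (hq : 0 < q) {l : List ℤ} (h : van n l = true) {x : ℝ}
    (h0 : 0 ≤ x) (h1 : q * x ≤ 1) : |ev l x| ≤ (sQ q (l.drop n) : ℝ) * x ^ n := by
  rw [ev_van h, abs_mul, abs_of_nonneg (pow_nonneg h0 n), mul_comm]
  exact mul_le_mul_of_nonneg_right (abs_ev_le_sQ hq _ h0 h1) (pow_nonneg h0 n)

lemma ev_take_drop (l : List ℤ) (n : ℕ) (x : ℝ) :
    ev l x = ev (l.take n) x + x ^ n * ev (l.drop n) x := by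
  induction n generalizing l with
  | zero => simp
  | succ n ih =>
    cases l with
    | nil => simp
    | cons a l =>
      rw [List.take_succ_cons, List.drop_succ_cons, ev_cons, ev_cons, ih l]; ring

lemma Ap.take {S : Set ℝ} {f : ℝ → ℝ} {D E : ℤ} {l : List ℤ} {n q : ℕ} (hq : 0 < q)
    (h : Ap S (fun T => T ^ n) f D l E) (hS : ∀ T ∈ S, 0 ≤ T ∧ q * T ≤ 1) :
    Ap S (fun T => T ^ n) f D (l.take n) (E + sQ q (l.drop n)) := by
  intro T hT
  have h1 := h T hT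
  obtain ⟨h0, h01⟩ := hS T hT
  have h2 := ev_take_drop l n T
  have h3 := abs_ev_le_sQ hq (l.drop n) h0 h01
  have e : (D : ℝ) * f T - ev (l.take n) T = (D * f T - ev l T) + T ^ n * ev (l.drop n) T := by
    rw [h2]; ring
  rw [e]
  refine (abs_add_le _ _).trans ?_
  rw [abs_mul, abs_of_nonneg (pow_nonneg h0 n)]
  push_cast
  have h4 : T ^ n * |ev (l.drop n) T| ≤ T ^ n * sQ q (l.drop n) :=
    mul_le_mul_of_nonneg_left h3 (pow_nonneg h0 n)
  simp only at h1
  linarith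

lemma abs_prod_sub (x y n m : ℝ) : |x * y - n * m| ≤ |x - n| * |y| + |n| * |y - m| := by
  have e : x * y - n * m = (x - n) * y + n * (y - m) := by ring
  rw [e]
  refine (abs_add_le _ _).trans ?_
  rw [abs_mul, abs_mul]

lemma abs_prod_sub' (x y n m : ℝ) : |x * y - n * m| ≤ |x| * |y - m| + |x - n| * |m| := by
  have e : x * y - n * m = x * (y - m) + (x - n) * m := by ring
  rw [e]
  refine (abs_add_le _ _).trans ?_
  rw [abs_mul, abs_mul]

section

variable {A U1 U3 H om T P : ℝ} {cA c3 : ℝ} {DP DY κ a1 : ℝ}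
  {mA m1 m3 mB wl nA n3 eA e1 e3 eB s1 s3 sB EW KW EA E3 w wa : ℝ}

/-- the pointwise estimate (all quantities real numbers; `w = T^24`, `wa = T^a`) -/
lemma left_core (hwa : w ≤ wa) (hκ : 0 ≤ κ) (hP : 0 ≤ P) (hD : DP = κ * DY)
    (hA : |DP * A - mA| ≤ eA * w) (h1 : |DY * U1 - m1| ≤ e1 * w) (h3 : |DY * U3 - m3| ≤ e3 * w)
    (hB : |DY * H - mB| ≤ eB * w) (he1 : 0 ≤ e1) (he3 : 0 ≤ e3) (hE3 : 0 ≤ E3) (hEA : 0 ≤ EA)
    (hcA : |P * cA - nA| ≤ EA) (hc3 : |P * c3 - n3| ≤ E3) (hom : |P * om - wl| ≤ EW)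
    (homK : |P * om| ≤ KW) (hs1 : |m1| ≤ s1 * wa) (hs3 : |m3| ≤ s3 * wa) (hsB : |mB| ≤ sB * wa) :
    |P * DP * (A + cA * U1 + c3 * U3 - om * H) -
      (P * mA + κ * (nA * m1 + n3 * m3 - wl * mB))| ≤
      (P * eA + κ * (|nA| * e1 + |n3| * e3 + KW * eB)) * w +
      κ * (EA * (s1 + e1) + E3 * (s3 + e3) + EW * sB) * wa := by
  have k1 := abs_prod_sub (P * cA) (DY * U1) nA m1
  have k3 := abs_prod_sub (P * c3) (DY * U3) n3 m3
  have kB := abs_prod_sub' (P * om) (DY * H) wl mB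
  have q1 : |DY * U1| ≤ (s1 + e1) * wa := by
    have : DY * U1 = (DY * U1 - m1) + m1 := by ring
    rw [this]
    refine (abs_add_le _ _).trans ?_
    have := mul_le_mul_of_nonneg_left hwa he1
    linarith
  have q3 : |DY * U3| ≤ (s3 + e3) * wa := by
    have : DY * U3 = (DY * U3 - m3) + m3 := by ring
    rw [this]
    refine (abs_add_le _ _).trans ?_
    have := mul_le_mul_of_nonneg_left hwa he3
    linarith
  have r1 : |P * cA - nA| * |DY * U1| ≤ EA * ((s1 + e1) * wa) :=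
    mul_le_mul hcA q1 (abs_nonneg _) hEA
  have r3 : |P * c3 - n3| * |DY * U3| ≤ E3 * ((s3 + e3) * wa) :=
    mul_le_mul hc3 q3 (abs_nonneg _) hE3
  have t1 : |nA| * |DY * U1 - m1| ≤ |nA| * (e1 * w) := mul_le_mul_of_nonneg_left h1 (abs_nonneg _)
  have t3 : |n3| * |DY * U3 - m3| ≤ |n3| * (e3 * w) := mul_le_mul_of_nonneg_left h3 (abs_nonneg _)
  have rB : |P * om| * |DY * H - mB| ≤ KW * (eB * w) :=
    mul_le_mul homK hB (abs_nonneg _) ((abs_nonneg _).trans homK)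
  have tB : |P * om - wl| * |mB| ≤ EW * (sB * wa) :=
    mul_le_mul hom hsB (abs_nonneg _) ((abs_nonneg _).trans hom)
  have e : P * DP * (A + cA * U1 + c3 * U3 - om * H) -
      (P * mA + κ * (nA * m1 + n3 * m3 - wl * mB)) =
      P * (DP * A - mA) + κ * ((P * cA * (DY * U1) - nA * m1) + (P * c3 * (DY * U3) - n3 * m3) -
        (P * om * (DY * H) - wl * mB)) := by
    rw [hD]; ring
  rw [e]
  have z1 : |P * (DP * A - mA)| ≤ P * (eA * w) := by
    rw [abs_mul, abs_of_nonneg hP]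
    exact mul_le_mul_of_nonneg_left hA hP
  have z2 : |(P * cA * (DY * U1) - nA * m1) + (P * c3 * (DY * U3) - n3 * m3) -
        (P * om * (DY * H) - wl * mB)| ≤ |P * cA * (DY * U1) - nA * m1| +
        |P * c3 * (DY * U3) - n3 * m3| + |P * om * (DY * H) - wl * mB| := by
    refine (abs_sub _ _).trans ?_
    have := abs_add_le (P * cA * (DY * U1) - nA * m1) (P * c3 * (DY * U3) - n3 * m3)
    linarith
  have z3 : |κ * ((P * cA * (DY * U1) - nA * m1) + (P * c3 * (DY * U3) - n3 * m3) -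
        (P * om * (DY * H) - wl * mB))| ≤ κ * ((EA * ((s1 + e1) * wa) + |nA| * (e1 * w)) +
        (E3 * ((s3 + e3) * wa) + |n3| * (e3 * w)) + (KW * (eB * w) + EW * (sB * wa))) := by
    rw [abs_mul, abs_of_nonneg hκ]
    refine mul_le_mul_of_nonneg_left ?_ hκ
    linarith
  refine (abs_add_le _ _).trans ?_
  refine (add_le_add z1 z3).trans (le_of_eq ?_)
  ring

/-- the pointwise estimate, crude version (`w1 = T^(a+1)`, `|P T om| ≤ KT`) -/
lemma left_core0 {w1 KT : ℝ} (hT : 0 < T) (hwa : w ≤ wa) (hw1 : w1 = T * wa)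
    (hκ : 0 ≤ κ) (hP : 0 ≤ P)
    (hD : DP = κ * DY)
    (hA : |DP * A - mA| ≤ eA * w) (h1 : |DY * U1 - m1| ≤ e1 * w) (h3 : |DY * U3 - m3| ≤ e3 * w)
    (hB : |DY * H - mB| ≤ eB * w1) (he1 : 0 ≤ e1) (he3 : 0 ≤ e3)
    (hE3 : 0 ≤ E3) (hEA : 0 ≤ EA)
    (hcA : |P * cA - nA| ≤ EA) (hc3 : |P * c3 - n3| ≤ E3)
    (homK : |P * (T * om)| ≤ KT) (hs1 : |m1| ≤ s1 * wa) (hs3 : |m3| ≤ s3 * wa)
    (hsB : |mB| ≤ sB * w1) :
    |P * DP * (A + cA * U1 + c3 * U3 - om * H) - (P * mA + κ * (nA * m1 + n3 * m3))| ≤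
      (P * eA + κ * (|nA| * e1 + |n3| * e3)) * w +
      κ * (EA * (s1 + e1) + E3 * (s3 + e3) + KT * (sB + eB)) * wa := by
  have k1 := abs_prod_sub (P * cA) (DY * U1) nA m1
  have k3 := abs_prod_sub (P * c3) (DY * U3) n3 m3
  have q1 : |DY * U1| ≤ (s1 + e1) * wa := by
    have : DY * U1 = (DY * U1 - m1) + m1 := by ring
    rw [this]
    refine (abs_add_le _ _).trans ?_
    have := mul_le_mul_of_nonneg_left hwa he1
    linarith
  have q3 : |DY * U3| ≤ (s3 + e3) * wa := by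
    have : DY * U3 = (DY * U3 - m3) + m3 := by ring
    rw [this]
    refine (abs_add_le _ _).trans ?_
    have := mul_le_mul_of_nonneg_left hwa he3
    linarith
  have qB : |DY * H| ≤ (sB + eB) * w1 := by
    have : DY * H = (DY * H - mB) + mB := by ring
    rw [this]
    refine (abs_add_le _ _).trans ?_
    linarith
  have r1 : |P * cA - nA| * |DY * U1| ≤ EA * ((s1 + e1) * wa) :=
    mul_le_mul hcA q1 (abs_nonneg _) hEA
  have r3 : |P * c3 - n3| * |DY * U3| ≤ E3 * ((s3 + e3) * wa) :=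
    mul_le_mul hc3 q3 (abs_nonneg _) hE3
  have t1 : |nA| * |DY * U1 - m1| ≤ |nA| * (e1 * w) := mul_le_mul_of_nonneg_left h1 (abs_nonneg _)
  have t3 : |n3| * |DY * U3 - m3| ≤ |n3| * (e3 * w) := mul_le_mul_of_nonneg_left h3 (abs_nonneg _)
  have rB : |P * om * (DY * H)| ≤ KT * ((sB + eB) * wa) := by
    have h5 : |P * (T * om)| * |DY * H| ≤ KT * ((sB + eB) * w1) :=
      mul_le_mul homK qB (abs_nonneg _) ((abs_nonneg _).trans homK)
    have h6 : |P * (T * om)| * |DY * H| = T * |P * om * (DY * H)| := by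
      rw [← abs_mul, show P * (T * om) * (DY * H) = T * (P * om * (DY * H)) by ring, abs_mul,
        abs_of_pos hT]
    rw [h6, hw1] at h5
    refine le_of_mul_le_mul_left ?_ hT
    linarith
  have e : P * DP * (A + cA * U1 + c3 * U3 - om * H) -
      (P * mA + κ * (nA * m1 + n3 * m3)) =
      P * (DP * A - mA) + κ * ((P * cA * (DY * U1) - nA * m1) + (P * c3 * (DY * U3) - n3 * m3) -
        (P * om * (DY * H))) := by
    rw [hD]; ring
  rw [e]
  have z1 : |P * (DP * A - mA)| ≤ P * (eA * w) := by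
    rw [abs_mul, abs_of_nonneg hP]
    exact mul_le_mul_of_nonneg_left hA hP
  have z2 : |(P * cA * (DY * U1) - nA * m1) + (P * c3 * (DY * U3) - n3 * m3) -
        (P * om * (DY * H))| ≤ |P * cA * (DY * U1) - nA * m1| +
        |P * c3 * (DY * U3) - n3 * m3| + |P * om * (DY * H)| := by
    refine (abs_sub _ _).trans ?_
    have := abs_add_le (P * cA * (DY * U1) - nA * m1) (P * c3 * (DY * U3) - n3 * m3)
    linarith
  have z3 : |κ * ((P * cA * (DY * U1) - nA * m1) + (P * c3 * (DY * U3) - n3 * m3) -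
        (P * om * (DY * H)))| ≤ κ * ((EA * ((s1 + e1) * wa) + |nA| * (e1 * w)) +
        (E3 * ((s3 + e3) * wa) + |n3| * (e3 * w)) + (KT * ((sB + eB) * wa))) := by
    rw [abs_mul, abs_of_nonneg hκ]
    refine mul_le_mul_of_nonneg_left ?_ hκ
    linarith
  refine (abs_add_le _ _).trans ?_
  refine (add_le_add z1 z3).trans (le_of_eq ?_)
  ring

end

end Vale.Agent.P224.SP
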