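import Vale.Agent.P224.SP.Fun5

/-!
Limits at the parameter zero of combinations of the functions of the flat sections (`m = 5`).
-/

namespace Vale.Agent.P224.SP

open Set Filter Real
open scoped Topology

/-- a function with a zero times the logarithm -/
lemma tendsto_mul_log {B : ℝ → ℝ} (hB : DifferentiableAt ℝ B 0) (h0 : B 0 = 0) :
    Tendsto (fun T => B T * Real.log T) (𝓝[>] 0) (𝓝 0) := by
  have h1 : Tendsto (fun T => T⁻¹ * B T) (𝓝[>] 0) (𝓝 (deriv B 0)) := by
    have h2 := hB.hasDerivAt.tendsto_slope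
    have h3 : Tendsto (slope B 0) (𝓝[>] 0) (𝓝 (deriv B 0)) :=
      h2.mono_left (nhdsWithin_mono _ fun T hT => ne_of_gt hT)
    refine h3.congr fun T => ?_
    rw [slope_def_field, h0, sub_zero, sub_zero, div_eq_inv_mul]
  have h4 : Tendsto (fun T : ℝ => T * Real.log T) (𝓝[>] 0) (𝓝 0) := by
    have := (Real.continuous_mul_log.tendsto 0).mono_left (nhdsWithin_le_nhds (s := Ioi 0))
    simpa using this
  have h5 := h1.mul h4
  rw [mul_zero] at h5
  refine h5.congr' ?_
  filter_upwards [eventually_mem_nhdsWithin] with T hT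
  have : T ≠ 0 := ne_of_gt hT
  field_simp

lemma y1_zero : y1 0 = 1 := by unfold y1; rw [qR_zero, Real.sqrt_one]
lemma b13_zero : b13 0 = 1 := by unfold b13; rw [qR_zero, Real.sqrt_one]
lemma y12_zero : y12 0 = 1 := by unfold y12; rw [zero_pow two_ne_zero, qR_zero, Real.sqrt_one]

lemma diff_sqrt {b c : ℝ} : DifferentiableAt ℝ (fun T => √(qR b c T)) 0 :=
  (hasDerivAt_sqrtR (by rw [qR_zero]; exact one_pos)).differentiableAt

lemma diff_y1 : DifferentiableAt ℝ y1 0 := diff_sqrt
lemma diff_b13 : DifferentiableAt ℝ b13 0 := diff_sqrt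
lemma diff_y12 : DifferentiableAt ℝ y12 0 := by
  have h1 : DifferentiableAt ℝ (fun T : ℝ => qR (-26 / 25) (1 / 25) (T ^ 2)) 0 := by
    unfold qR
    fun_prop
  have h2 : qR (-26 / 25) (1 / 25) ((0 : ℝ) ^ 2) ≠ 0 := by
    rw [zero_pow two_ne_zero, qR_zero]
    exact one_ne_zero
  exact h1.sqrt h2

/-- the regular part of the logarithm -/
lemma tendsto_reg (b c : ℝ) : Tendsto (fun T => Real.log (qD b T + √(qR b c T))) (𝓝[>] 0)
    (𝓝 (Real.log 2)) := by
  have h3 : Tendsto (fun T : ℝ => qD b T + √(qR b c T)) (𝓝[>] 0) (𝓝 2) := by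
    have h4 : Continuous fun T : ℝ => qD b T + √(qR b c T) :=
      (continuous_qD b).add (continuous_qR b c).sqrt
    have h5 := h4.tendsto 0
    rw [qR_zero, qD_zero, Real.sqrt_one] at h5
    norm_num at h5
    exact h5.mono_left nhdsWithin_le_nhds
  exact h3.log (by norm_num)

/-- **The limit at zero** of a combination of the base functions. -/
theorem tendsto_comb {N0 N1 N2 N3 : ℝ → ℝ} (h0 : ContinuousAt N0 0)
    (h1 : DifferentiableAt ℝ N1 0) (h2 : DifferentiableAt ℝ N2 0) (h3 : DifferentiableAt ℝ N3 0)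
    (hs : N1 0 + 2 * N2 0 + N3 0 = 0) (k : ℝ) :
    Tendsto (fun T => N0 T + N1 T * f1 T + N2 T * f2 T + N3 T * (f3 T - k * b13 T)) (𝓝[>] 0)
      (𝓝 (N0 0 - N2 0 * Real.log (8 / 3) - N3 0 * (k - Real.log (3 / 2)))) := by
  have hw : ∀ {g : ℝ → ℝ}, ContinuousAt g 0 → Tendsto g (𝓝[>] 0) (𝓝 (g 0)) := fun hg =>
    hg.tendsto.mono_left nhdsWithin_le_nhds
  have tl := tendsto_mul_log (B := fun T => N1 T * y1 T + 2 * (N2 T * y12 T) + N3 T * b13 T)
    (((h1.fun_mul diff_y1).fun_add ((h2.fun_mul diff_y12).const_mul 2)).fun_add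
      (h3.fun_mul diff_b13)) (by rw [y1_zero, y12_zero, b13_zero]; linarith)
  have a1 : Tendsto (fun T => y1 T * (Real.log (qD (-4 / 5) T + √(qR (-4 / 5) (-1 / 5) T))
      - Real.log (3 / 5))) (𝓝[>] 0) (𝓝 (1 * (Real.log 2 - Real.log (3 / 5)))) := by
    have := hw diff_y1.continuousAt
    rw [y1_zero] at this
    exact this.mul ((tendsto_reg _ _).sub_const _)
  have a3 : Tendsto (fun T => b13 T * (Real.log (qD (6 / 5) T + √(qR (6 / 5) (1 / 5) T))
      - Real.log (2 / 5))) (𝓝[>] 0) (𝓝 (1 * (Real.log 2 - Real.log (2 / 5)))) := by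
    have := hw diff_b13.continuousAt
    rw [b13_zero] at this
    exact this.mul ((tendsto_reg _ _).sub_const _)
  have hsq : Tendsto (fun T : ℝ => T ^ 2) (𝓝[>] 0) (𝓝[>] 0) := by
    rw [tendsto_nhdsWithin_iff]
    constructor
    · have h := (continuous_pow 2).tendsto (0 : ℝ)
      rw [zero_pow two_ne_zero] at h
      exact h.mono_left nhdsWithin_le_nhds
    · filter_upwards [eventually_mem_nhdsWithin] with T hT
      exact pow_pos (show (0 : ℝ) < T from hT) 2
  have a2 : Tendsto (fun T => y12 T * (Real.log (qD (-26 / 25) (T ^ 2)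
      + √(qR (-26 / 25) (1 / 25) (T ^ 2))) - Real.log (12 / 25))) (𝓝[>] 0)
      (𝓝 (1 * (Real.log 2 - Real.log (12 / 25)))) := by
    have := hw diff_y12.continuousAt
    rw [y12_zero] at this
    exact this.mul (((tendsto_reg _ _).comp hsq).sub_const _)
  have hb := hw diff_b13.continuousAt
  rw [b13_zero] at hb
  have total := (((hw h0).add ((hw h1.continuousAt).mul a1)).add ((hw h2.continuousAt).mul a2)).add
    ((hw h3.continuousAt).mul (a3.sub (hb.const_mul k)))
  have total2 := total.sub tl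
  have e1 : Real.log (3 / 5) = Real.log 3 - Real.log 5 := Real.log_div (by norm_num) (by norm_num)
  have e2 : Real.log (2 / 5) = Real.log 2 - Real.log 5 := Real.log_div (by norm_num) (by norm_num)
  have e3 : Real.log (12 / 25) = 2 * Real.log 2 + Real.log 3 - 2 * Real.log 5 := by
    rw [Real.log_div (by norm_num) (by norm_num), show (12 : ℝ) = 2 ^ 2 * 3 by norm_num,
      Real.log_mul (by norm_num) (by norm_num), show (25 : ℝ) = 5 ^ 2 by norm_num, Real.log_pow,
      Real.log_pow]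
    norm_num
  have e4 : Real.log (8 / 3) = 3 * Real.log 2 - Real.log 3 := by
    rw [Real.log_div (by norm_num) (by norm_num), show (8 : ℝ) = 2 ^ 3 by norm_num, Real.log_pow]
    norm_num
  have e5 : Real.log (3 / 2) = Real.log 3 - Real.log 2 := Real.log_div (by norm_num) (by norm_num)
  have hval : N0 0 + N1 0 * (1 * (Real.log 2 - Real.log (3 / 5)))
      + N2 0 * (1 * (Real.log 2 - Real.log (12 / 25)))
      + N3 0 * (1 * (Real.log 2 - Real.log (2 / 5)) - k * 1) - 0
      = N0 0 - N2 0 * Real.log (8 / 3) - N3 0 * (k - Real.log (3 / 2)) := by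
    rw [e1, e2, e3, e4, e5]
    linear_combination (Real.log 2 - Real.log 3 + Real.log 5) * hs
  rw [hval] at total2
  refine total2.congr' ?_
  have hR1 : ∀ᶠ T in 𝓝[>] (0 : ℝ), 0 < T ∧ T < 1 := by
    have := Ioo_mem_nhdsGT (show (0 : ℝ) < 1 by norm_num)
    filter_upwards [this] with T hT
    exact hT
  filter_upwards [hR1] with T hT
  have c1 := qL_eq (b := -4 / 5) (c := -1 / 5) (k := 3 / 5) (by norm_num) hT.1
    (qR_1_pos hT.1 hT.2) (qD_1_pos hT.2.le)
  have c3 := qL_eq (b := 6 / 5) (c := 1 / 5) (k := 2 / 5) (by norm_num) hT.1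
    (qR_3_pos hT.1) (qD_3_pos hT.1)
  have c2 := qL_eq (b := -26 / 25) (c := 1 / 25) (k := 12 / 25) (by norm_num)
    (pow_pos hT.1 2) (qR_12_pos hT.1 hT.2) (qD_12_pos hT.1 hT.2.le)
  have c4 : Real.log (T ^ 2) = 2 * Real.log T := by
    rw [Real.log_pow]
    norm_num
  simp only [f1, f2, f3, l1, L0, L13]
  rw [c1, c2, c3, c4]
  ring

end Vale.Agent.P224.SP
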