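import Vale.Agent.P224.MathlibUsed

/-!
The elementary functions of the flat sections for `m = 5`: with `R = 1 + b T + c T^2`,
`D = 1 + b T / 2`, the function `L = log ((D + sqrt R) / (k T))` satisfies `L' = -1 / (T sqrt R)`.
-/

namespace Vale.Agent.P224.SP

open Set Filter Real
open scoped Topology

/-- quadratic radicand -/
noncomputable def qR (b c T : ℝ) : ℝ := 1 + b * T + c * T ^ 2

/-- half linear part -/
noncomputable def qD (b T : ℝ) : ℝ := 1 + b / 2 * T

/-- the logarithm -/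
noncomputable def qL (b c k T : ℝ) : ℝ := Real.log ((qD b T + √(qR b c T)) / (k * T))

/-- the scaled logarithm -/
noncomputable def qF (b c k T : ℝ) : ℝ := √(qR b c T) * qL b c k T

lemma hasDerivAt_qR (b c T : ℝ) : HasDerivAt (qR b c) (b + 2 * c * T) T := by
  have h1 : HasDerivAt (fun T : ℝ => 1 + b * T + c * T ^ 2) (0 + b * 1 + c * (2 * T ^ 1)) T := by
    have h2 := (((hasDerivAt_const T (1 : ℝ)).fun_add ((hasDerivAt_id T).const_mul b)).fun_add
      ((hasDerivAt_pow 2 T).const_mul c))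
    simpa using h2
  exact h1.congr_deriv (by ring)

lemma hasDerivAt_qD (b T : ℝ) : HasDerivAt (qD b) (b / 2) T := by
  have h1 : HasDerivAt (fun T : ℝ => 1 + b / 2 * T) (0 + b / 2 * 1) T :=
    (hasDerivAt_const T (1 : ℝ)).fun_add ((hasDerivAt_id T).const_mul (b / 2))
  exact h1.congr_deriv (by ring)

lemma hasDerivAt_sqrtR {b c T : ℝ} (hR : 0 < qR b c T) :
    HasDerivAt (fun T => √(qR b c T)) ((b + 2 * c * T) / (2 * √(qR b c T))) T :=
  (hasDerivAt_qR b c T).sqrt hR.ne'

lemma qL_pos_arg {b c k T : ℝ} (hk : 0 < k) (hT : 0 < T) (hR : 0 < qR b c T)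
    (hD : 0 < qD b T) : 0 < (qD b T + √(qR b c T)) / (k * T) :=
  div_pos (by have := Real.sqrt_pos.2 hR; linarith) (mul_pos hk hT)

lemma hasDerivAt_qL {b c k T : ℝ} (hk : 0 < k) (hT : 0 < T) (hR : 0 < qR b c T)
    (hD : 0 < qD b T) : HasDerivAt (qL b c k) (-1 / (T * √(qR b c T))) T := by
  have hs : 0 < √(qR b c T) := Real.sqrt_pos.2 hR
  have hss : √(qR b c T) ^ 2 = qR b c T := Real.sq_sqrt hR.le
  have hkT : 0 < k * T := mul_pos hk hT
  have h0 : HasDerivAt (fun T => qD b T + √(qR b c T))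
      (b / 2 + (b + 2 * c * T) / (2 * √(qR b c T))) T :=
    (hasDerivAt_qD b T).fun_add (hasDerivAt_sqrtR hR)
  have h0' : HasDerivAt (fun T => k * T) (k * 1) T := (hasDerivAt_id T).const_mul k
  have h2 : HasDerivAt (fun T => Real.log ((qD b T + √(qR b c T)) / (k * T))) _ T :=
    (h0.fun_div h0' hkT.ne').log (qL_pos_arg hk hT hR hD).ne'
  refine h2.congr_deriv ?_
  have hDs : 0 < qD b T + √(qR b c T) := by linarith
  set s := √(qR b c T) with hsdef
  have hq : s ^ 2 = 1 + b * T + c * T ^ 2 := hss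
  have hd : qD b T = 1 + b / 2 * T := rfl
  rw [hd] at hDs ⊢
  have hDs' : 2 + b * T + 2 * s ≠ 0 := by linarith
  have hs' := hs.ne'
  have hT' := hT.ne'
  have hk' := hk.ne'
  have e1 : (1 + b / 2 * T + s) = (2 + b * T + 2 * s) / 2 := by ring
  rw [e1]
  field_simp
  linear_combination (-2 : ℝ) * hq

lemma hasDerivAt_qF {b c k T : ℝ} (hk : 0 < k) (hT : 0 < T) (hR : 0 < qR b c T)
    (hD : 0 < qD b T) :
    HasDerivAt (qF b c k) ((b + 2 * c * T) / (2 * qR b c T) * qF b c k T - 1 / T) T := by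
  have hs : 0 < √(qR b c T) := Real.sqrt_pos.2 hR
  have hss : √(qR b c T) ^ 2 = qR b c T := Real.sq_sqrt hR.le
  have h1 : HasDerivAt (fun T => √(qR b c T) * qL b c k T) _ T :=
    (hasDerivAt_sqrtR hR).fun_mul (hasDerivAt_qL hk hT hR hD)
  refine h1.congr_deriv ?_
  unfold qF
  have key : ∀ s q l : ℝ, 0 < s → s ^ 2 = q → (b + 2 * c * T) / (2 * s) * l +
      s * (-1 / (T * s)) = (b + 2 * c * T) / (2 * q) * (s * l) - 1 / T := by
    intro s q l hs hq
    subst hq
    have hs' := hs.ne'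
    have hT' := hT.ne'
    field_simp
    ring
  exact key _ _ _ hs hss

/-- the logarithm is the principal part `- log T` plus a regular part -/
lemma qL_eq {b c k T : ℝ} (hk : 0 < k) (hT : 0 < T) (hR : 0 < qR b c T) (hD : 0 < qD b T) :
    qL b c k T = Real.log (qD b T + √(qR b c T)) - Real.log k - Real.log T := by
  unfold qL
  have hs : 0 < √(qR b c T) := Real.sqrt_pos.2 hR
  rw [Real.log_div (by linarith) (mul_pos hk hT).ne', Real.log_mul hk.ne' hT.ne']
  ring

lemma qR_zero (b c : ℝ) : qR b c 0 = 1 := by simp [qR]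

lemma qD_zero (b : ℝ) : qD b 0 = 1 := by simp [qD]

lemma continuous_qR (b c : ℝ) : Continuous (qR b c) := by unfold qR; fun_prop

lemma continuous_qD (b : ℝ) : Continuous (qD b) := by unfold qD; fun_prop

/-- powers of `T` kill the logarithm at `0` -/
lemma tendsto_pow_mul_qL {b c k : ℝ} (hk : 0 < k) {n : ℕ} (hn : n ≠ 0) :
    Tendsto (fun T => T ^ n * qL b c k T) (𝓝[>] 0) (𝓝 0) := by
  have hR : ∀ᶠ T in 𝓝[>] (0 : ℝ), 0 < qR b c T :=
    (((continuous_qR b c).tendsto 0).mono_left nhdsWithin_le_nhds).eventually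
      (lt_mem_nhds (by rw [qR_zero]; exact one_pos))
  have hD : ∀ᶠ T in 𝓝[>] (0 : ℝ), 0 < qD b T :=
    (((continuous_qD b).tendsto 0).mono_left nhdsWithin_le_nhds).eventually
      (lt_mem_nhds (by rw [qD_zero]; exact one_pos))
  have hT : ∀ᶠ T in 𝓝[>] (0 : ℝ), 0 < T := eventually_mem_nhdsWithin
  have h1 : Tendsto (fun T : ℝ => T ^ n) (𝓝[>] 0) (𝓝 0) := by
    have : Tendsto (fun T : ℝ => T ^ n) (𝓝 0) (𝓝 (0 ^ n)) := (continuous_pow n).tendsto 0
    rw [zero_pow hn] at this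
    exact this.mono_left nhdsWithin_le_nhds
  have h2 : Tendsto (fun T : ℝ => Real.log (qD b T + √(qR b c T)) - Real.log k) (𝓝[>] 0)
      (𝓝 (Real.log (1 + 1) - Real.log k)) := by
    refine Tendsto.sub_const ?_ _
    have h3 : Tendsto (fun T : ℝ => qD b T + √(qR b c T)) (𝓝[>] 0) (𝓝 (1 + 1)) := by
      have h4 : Continuous fun T : ℝ => qD b T + √(qR b c T) :=
        (continuous_qD b).add (continuous_qR b c).sqrt
      have h5 := h4.tendsto 0
      rw [qR_zero, qD_zero, Real.sqrt_one] at h5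
      exact h5.mono_left nhdsWithin_le_nhds
    exact h3.log (by norm_num)
  have h6 : Tendsto (fun T : ℝ => T ^ n * Real.log T) (𝓝[>] 0) (𝓝 0) := by
    obtain ⟨m, rfl⟩ := Nat.exists_eq_succ_of_ne_zero hn
    have h7 : Tendsto (fun T : ℝ => T * Real.log T) (𝓝[>] 0) (𝓝 0) := by
      have := (Real.continuous_mul_log.tendsto 0).mono_left (nhdsWithin_le_nhds (s := Ioi 0))
      simpa using this
    have h8 : Tendsto (fun T : ℝ => T ^ m) (𝓝[>] 0) (𝓝 ((0 : ℝ) ^ m)) :=
      ((continuous_pow m).tendsto 0).mono_left nhdsWithin_le_nhds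
    have h9 := h8.mul h7
    rw [mul_zero] at h9
    refine h9.congr fun T => ?_
    rw [Nat.succ_eq_add_one, pow_succ]
    ring
  have h10 := (h1.mul h2).sub h6
  rw [zero_mul, sub_zero] at h10
  refine h10.congr' ?_
  filter_upwards [hR, hD, hT] with T h11 h12 h13
  rw [qL_eq hk h13 h11 h12]
  ring

lemma sign_id {b c x s q p p' : ℝ} (hx0 : 0 < x) (hs : 0 < s) (hq : s ^ 2 = q) :
    -1 / (x * s) - (p' * s + p * ((b + 2 * c * x) / (2 * s))) =
      -(1 / x + p' * q + p * ((b + 2 * c * x) / 2)) / s := by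
  subst hq
  have hs' := hs.ne'
  have hx0' := hx0.ne'
  field_simp
  ring

/-- Comparison: a function `P` with `1/T + P' R + P R'/2 >= 0` on `(a, 1)` satisfies
`P sqrt R <= L` there, when both vanish at `1`. -/
lemma le_qL_of_deriv {b c k a e : ℝ} (hk : 0 < k) (ha : 0 ≤ a)
    (hR : ∀ T ∈ Ioo a e, 0 < qR b c T) (hD : ∀ T ∈ Ioc a e, 0 < qD b T)
    {P P' : ℝ → ℝ} (hP : ∀ T ∈ Ioo a e, HasDerivAt P (P' T) T) (hPc : ContinuousOn P (Ioc a e))
    (hE : ∀ T ∈ Ioo a e, 0 ≤ 1 / T + P' T * qR b c T + P T * ((b + 2 * c * T) / 2))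
    (hend : P e * √(qR b c e) ≤ qL b c k e) {T : ℝ} (hT : T ∈ Ioc a e) :
    P T * √(qR b c T) ≤ qL b c k T := by
  have hcont : ContinuousOn (fun T => qL b c k T - P T * √(qR b c T)) (Icc T e) := by
    have hpos : ∀ x ∈ Icc T e, 0 < x := fun x hx => by linarith [hT.1, hx.1]
    have hmem : ∀ x ∈ Icc T e, x ∈ Ioc a e := fun x hx => ⟨by linarith [hT.1, hx.1], hx.2⟩
    refine ContinuousOn.sub ?_ ((hPc.mono hmem).mul (continuous_qR b c).sqrt.continuousOn)
    unfold qL
    refine ContinuousOn.log ?_ fun x hx => ?_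
    · refine ContinuousOn.div ((continuous_qD b).add (continuous_qR b c).sqrt).continuousOn
        (continuous_const.mul continuous_id).continuousOn fun x hx => ?_
      exact (mul_pos hk (hpos x hx)).ne'
    · exact (div_pos (by linarith [hD x (hmem x hx), Real.sqrt_nonneg (qR b c x)])
        (mul_pos hk (hpos x hx))).ne'
  have hanti : AntitoneOn (fun T => qL b c k T - P T * √(qR b c T)) (Icc T e) := by
    refine antitoneOn_of_deriv_nonpos (convex_Icc T e) hcont ?_ ?_
    · intro x hx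
      rw [interior_Icc] at hx
      have hx' : x ∈ Ioo a e := ⟨by linarith [hT.1, hx.1], hx.2⟩
      have hx0 : 0 < x := by linarith [hx'.1]
      exact ((hasDerivAt_qL hk hx0 (hR x hx') (hD x ⟨hx'.1, hx'.2.le⟩)).sub
        ((hP x hx').mul (hasDerivAt_sqrtR (hR x hx')))).differentiableAt.differentiableWithinAt
    · intro x hx
      rw [interior_Icc] at hx
      have hx' : x ∈ Ioo a e := ⟨by linarith [hT.1, hx.1], hx.2⟩
      have hx0 : 0 < x := by linarith [hx'.1]
      have hd : HasDerivAt (fun T => qL b c k T - P T * √(qR b c T)) _ x :=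
        (hasDerivAt_qL hk hx0 (hR x hx') (hD x ⟨hx'.1, hx'.2.le⟩)).fun_sub
        ((hP x hx').fun_mul (hasDerivAt_sqrtR (hR x hx')))
      rw [hd.deriv]
      have hs : 0 < √(qR b c x) := Real.sqrt_pos.2 (hR x hx')
      have hss : √(qR b c x) ^ 2 = qR b c x := Real.sq_sqrt (hR x hx').le
      have h1 := hE x hx'
      rw [sign_id hx0 hs hss]
      exact div_nonpos_of_nonpos_of_nonneg (by linarith) hs.le
  have h2 := hanti ⟨le_rfl, hT.2⟩ ⟨hT.2, le_rfl⟩ hT.2
  simp only at h2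
  linarith

lemma qL_le_of_deriv {b c k a e : ℝ} (hk : 0 < k) (ha : 0 ≤ a)
    (hR : ∀ T ∈ Ioo a e, 0 < qR b c T) (hD : ∀ T ∈ Ioc a e, 0 < qD b T)
    {P P' : ℝ → ℝ} (hP : ∀ T ∈ Ioo a e, HasDerivAt P (P' T) T) (hPc : ContinuousOn P (Ioc a e))
    (hE : ∀ T ∈ Ioo a e, 1 / T + P' T * qR b c T + P T * ((b + 2 * c * T) / 2) ≤ 0)
    (hend : qL b c k e ≤ P e * √(qR b c e)) {T : ℝ} (hT : T ∈ Ioc a e) :
    qL b c k T ≤ P T * √(qR b c T) := by
  have hcont : ContinuousOn (fun T => qL b c k T - P T * √(qR b c T)) (Icc T e) := by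
    have hpos : ∀ x ∈ Icc T e, 0 < x := fun x hx => by linarith [hT.1, hx.1]
    have hmem : ∀ x ∈ Icc T e, x ∈ Ioc a e := fun x hx => ⟨by linarith [hT.1, hx.1], hx.2⟩
    refine ContinuousOn.sub ?_ ((hPc.mono hmem).mul (continuous_qR b c).sqrt.continuousOn)
    unfold qL
    refine ContinuousOn.log ?_ fun x hx => ?_
    · refine ContinuousOn.div ((continuous_qD b).add (continuous_qR b c).sqrt).continuousOn
        (continuous_const.mul continuous_id).continuousOn fun x hx => ?_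
      exact (mul_pos hk (hpos x hx)).ne'
    · exact (div_pos (by linarith [hD x (hmem x hx), Real.sqrt_nonneg (qR b c x)])
        (mul_pos hk (hpos x hx))).ne'
  have hmono : MonotoneOn (fun T => qL b c k T - P T * √(qR b c T)) (Icc T e) := by
    refine monotoneOn_of_deriv_nonneg (convex_Icc T e) hcont ?_ ?_
    · intro x hx
      rw [interior_Icc] at hx
      have hx' : x ∈ Ioo a e := ⟨by linarith [hT.1, hx.1], hx.2⟩
      have hx0 : 0 < x := by linarith [hx'.1]
      exact ((hasDerivAt_qL hk hx0 (hR x hx') (hD x ⟨hx'.1, hx'.2.le⟩)).sub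
        ((hP x hx').mul (hasDerivAt_sqrtR (hR x hx')))).differentiableAt.differentiableWithinAt
    · intro x hx
      rw [interior_Icc] at hx
      have hx' : x ∈ Ioo a e := ⟨by linarith [hT.1, hx.1], hx.2⟩
      have hx0 : 0 < x := by linarith [hx'.1]
      have hd : HasDerivAt (fun T => qL b c k T - P T * √(qR b c T)) _ x :=
        (hasDerivAt_qL hk hx0 (hR x hx') (hD x ⟨hx'.1, hx'.2.le⟩)).fun_sub
        ((hP x hx').fun_mul (hasDerivAt_sqrtR (hR x hx')))
      rw [hd.deriv]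
      have hs : 0 < √(qR b c x) := Real.sqrt_pos.2 (hR x hx')
      have hss : √(qR b c x) ^ 2 = qR b c x := Real.sq_sqrt (hR x hx').le
      have h1 := hE x hx'
      rw [sign_id hx0 hs hss]
      exact div_nonneg (by linarith) hs.le
  have h2 := hmono ⟨le_rfl, hT.2⟩ ⟨hT.2, le_rfl⟩ hT.2
  simp only at h2
  linarith

end Vale.Agent.P224.SP
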