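import Vale.Agent.P224.SP.Fun5
import Vale.Agent.P224.SP.UPoly

/-!
Two-sided polynomial bounds for the functions of the flat sections near `T = 0` and `T = 1`.
-/

namespace Vale.Agent.P224.SP

open Set Filter Real
open scoped Topology

/-- comparison from the left end point -/
lemma comp_left {f g f' g' : ℝ → ℝ} {e : ℝ} (hfc : ContinuousOn f (Icc 0 e))
    (hgc : ContinuousOn g (Icc 0 e)) (hf : ∀ T ∈ Ioo 0 e, HasDerivAt f (f' T) T)
    (hg : ∀ T ∈ Ioo 0 e, HasDerivAt g (g' T) T) (hE : ∀ T ∈ Ioo 0 e, f' T ≤ g' T)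
    (h0 : f 0 ≤ g 0) {T : ℝ} (hT : T ∈ Icc 0 e) : f T ≤ g T := by
  have hmono : MonotoneOn (fun x => g x - f x) (Icc 0 e) := by
    refine monotoneOn_of_deriv_nonneg (convex_Icc 0 e) (hgc.sub hfc) ?_ ?_
    · intro x hx
      rw [interior_Icc] at hx
      exact ((hg x hx).sub (hf x hx)).differentiableAt.differentiableWithinAt
    · intro x hx
      rw [interior_Icc] at hx
      have hd : HasDerivAt (fun x => g x - f x) _ x := (hg x hx).fun_sub (hf x hx)
      rw [hd.deriv]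
      linarith [hE x hx]
  have h2 := hmono ⟨le_rfl, hT.1.trans hT.2⟩ hT hT.1
  simp only at h2
  linarith

/-- comparison from the right end point -/
lemma comp_right {f g f' g' : ℝ → ℝ} {a e : ℝ} (hfc : ContinuousOn f (Icc a e))
    (hgc : ContinuousOn g (Icc a e)) (hf : ∀ T ∈ Ioo a e, HasDerivAt f (f' T) T)
    (hg : ∀ T ∈ Ioo a e, HasDerivAt g (g' T) T) (hE : ∀ T ∈ Ioo a e, g' T ≤ f' T)
    (h0 : f e ≤ g e) {T : ℝ} (hT : T ∈ Icc a e) : f T ≤ g T := by
  have hmono : AntitoneOn (fun x => g x - f x) (Icc a e) := by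
    refine antitoneOn_of_deriv_nonpos (convex_Icc a e) (hgc.sub hfc) ?_ ?_
    · intro x hx
      rw [interior_Icc] at hx
      exact ((hg x hx).sub (hf x hx)).differentiableAt.differentiableWithinAt
    · intro x hx
      rw [interior_Icc] at hx
      have hd : HasDerivAt (fun x => g x - f x) _ x := (hg x hx).fun_sub (hf x hx)
      rw [hd.deriv]
      linarith [hE x hx]
  have h2 := hmono hT ⟨hT.1.trans hT.2, le_rfl⟩ hT.2
  simp only at h2
  linarith

/-- the regular part of the logarithm, vanishing at `T = 0` -/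
noncomputable def qU (b c T : ℝ) : ℝ := Real.log ((qD b T + √(qR b c T)) / 2)

lemma qU_zero (b c : ℝ) : qU b c 0 = 0 := by
  unfold qU
  rw [qD_zero, qR_zero, Real.sqrt_one]
  norm_num

lemma qL_eq_qU {b c k T : ℝ} (hk : 0 < k) (hT : 0 < T) (hR : 0 < qR b c T) (hD : 0 < qD b T) :
    qL b c k T = Real.log (2 / k) + qU b c T - Real.log T := by
  have hs : 0 < √(qR b c T) := Real.sqrt_pos.2 hR
  rw [qL_eq hk hT hR hD]
  unfold qU
  rw [Real.log_div (by norm_num) hk.ne', Real.log_div (by linarith) (by norm_num)]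
  ring

lemma hasDerivAt_qU {b c T : ℝ} (hT : 0 < T) (hR : 0 < qR b c T) (hD : 0 < qD b T) :
    HasDerivAt (qU b c) ((1 - 1 / √(qR b c T)) / T) T := by
  have hs : 0 < √(qR b c T) := Real.sqrt_pos.2 hR
  have hss : √(qR b c T) ^ 2 = qR b c T := Real.sq_sqrt hR.le
  have h0 : HasDerivAt (fun T => (qD b T + √(qR b c T)) / 2)
      ((b / 2 + (b + 2 * c * T) / (2 * √(qR b c T))) / 2) T :=
    ((hasDerivAt_qD b T).fun_add (hasDerivAt_sqrtR hR)).div_const 2
  have h2 : HasDerivAt (fun T => Real.log ((qD b T + √(qR b c T)) / 2)) _ T :=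
    h0.log (by positivity)
  refine h2.congr_deriv ?_
  have hd : qD b T = 1 + b / 2 * T := rfl
  have hDs : 0 < qD b T + √(qR b c T) := by linarith
  rw [hd] at hDs ⊢
  set s := √(qR b c T) with hsdef
  have hq : s ^ 2 = 1 + b * T + c * T ^ 2 := hss
  have hDs' : 2 + b * T + 2 * s ≠ 0 := by linarith
  have hs' := hs.ne'
  have hT' := hT.ne'
  have e1 : (1 + b / 2 * T + s) = (2 + b * T + 2 * s) / 2 := by ring
  rw [e1]
  field_simp
  linear_combination (-2 : ℝ) * hq

lemma continuousOn_qU {b c : ℝ} {S : Set ℝ} (hR : ∀ T ∈ S, 0 < qR b c T)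
    (hD : ∀ T ∈ S, 0 < qD b T) : ContinuousOn (qU b c) S := by
  unfold qU
  refine ContinuousOn.log ?_ fun x hx => ?_
  · exact (((continuous_qD b).add (continuous_qR b c).sqrt).div_const 2).continuousOn
  · have h1 := hD x hx
    have h2 := Real.sqrt_pos.2 (hR x hx)
    positivity

/-- `qU ≤ V` near `0` from a lower bound `u` of `1/√R`, `T V' = 1 - u`. -/
lemma qU_le {b c e : ℝ} (hR : ∀ T ∈ Icc 0 e, 0 < qR b c T) (hD : ∀ T ∈ Icc 0 e, 0 < qD b T)
    {u V V' : ℝ → ℝ} (hV : ∀ T, HasDerivAt V (V' T) T) (hV0 : V 0 = 0)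
    (hu : ∀ T, T * V' T = 1 - u T) (hE : ∀ T ∈ Icc 0 e, u T ^ 2 * qR b c T ≤ 1) {T : ℝ}
    (hT : T ∈ Icc 0 e) : qU b c T ≤ V T := by
  refine comp_left (f' := fun T => (1 - 1 / √(qR b c T)) / T) (g' := V') (continuousOn_qU hR hD)
    (fun x _ => (hV x).continuousAt.continuousWithinAt)
    (fun x hx => hasDerivAt_qU hx.1 (hR x ⟨hx.1.le, hx.2.le⟩) (hD x ⟨hx.1.le, hx.2.le⟩))
    (fun x _ => hV x) (fun x hx => ?_) (by rw [qU_zero, hV0]) hT
  have hx' : x ∈ Icc 0 e := ⟨hx.1.le, hx.2.le⟩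
  have hs : 0 < √(qR b c x) := Real.sqrt_pos.2 (hR x hx')
  have hss : √(qR b c x) ^ 2 = qR b c x := Real.sq_sqrt (hR x hx').le
  have h1 : u x ≤ 1 / √(qR b c x) := by
    rw [le_div_iff₀ hs]
    have h2 : (u x * √(qR b c x)) ^ 2 ≤ 1 ^ 2 := by
      rw [mul_pow, hss, one_pow]; exact hE x hx'
    exact (abs_le_of_sq_le_sq' h2 (by norm_num)).2
  rw [div_le_iff₀ hx.1, mul_comm, hu]
  linarith

/-- `V ≤ qU` near `0` from an upper bound `v` of `1/√R`, `T V' = 1 - v`. -/
lemma le_qU {b c e : ℝ} (hR : ∀ T ∈ Icc 0 e, 0 < qR b c T) (hD : ∀ T ∈ Icc 0 e, 0 < qD b T)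
    {v V V' : ℝ → ℝ} (hV : ∀ T, HasDerivAt V (V' T) T) (hV0 : V 0 = 0)
    (hv : ∀ T, T * V' T = 1 - v T) (hv0 : ∀ T ∈ Icc 0 e, 0 ≤ v T)
    (hE : ∀ T ∈ Icc 0 e, 1 ≤ v T ^ 2 * qR b c T) {T : ℝ}
    (hT : T ∈ Icc 0 e) : V T ≤ qU b c T := by
  refine comp_left (f' := V') (g' := fun T => (1 - 1 / √(qR b c T)) / T)
    (fun x _ => (hV x).continuousAt.continuousWithinAt) (continuousOn_qU hR hD)
    (fun x _ => hV x)
    (fun x hx => hasDerivAt_qU hx.1 (hR x ⟨hx.1.le, hx.2.le⟩) (hD x ⟨hx.1.le, hx.2.le⟩))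
    (fun x hx => ?_) (by rw [qU_zero, hV0]) hT
  have hx' : x ∈ Icc 0 e := ⟨hx.1.le, hx.2.le⟩
  have hs : 0 < √(qR b c x) := Real.sqrt_pos.2 (hR x hx')
  have hss : √(qR b c x) ^ 2 = qR b c x := Real.sq_sqrt (hR x hx').le
  have h1 : 1 / √(qR b c x) ≤ v x := by
    rw [div_le_iff₀ hs]
    have h2 : 1 ^ 2 ≤ (v x * √(qR b c x)) ^ 2 := by
      rw [mul_pow, hss, one_pow]; exact hE x hx'
    exact (pow_le_pow_iff_left₀ (by norm_num) (mul_nonneg (hv0 x hx') hs.le) two_ne_zero).1 h2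
  rw [le_div_iff₀ hx.1, mul_comm, hv]
  linarith

/-- `p ≤ √R` from `p² ≤ R`. -/
lemma le_sqrtR {b c T p : ℝ} (h : p ^ 2 ≤ qR b c T) : p ≤ √(qR b c T) :=
  Real.le_sqrt_of_sq_le h

/-- `√R ≤ q` from `R ≤ q²`. -/
lemma sqrtR_le {b c T q : ℝ} (hq : 0 ≤ q) (h : qR b c T ≤ q ^ 2) : √(qR b c T) ≤ q :=
  (Real.sqrt_le_left hq).2 h

/-- comparison from the right, lower bound with a constant: `P √R + c₀ ≤ qL`. -/
lemma le_qL_right {b c k a e c₀ : ℝ} (hk : 0 < k) (ha : 0 < a)
    (hR : ∀ T ∈ Ioo a e, 0 < qR b c T) (hD : ∀ T ∈ Icc a e, 0 < qD b T)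
    {P P' : ℝ → ℝ} (hP : ∀ T, HasDerivAt P (P' T) T)
    (hE : ∀ T ∈ Ioo a e, 0 ≤ 1 + T * (P' T * qR b c T + P T * ((b + 2 * c * T) / 2)))
    (hend : P e * √(qR b c e) + c₀ ≤ qL b c k e) {T : ℝ} (hT : T ∈ Icc a e) :
    P T * √(qR b c T) + c₀ ≤ qL b c k T := by
  refine comp_right (f := fun x => P x * √(qR b c x) + c₀) (g := qL b c k)
      (f' := fun x => P' x * √(qR b c x) + P x * ((b + 2 * c * x) /
      (2 * √(qR b c x)))) (g' := fun x => -1 / (x * √(qR b c x))) ?_ ?_ ?_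
      (fun x hx => hasDerivAt_qL hk (ha.trans hx.1) (hR x hx) (hD x ⟨hx.1.le, hx.2.le⟩)) ?_
      hend hT
  · refine ContinuousOn.add ?_ continuousOn_const
    have hPc : ContinuousOn P (Icc a e) := fun x _ =>
      (hP x).continuousAt.continuousWithinAt
    exact hPc.mul (continuous_qR b c).sqrt.continuousOn
  · unfold qL
    refine ContinuousOn.log ?_ fun x hx => ?_
    · refine ContinuousOn.div ((continuous_qD b).add (continuous_qR b c).sqrt).continuousOn
        (continuous_const.mul continuous_id).continuousOn fun x hx => ?_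
      exact (mul_pos hk (ha.trans_le hx.1)).ne'
    · exact (div_pos (by linarith [hD x hx, Real.sqrt_nonneg (qR b c x)])
        (mul_pos hk (ha.trans_le hx.1))).ne'
  · intro x hx
    exact ((hP x).fun_mul (hasDerivAt_sqrtR (hR x hx))).add_const c₀
  · intro x hx
    have hx0 : 0 < x := ha.trans hx.1
    have hs : 0 < √(qR b c x) := Real.sqrt_pos.2 (hR x hx)
    have hss : √(qR b c x) ^ 2 = qR b c x := Real.sq_sqrt (hR x hx).le
    have h1 := sign_id (b := b) (c := c) (p := P x) (p' := P' x) hx0 hs hss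
    have h2 := hE x hx
    have h3 : 0 ≤ (1 / x + P' x * qR b c x + P x * ((b + 2 * c * x) / 2)) / √(qR b c x) := by
      refine div_nonneg ?_ hs.le
      have h4 : 1 / x + P' x * qR b c x + P x * ((b + 2 * c * x) / 2) =
          (1 + x * (P' x * qR b c x + P x * ((b + 2 * c * x) / 2))) / x := by
        field_simp
        ring
      rw [h4]
      exact div_nonneg h2 hx0.le
    have h5 : -(1 / x + P' x * qR b c x + P x * ((b + 2 * c * x) / 2)) / √(qR b c x) =
        -((1 / x + P' x * qR b c x + P x * ((b + 2 * c * x) / 2)) / √(qR b c x)) := neg_div _ _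
    rw [h5] at h1
    linarith

/-- comparison from the right, upper bound with a constant: `qL ≤ P √R + c₀`. -/
lemma qL_le_right {b c k a e c₀ : ℝ} (hk : 0 < k) (ha : 0 < a)
    (hR : ∀ T ∈ Ioo a e, 0 < qR b c T) (hD : ∀ T ∈ Icc a e, 0 < qD b T)
    {P P' : ℝ → ℝ} (hP : ∀ T, HasDerivAt P (P' T) T)
    (hE : ∀ T ∈ Ioo a e, 1 + T * (P' T * qR b c T + P T * ((b + 2 * c * T) / 2)) ≤ 0)
    (hend : qL b c k e ≤ P e * √(qR b c e) + c₀) {T : ℝ} (hT : T ∈ Icc a e) :
    qL b c k T ≤ P T * √(qR b c T) + c₀ := by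
  refine comp_right (f := qL b c k) (g := fun x => P x * √(qR b c x) + c₀)
      (g' := fun x => P' x * √(qR b c x) + P x * ((b + 2 * c * x) /
      (2 * √(qR b c x)))) (f' := fun x => -1 / (x * √(qR b c x))) ?_ ?_
      (fun x hx => hasDerivAt_qL hk (ha.trans hx.1) (hR x hx) (hD x ⟨hx.1.le, hx.2.le⟩)) ?_ ?_
      hend hT
  · unfold qL
    refine ContinuousOn.log ?_ fun x hx => ?_
    · refine ContinuousOn.div ((continuous_qD b).add (continuous_qR b c).sqrt).continuousOn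
        (continuous_const.mul continuous_id).continuousOn fun x hx => ?_
      exact (mul_pos hk (ha.trans_le hx.1)).ne'
    · exact (div_pos (by linarith [hD x hx, Real.sqrt_nonneg (qR b c x)])
        (mul_pos hk (ha.trans_le hx.1))).ne'
  · refine ContinuousOn.add ?_ continuousOn_const
    have hPc : ContinuousOn P (Icc a e) := fun x _ =>
      (hP x).continuousAt.continuousWithinAt
    exact hPc.mul (continuous_qR b c).sqrt.continuousOn
  · intro x hx
    exact ((hP x).fun_mul (hasDerivAt_sqrtR (hR x hx))).add_const c₀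
  · intro x hx
    have hx0 : 0 < x := ha.trans hx.1
    have hs : 0 < √(qR b c x) := Real.sqrt_pos.2 (hR x hx)
    have hss : √(qR b c x) ^ 2 = qR b c x := Real.sq_sqrt (hR x hx).le
    have h1 := sign_id (b := b) (c := c) (p := P x) (p' := P' x) hx0 hs hss
    have h2 := hE x hx
    have h3 : (1 / x + P' x * qR b c x + P x * ((b + 2 * c * x) / 2)) / √(qR b c x) ≤ 0 := by
      refine div_nonpos_of_nonpos_of_nonneg ?_ hs.le
      have h4 : 1 / x + P' x * qR b c x + P x * ((b + 2 * c * x) / 2) =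
          (1 + x * (P' x * qR b c x + P x * ((b + 2 * c * x) / 2))) / x := by
        field_simp
        ring
      rw [h4]
      exact div_nonpos_of_nonpos_of_nonneg h2 hx0.le
    have h5 : -(1 / x + P' x * qR b c x + P x * ((b + 2 * c * x) / 2)) / √(qR b c x) =
        -((1 / x + P' x * qR b c x + P x * ((b + 2 * c * x) / 2)) / √(qR b c x)) := neg_div _ _
    rw [h5] at h1
    linarith

end Vale.Agent.P224.SP
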