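import Vale.Agent.P224.SP.Near

/-!
Polynomial enclosures (integer coefficient lists) of the functions of the flat sections.
-/

namespace Vale.Agent.P224.SP

open Set Filter Real
open scoped Topology

/-- `ev l T / d` -/
noncomputable def evq (l : List ℤ) (d : ℤ) (T : ℝ) : ℝ := ev l T / d

lemma hasDerivAt_evq (l : List ℤ) (d : ℤ) (T : ℝ) :
    HasDerivAt (evq l d) (evq (derL l) d T) T := (hasDerivAt_ev l T).div_const _

lemma continuous_evq (l : List ℤ) (d : ℤ) : Continuous (evq l d) :=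
  (continuous_ev l).div_const _

/-- `y² = R`, `y' = r / y`, `L' = - κ / (T y)` on `(a, e)`. -/
structure LogPair (y L R r : ℝ → ℝ) (κ a e : ℝ) : Prop where
  ypos : ∀ T ∈ Ioo a e, 0 < y T
  ysq : ∀ T ∈ Ioo a e, y T ^ 2 = R T
  dy : ∀ T ∈ Ioo a e, HasDerivAt y (r T / y T) T
  dL : ∀ T ∈ Ioo a e, HasDerivAt L (-κ / (T * y T)) T
  cy : ContinuousOn y (Icc a e)
  cL : ContinuousOn L (Icc a e)

lemma LogPair.le {y L R r : ℝ → ℝ} {κ a e c₀ : ℝ} (h : LogPair y L R r κ a e) (ha : 0 < a)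
    {P P' : ℝ → ℝ} (hP : ∀ T, HasDerivAt P (P' T) T)
    (hE : ∀ T ∈ Ioo a e, 0 ≤ κ + T * (P' T * R T + P T * r T))
    (hend : P e * y e + c₀ ≤ L e) {T : ℝ} (hT : T ∈ Icc a e) : P T * y T + c₀ ≤ L T := by
  have hPc : ContinuousOn P (Icc a e) := fun x _ => (hP x).continuousAt.continuousWithinAt
  refine comp_right (f := fun x => P x * y x + c₀) (g := L)
    (f' := fun x => P' x * y x + P x * (r x / y x)) (g' := fun x => -κ / (x * y x))
    ((hPc.mul h.cy).add continuousOn_const) h.cL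
    (fun x hx => ((hP x).fun_mul (h.dy x hx)).add_const c₀) h.dL (fun x hx => ?_) hend hT
  have hx0 : 0 < x := ha.trans hx.1
  have hy := h.ypos x hx
  have h1 : P' x * y x + P x * (r x / y x) - -κ / (x * y x) =
      (κ + x * (P' x * R x + P x * r x)) / (x * y x) := by
    rw [← h.ysq x hx]
    field_simp
    ring
  have h2 : 0 ≤ (κ + x * (P' x * R x + P x * r x)) / (x * y x) :=
    div_nonneg (hE x hx) (mul_pos hx0 hy).le
  linarith

lemma LogPair.ge {y L R r : ℝ → ℝ} {κ a e c₀ : ℝ} (h : LogPair y L R r κ a e) (ha : 0 < a)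
    {P P' : ℝ → ℝ} (hP : ∀ T, HasDerivAt P (P' T) T)
    (hE : ∀ T ∈ Ioo a e, κ + T * (P' T * R T + P T * r T) ≤ 0)
    (hend : L e ≤ P e * y e + c₀) {T : ℝ} (hT : T ∈ Icc a e) : L T ≤ P T * y T + c₀ := by
  have hPc : ContinuousOn P (Icc a e) := fun x _ => (hP x).continuousAt.continuousWithinAt
  refine comp_right (f := L) (g := fun x => P x * y x + c₀)
    (g' := fun x => P' x * y x + P x * (r x / y x)) (f' := fun x => -κ / (x * y x))
    h.cL ((hPc.mul h.cy).add continuousOn_const) h.dL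
    (fun x hx => ((hP x).fun_mul (h.dy x hx)).add_const c₀) (fun x hx => ?_) hend hT
  have hx0 : 0 < x := ha.trans hx.1
  have hy := h.ypos x hx
  have h1 : P' x * y x + P x * (r x / y x) - -κ / (x * y x) =
      (κ + x * (P' x * R x + P x * r x)) / (x * y x) := by
    rw [← h.ysq x hx]
    field_simp
    ring
  have h2 : (κ + x * (P' x * R x + P x * r x)) / (x * y x) ≤ 0 :=
    div_nonpos_of_nonpos_of_nonneg (hE x hx) (mul_pos hx0 hy).le
  linarith

/-- the polynomial `dP dR dr κ + T (P' R dr + P r dR)` of the comparison (scaled) -/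
def cmpL (RL rL : List ℤ) (dR dr κ : ℤ) (PL : List ℤ) (dP : ℤ) : List ℤ :=
  addL [κ * dP * dR * dr]
    (0 :: addL (smulL dr (mulL (derL PL) RL)) (smulL dR (mulL PL rL)))

lemma ev_cmpL (RL rL : List ℤ) (dR dr κ : ℤ) (PL : List ℤ) (dP : ℤ) (T : ℝ) (h1 : (dR : ℝ) ≠ 0)
    (h2 : (dr : ℝ) ≠ 0) (h3 : (dP : ℝ) ≠ 0) :
    ev (cmpL RL rL dR dr κ PL dP) T = (dP * dR * dr : ℝ) *
      (κ + T * (evq (derL PL) dP T * evq RL dR T + evq PL dP T * evq rL dr T)) := by
  unfold cmpL evq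
  rw [ev_addL, ev_cons, ev_cons, ev_addL, ev_smulL, ev_smulL, ev_mulL, ev_mulL]
  simp only [ev_nil]
  push_cast
  field_simp
  ring

/-- Enclosure from the right end point by integer polynomials. -/
theorem LogPair.encl {y L : ℝ → ℝ} {RL rL : List ℤ} {dR dr κ : ℤ} {a e c₀ : ℝ}
    (h : LogPair y L (evq RL dR) (evq rL dr) κ a e) (ha : 0 < a) (hdR : 0 < dR) (hdr : 0 < dr)
    {PL QL : List ℤ} {dP A B d : ℤ} (hdP : 0 < dP)
    (hc1 : chk A B d (cmpL RL rL dR dr κ PL dP) = true)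
    (hc2 : chk A B d (smulL (-1) (cmpL RL rL dR dr κ QL dP)) = true)
    (hA : (A : ℝ) ≤ d * a) (hB : (d : ℝ) * e ≤ B) (hd : 0 < d)
    (hend1 : evq PL dP e * y e + c₀ ≤ L e) (hend2 : L e ≤ evq QL dP e * y e + c₀) {T : ℝ}
    (hT : T ∈ Icc a e) :
    evq PL dP T * y T + c₀ ≤ L T ∧ L T ≤ evq QL dP T * y T + c₀ := by
  have hdR' : (0 : ℝ) < dR := by exact_mod_cast hdR
  have hdr' : (0 : ℝ) < dr := by exact_mod_cast hdr
  have hdP' : (0 : ℝ) < dP := by exact_mod_cast hdP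
  have hd' : (0 : ℝ) < d := by exact_mod_cast hd
  have hmem : ∀ x ∈ Ioo a e, (A : ℝ) ≤ d * x ∧ (d : ℝ) * x ≤ B := fun x hx =>
    ⟨hA.trans (mul_le_mul_of_nonneg_left hx.1.le hd'.le),
      (mul_le_mul_of_nonneg_left hx.2.le hd'.le).trans hB⟩
  have hpos : (0 : ℝ) < dP * dR * dr := by positivity
  constructor
  · refine h.le ha (fun x => hasDerivAt_evq PL dP x) (fun x hx => ?_) hend1 hT
    have h1 := nonneg_of_chk hc1 (hmem x hx).1 (hmem x hx).2
    rw [ev_cmpL _ _ _ _ _ _ _ _ hdR'.ne' hdr'.ne' hdP'.ne'] at h1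
    exact nonneg_of_mul_nonneg_right h1 hpos
  · refine h.ge ha (fun x => hasDerivAt_evq QL dP x) (fun x hx => ?_) hend2 hT
    have h1 := nonneg_of_chk hc2 (hmem x hx).1 (hmem x hx).2
    rw [ev_smulL, ev_cmpL _ _ _ _ _ _ _ _ hdR'.ne' hdr'.ne' hdP'.ne'] at h1
    push_cast at h1
    by_contra hcon
    have h2 := mul_pos hpos (not_le.1 hcon)
    linarith

/-- `u = 1 - T V'`, scaled by `dV` -/
def uOf (VL : List ℤ) (dV : ℤ) : List ℤ := addL [dV] (smulL (-1) (0 :: derL VL))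

lemma ev_uOf (VL : List ℤ) (dV : ℤ) (T : ℝ) :
    ev (uOf VL dV) T = dV - T * ev (derL VL) T := by
  unfold uOf
  rw [ev_addL, ev_smulL, ev_cons, ev_cons, ev_nil]
  push_cast
  ring

/-- `dV² dR - u² R`, scaled -/
def resU (RL : List ℤ) (dR : ℤ) (VL : List ℤ) (dV : ℤ) : List ℤ :=
  addL [dV * dV * dR] (smulL (-1) (mulL (mulL (uOf VL dV) (uOf VL dV)) RL))

lemma ev_resU (RL : List ℤ) (dR : ℤ) (VL : List ℤ) (dV : ℤ) (T : ℝ) (h1 : (dR : ℝ) ≠ 0)
    (h2 : (dV : ℝ) ≠ 0) :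
    ev (resU RL dR VL dV) T = (dV * dV * dR : ℝ) *
      (1 - (1 - T * evq (derL VL) dV T) ^ 2 * evq RL dR T) := by
  unfold resU evq
  rw [ev_addL, ev_smulL, ev_mulL, ev_mulL, ev_uOf, ev_cons, ev_nil]
  push_cast
  field_simp
  ring

/-- Enclosure of the regular part near `0` by integer polynomials. -/
theorem qU_encl {b c : ℝ} {RL : List ℤ} {dR : ℤ} (hdR : 0 < dR)
    (hRL : ∀ T, qR b c T = evq RL dR T) {e : ℝ} (hR : ∀ T ∈ Icc 0 e, 0 < qR b c T)
    (hD : ∀ T ∈ Icc 0 e, 0 < qD b T) {VL WL : List ℤ} {dV B d : ℤ} (hdV : 0 < dV) (hd : 0 < d)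
    (hB : (d : ℝ) * e ≤ B) (hV0 : VL.headI = 0) (hW0 : WL.headI = 0)
    (hc1 : chk 0 B d (resU RL dR VL dV) = true)
    (hc2 : chk 0 B d (smulL (-1) (resU RL dR WL dV)) = true)
    (hc3 : chk 0 B d (uOf WL dV) = true) {T : ℝ} (hT : T ∈ Icc 0 e) :
    evq WL dV T ≤ qU b c T ∧ qU b c T ≤ evq VL dV T := by
  have hdR' : (0 : ℝ) < dR := by exact_mod_cast hdR
  have hdV' : (0 : ℝ) < dV := by exact_mod_cast hdV
  have hd' : (0 : ℝ) < d := by exact_mod_cast hd
  have hmem : ∀ x ∈ Icc 0 e, ((0 : ℤ) : ℝ) ≤ d * x ∧ (d : ℝ) * x ≤ B := fun x hx =>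
    ⟨by push_cast; exact mul_nonneg hd'.le hx.1,
      (mul_le_mul_of_nonneg_left hx.2 hd'.le).trans hB⟩
  have hpos : (0 : ℝ) < dV * dV * dR := by positivity
  have hz : ∀ l : List ℤ, l.headI = 0 → evq l dV 0 = 0 := by
    intro l hl
    unfold evq
    cases l with
    | nil => simp
    | cons a l =>
      have : a = 0 := hl
      rw [this]
      simp
  have huv : ∀ (l : List ℤ) (x : ℝ), 1 - x * evq (derL l) dV x = ev (uOf l dV) x / dV := by
    intro l x
    rw [ev_uOf]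
    unfold evq
    field_simp
  constructor
  · refine le_qU hR hD (v := fun x => 1 - x * evq (derL WL) dV x)
      (fun x => hasDerivAt_evq WL dV x) (hz _ hW0) (fun x => by ring) (fun x hx => ?_)
      (fun x hx => ?_) hT
    · rw [huv]
      exact div_nonneg (nonneg_of_chk hc3 (hmem x hx).1 (hmem x hx).2) hdV'.le
    · have h1 := nonneg_of_chk hc2 (hmem x hx).1 (hmem x hx).2
      rw [ev_smulL, ev_resU _ _ _ _ _ hdR'.ne' hdV'.ne'] at h1
      push_cast at h1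
      rw [hRL]
      by_contra hcon
      have h2 : 0 < 1 - (1 - x * evq (derL WL) dV x) ^ 2 * evq RL dR x := by linarith
      have h3 := mul_pos hpos h2
      linarith
  · refine qU_le hR hD (u := fun x => 1 - x * evq (derL VL) dV x)
      (fun x => hasDerivAt_evq VL dV x) (hz _ hV0) (fun x => by ring) (fun x hx => ?_) hT
    have h1 := nonneg_of_chk hc1 (hmem x hx).1 (hmem x hx).2
    rw [ev_resU _ _ _ _ _ hdR'.ne' hdV'.ne'] at h1
    rw [hRL]
    by_contra hcon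
    have h2 : 1 - (1 - x * evq (derL VL) dV x) ^ 2 * evq RL dR x < 0 := by linarith
    have h3 := mul_neg_of_pos_of_neg hpos h2
    linarith

/-- Enclosure of a square root by integer polynomials. -/
theorem sqrt_encl {y R : ℝ} {RL : List ℤ} {dR : ℤ} (hdR : 0 < dR) {T : ℝ}
    (hR : R = evq RL dR T) (hy : y = √R) {PL QL : List ℤ} {dP A B d : ℤ} (hdP : 0 < dP)
    (hA : (A : ℝ) ≤ d * T) (hB : (d : ℝ) * T ≤ B)
    (hc1 : chk A B d (addL (smulL (dP * dP) RL) (smulL (-dR) (mulL PL PL))) = true)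
    (hc2 : chk A B d (addL (smulL (-(dP * dP)) RL) (smulL dR (mulL QL QL))) = true)
    (hc3 : chk A B d QL = true) :
    evq PL dP T ≤ y ∧ y ≤ evq QL dP T := by
  have hdR' : (0 : ℝ) < dR := by exact_mod_cast hdR
  have hdP' : (0 : ℝ) < dP := by exact_mod_cast hdP
  have h1 := nonneg_of_chk hc1 hA hB
  have h2 := nonneg_of_chk hc2 hA hB
  have h3 := nonneg_of_chk hc3 hA hB
  rw [ev_addL, ev_smulL, ev_smulL, ev_mulL] at h1 h2
  push_cast at h1 h2
  subst hy
  subst hR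
  unfold evq
  constructor
  · refine Real.le_sqrt_of_sq_le ?_
    rw [div_pow, div_le_div_iff₀ (by positivity) hdR']
    nlinarith
  · refine (Real.sqrt_le_left (div_nonneg h3 hdP'.le)).2 ?_
    rw [div_pow, div_le_div_iff₀ hdR' (by positivity)]
    nlinarith

end Vale.Agent.P224.SP
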