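import Vale.Agent.P224.SP.LeftG
import Vale.Agent.P224.SP.RightG
import Vale.Agent.P224.H874.DerR

/-!
Smallness test: `|n0 + n1 f1 + n2 f2 + n3 F3 + (1-T)^b (cA nt + cB ns)| <= E T^a (1-T)^b` on
`(0, 1)` for integer polynomials, `cA = log (8/3) / 2`,
`cB = log 5 - log (4 + sqrt 15) + sqrt 15 / 2 - log (25/6) / 2`.
-/

namespace Vale.Agent.P224.SP

open Set Real

/-- first constant -/
noncomputable def cA : ℝ := Real.log (8 / 3) / 2

/-- second constant -/
noncomputable def cB : ℝ :=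
  Real.log 5 - Real.log (4 + √15) + √15 / 2 - Real.log (25 / 6) / 2

/-- scale of the constants -/
def P18 : ℤ := 2 * 10 ^ 18
/-- `P18 * cA` -/
def nA : ℤ := 980829253011726237
/-- `P18 * cB` -/
def nB : ℤ := 1537868677644350793

lemma cA_bd : |(P18 : ℝ) * cA - nA| ≤ 1 := by
  have h := log_83_bd
  unfold cA P18 nA
  push_cast
  rw [abs_le] at h ⊢
  constructor <;> linarith [h.1, h.2]

lemma cB_bd : |(P18 : ℝ) * cB - nB| ≤ 6 := by
  have h1 := log_five_bd
  have h2 := log_t_bd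
  have h3 := sqrt_15_bd
  have h4 := log_256_bd
  unfold cB P18 nB
  push_cast
  rw [abs_le] at h1 h2 h3 h4 ⊢
  constructor <;> linarith [h1.1, h1.2, h2.1, h2.2, h3.1, h3.2, h4.1, h4.2]

/-- multiplication by `T^a` -/
def shl : ℕ → List ℤ → List ℤ
  | 0, l => l
  | (a + 1), l => 0 :: shl a l

lemma ev_shl (a : ℕ) (l : List ℤ) (T : ℝ) : ev (shl a l) T = T ^ a * ev l T := by
  induction a with
  | zero => simp [shl]
  | succ a ih => rw [shl, ev_cons, ih, pow_succ]; push_cast; ring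

/-- the function -/
noncomputable def FF (n0 n1 n2 n3 nt ns : List ℤ) (b : ℕ) (T : ℝ) : ℝ :=
  ev n0 T + ev n1 T * f1 T + ev n2 T * f2 T + ev n3 T * F3 T +
    cA * ((1 - T) ^ b * ev nt T) + cB * ((1 - T) ^ b * ev ns T)

/-! ### right part -/

/-- main list, right -/
def rM (n0 n1 n2 n3 nt ns : List ℤ) (b : ℕ) : List ℤ :=
  addL (smulL P18 (addL (smulL DR n0) (addL (mulL n1 rg1) (addL (mulL n2 rg2) (mulL n3 rg3)))))
    (mulL (powZ b) (addL (smulL (DR * nA) nt) (smulL (DR * nB) ns)))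

/-- allowance, right -/
def rW (n1 n2 n3 nt ns : List ℤ) (E : ℤ) (a b : ℕ) : List ℤ :=
  addL (mulL (powZ b) (addL (shl a [P18 * (DR * E)]) [-(DR * (sAbs nt + 6 * sAbs ns))]))
    (smulL (-(P18 * ((sAbs n1 + sAbs n2 + sAbs n3) * REr))) (powZ 8))

lemma DR_pos : (0 : ℝ) < DR := by
  have : (0 : ℤ) < DR := by decide +kernel
  exact_mod_cast this

lemma RE_nonneg : (0 : ℝ) ≤ REr := by
  have : (0 : ℤ) ≤ REr := by decide +kernel
  exact_mod_cast this

theorem smallR {n0 n1 n2 n3 nt ns : List ℤ} {E : ℤ} {a b k : ℕ} (hk : k ≠ 0)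
    (h1 : chkN k 1 4 4 (addL (rW n1 n2 n3 nt ns E a b) (rM n0 n1 n2 n3 nt ns b)) = true)
    (h2 : chkN k 1 4 4 (addL (rW n1 n2 n3 nt ns E a b)
      (smulL (-1) (rM n0 n1 n2 n3 nt ns b))) = true) {T : ℝ} (hT : T ∈ Ioo (1 / 4 : ℝ) 1) :
    |FF n0 n1 n2 n3 nt ns b T| ≤ E * (T ^ a * (1 - T) ^ b) := by
  have k1 := chk_of_mem h1 hk hT
  have k2 := chk_of_mem h2 hk hT
  have hT0 : (0 : ℝ) < T := by linarith [hT.1]
  have hT1 : T ≤ 1 := hT.2.le
  have m1 := (ap_g1.pmul wtR n1) T hT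
  have m2 := (ap_g2.pmul wtR n2) T hT
  have m3 := (ap_g3.pmul wtR n3) T hT
  have hF3 : F3 T = F3s T := by rw [F3_eq]; rfl
  simp only [ev_mulL] at m1 m2 m3
  push_cast at m1 m2 m3
  have hz : 0 ≤ (1 - T) ^ b := pow_nonneg (by linarith) b
  have t1 := abs_ev_le nt hT0.le hT1
  have t2 := abs_ev_le ns hT0.le hT1
  have c1 := cA_bd
  have c2 := cB_bd
  have hD := DR_pos
  have q1 : |(P18 * cA - nA) * ((1 - T) ^ b * ev nt T)| ≤ 1 * ((1 - T) ^ b * sAbs nt) := by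
    rw [abs_mul]
    refine mul_le_mul c1 ?_ (abs_nonneg _) zero_le_one
    rw [abs_mul, abs_of_nonneg hz]
    exact mul_le_mul_of_nonneg_left t1 hz
  have q2 : |(P18 * cB - nB) * ((1 - T) ^ b * ev ns T)| ≤ 6 * ((1 - T) ^ b * sAbs ns) := by
    rw [abs_mul]
    refine mul_le_mul c2 ?_ (abs_nonneg _) (by norm_num)
    rw [abs_mul, abs_of_nonneg hz]
    exact mul_le_mul_of_nonneg_left t2 hz
  rw [ev_addL] at k1 k2
  rw [ev_smulL (-1)] at k2
  have hP : (0 : ℝ) < P18 := by unfold P18; norm_num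
  -- the difference
  have hdiff : |(P18 : ℝ) * DR * FF n0 n1 n2 n3 nt ns b T - ev (rM n0 n1 n2 n3 nt ns b) T| ≤
      P18 * ((sAbs n1 + sAbs n2 + sAbs n3) * REr * (1 - T) ^ 8) +
      DR * ((sAbs nt + 6 * sAbs ns) * (1 - T) ^ b) := by
    have e : (P18 : ℝ) * DR * FF n0 n1 n2 n3 nt ns b T - ev (rM n0 n1 n2 n3 nt ns b) T =
        P18 * ((DR * (ev n1 T * f1 T) - ev n1 T * ev rg1 T) +
          (DR * (ev n2 T * f2 T) - ev n2 T * ev rg2 T) +
          (DR * (ev n3 T * F3s T) - ev n3 T * ev rg3 T)) +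
        DR * ((P18 * cA - nA) * ((1 - T) ^ b * ev nt T) +
          (P18 * cB - nB) * ((1 - T) ^ b * ev ns T)) := by
      unfold FF rM
      rw [hF3]
      simp only [ev_addL, ev_smulL, ev_mulL, ev_powZ]
      push_cast
      ring
    rw [e]
    have r1 : |(DR * (ev n1 T * f1 T) - ev n1 T * ev rg1 T) +
          (DR * (ev n2 T * f2 T) - ev n2 T * ev rg2 T) +
          (DR * (ev n3 T * F3s T) - ev n3 T * ev rg3 T)| ≤
        (sAbs n1 + sAbs n2 + sAbs n3) * REr * (1 - T) ^ 8 := by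
      refine (abs_add_le _ _).trans ?_
      have := abs_add_le (DR * (ev n1 T * f1 T) - ev n1 T * ev rg1 T)
        (DR * (ev n2 T * f2 T) - ev n2 T * ev rg2 T)
      unfold wR at m1 m2 m3
      linarith
    have r2 : |(P18 * cA - nA) * ((1 - T) ^ b * ev nt T) +
          (P18 * cB - nB) * ((1 - T) ^ b * ev ns T)| ≤
        (sAbs nt + 6 * sAbs ns) * (1 - T) ^ b := by
      refine (abs_add_le _ _).trans ?_
      linarith
    refine (abs_add_le _ _).trans ?_
    rw [abs_mul, abs_mul (DR : ℝ), abs_of_pos hP, abs_of_pos hD]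
    exact add_le_add (mul_le_mul_of_nonneg_left r1 hP.le) (mul_le_mul_of_nonneg_left r2 hD.le)
  have hW : ev (rW n1 n2 n3 nt ns E a b) T = P18 * (DR * (E * (T ^ a * (1 - T) ^ b))) -
      (P18 * ((sAbs n1 + sAbs n2 + sAbs n3) * REr * (1 - T) ^ 8) +
      DR * ((sAbs nt + 6 * sAbs ns) * (1 - T) ^ b)) := by
    unfold rW
    simp only [ev_addL, ev_smulL, ev_mulL, ev_powZ, ev_shl, ev_cons, ev_nil]
    push_cast
    ring
  rw [hW] at k1 k2
  push_cast at k2
  have hPD : 0 < (P18 : ℝ) * DR := mul_pos hP hD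
  rw [abs_le] at hdiff ⊢
  constructor
  · refine le_of_mul_le_mul_left ?_ hPD
    linarith [hdiff.1]
  · refine le_of_mul_le_mul_left ?_ hPD
    linarith [hdiff.2]

/-! ### left part -/

/-- full list `A` -/
def lA0 (n0 n1 n2 n3 : List ℤ) : List ℤ :=
  addL (smulL DP n0) (addL (mulL n1 lp1) (addL (mulL n2 lp2) (mulL n3 lp3)))
/-- full list `U1` -/
def l10 (n1 nt : List ℤ) (b : ℕ) : List ℤ := addL (mulL n1 ly1) (smulL DY (mulL (powZ b) nt))
/-- full list `U3` -/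
def l30 (n3 ns : List ℤ) (b : ℕ) : List ℤ := addL (mulL n3 ly3) (smulL DY (mulL (powZ b) ns))
/-- full list `H` -/
def lB0 (n1 n2 n3 : List ℤ) : List ℤ :=
  addL (mulL n1 ly1) (addL (smulL 2 (mulL n2 ly2)) (mulL n3 ly3))

section models

variable (n0 n1 n2 n3 nt ns : List ℤ) (b : ℕ)

lemma EY_nonneg : (0 : ℝ) ≤ EY := by
  have : (0 : ℤ) ≤ EY := by decide +kernel
  exact_mod_cast this

/-- error of `A` -/
def eA : ℤ := (sAbs n1 + sAbs n2 + sAbs n3) * EP + sQ 4 ((lA0 n0 n1 n2 n3).drop 24)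
/-- error of `U1` -/
def e1 : ℤ := sAbs n1 * EY + sQ 4 ((l10 n1 nt b).drop 24)
/-- error of `U3` -/
def e3 : ℤ := sAbs n3 * EY + sQ 4 ((l30 n3 ns b).drop 24)
/-- error of `H` -/
def eB : ℤ := (sAbs n1 + 2 * sAbs n2 + sAbs n3) * EY + sQ 4 ((lB0 n1 n2 n3).drop 24)

lemma ap_A : Ap SL wL (fun T => ev n0 T + ev n1 T * (y1 T * lam1 T) +
    ev n2 T * (y12 T * lam0 T) + ev n3 T * (b13 T * lam3 T)) DP
    ((lA0 n0 n1 n2 n3).take 24) (eA n0 n1 n2 n3) := by
  have h1 := ap_lp1.pmul wt_SL n1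
  have h2 := ap_lp2.pmul wt_SL n2
  have h3 := ap_lp3.pmul wt_SL n3
  have h : Ap SL wL (fun T => ev n0 T + ev n1 T * (y1 T * lam1 T) +
      ev n2 T * (y12 T * lam0 T) + ev n3 T * (b13 T * lam3 T)) DP
      (lA0 n0 n1 n2 n3) ((sAbs n1 + sAbs n2 + sAbs n3) * EP) := by
    intro T hT
    have k1 := h1 T hT
    have k2 := h2 T hT
    have k3 := h3 T hT
    simp only [ev_mulL] at k1 k2 k3
    unfold lA0
    simp only [ev_addL, ev_smulL, ev_mulL]
    push_cast at k1 k2 k3 ⊢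
    have e : (DP : ℝ) * (ev n0 T + ev n1 T * (y1 T * lam1 T) + ev n2 T * (y12 T * lam0 T) +
        ev n3 T * (b13 T * lam3 T)) - (DP * ev n0 T + (ev n1 T * ev lp1 T +
        (ev n2 T * ev lp2 T + ev n3 T * ev lp3 T))) =
        (DP * (ev n1 T * (y1 T * lam1 T)) - ev n1 T * ev lp1 T) +
        (DP * (ev n2 T * (y12 T * lam0 T)) - ev n2 T * ev lp2 T) +
        (DP * (ev n3 T * (b13 T * lam3 T)) - ev n3 T * ev lp3 T) := by ring
    rw [e]
    refine (abs_add_le _ _).trans ?_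
    have := abs_add_le (DP * (ev n1 T * (y1 T * lam1 T)) - ev n1 T * ev lp1 T)
      (DP * (ev n2 T * (y12 T * lam0 T)) - ev n2 T * ev lp2 T)
    linarith
  exact Ap.take (n := 24) (q := 4) (by norm_num) h (fun T hT => mem_SL hT)

lemma ap_U1 : Ap SL wL (fun T => ev n1 T * y1 T + (1 - T) ^ b * ev nt T) DY
    ((l10 n1 nt b).take 24) (e1 n1 nt b) := by
  have h1 := ap_ly1.pmul wt_SL n1
  have h : Ap SL wL (fun T => ev n1 T * y1 T + (1 - T) ^ b * ev nt T) DY
      (l10 n1 nt b) (sAbs n1 * EY) := by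
    intro T hT
    have k1 := h1 T hT
    simp only [ev_mulL] at k1
    unfold l10
    simp only [ev_addL, ev_smulL, ev_mulL, ev_powZ]
    push_cast at k1 ⊢
    have e : (DY : ℝ) * (ev n1 T * y1 T + (1 - T) ^ b * ev nt T) - (ev n1 T * ev ly1 T +
        DY * ((1 - T) ^ b * ev nt T)) = DY * (ev n1 T * y1 T) - ev n1 T * ev ly1 T := by ring
    rw [e]; exact k1
  exact Ap.take (n := 24) (q := 4) (by norm_num) h (fun T hT => mem_SL hT)

lemma ap_U3 : Ap SL wL (fun T => ev n3 T * b13 T + (1 - T) ^ b * ev ns T) DY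
    ((l30 n3 ns b).take 24) (e3 n3 ns b) := by
  have h1 := ap_ly3.pmul wt_SL n3
  have h : Ap SL wL (fun T => ev n3 T * b13 T + (1 - T) ^ b * ev ns T) DY
      (l30 n3 ns b) (sAbs n3 * EY) := by
    intro T hT
    have k1 := h1 T hT
    simp only [ev_mulL] at k1
    unfold l30
    simp only [ev_addL, ev_smulL, ev_mulL, ev_powZ]
    push_cast at k1 ⊢
    have e : (DY : ℝ) * (ev n3 T * b13 T + (1 - T) ^ b * ev ns T) - (ev n3 T * ev ly3 T +
        DY * ((1 - T) ^ b * ev ns T)) = DY * (ev n3 T * b13 T) - ev n3 T * ev ly3 T := by ring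
    rw [e]; exact k1
  exact Ap.take (n := 24) (q := 4) (by norm_num) h (fun T hT => mem_SL hT)

lemma ap_H : Ap SL wL (fun T => ev n1 T * y1 T + 2 * (ev n2 T * y12 T) + ev n3 T * b13 T) DY
    ((lB0 n1 n2 n3).take 24) (eB n1 n2 n3) := by
  have h1 := ap_ly1.pmul wt_SL n1
  have h2 := ap_ly2.pmul wt_SL n2
  have h3 := ap_ly3.pmul wt_SL n3
  have h : Ap SL wL (fun T => ev n1 T * y1 T + 2 * (ev n2 T * y12 T) + ev n3 T * b13 T) DY
      (lB0 n1 n2 n3) ((sAbs n1 + 2 * sAbs n2 + sAbs n3) * EY) := by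
    intro T hT
    have k1 := h1 T hT
    have k2 := h2 T hT
    have k3 := h3 T hT
    simp only [ev_mulL] at k1 k2 k3
    unfold lB0
    simp only [ev_addL, ev_smulL, ev_mulL]
    push_cast at k1 k2 k3 ⊢
    have e : (DY : ℝ) * (ev n1 T * y1 T + 2 * (ev n2 T * y12 T) + ev n3 T * b13 T) -
        (ev n1 T * ev ly1 T + (2 * (ev n2 T * ev ly2 T) + ev n3 T * ev ly3 T)) =
        (DY * (ev n1 T * y1 T) - ev n1 T * ev ly1 T) +
        2 * (DY * (ev n2 T * y12 T) - ev n2 T * ev ly2 T) +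
        (DY * (ev n3 T * b13 T) - ev n3 T * ev ly3 T) := by ring
    rw [e]
    refine (abs_add_le _ _).trans ?_
    have := abs_add_le (DY * (ev n1 T * y1 T) - ev n1 T * ev ly1 T)
      (2 * (DY * (ev n2 T * y12 T) - ev n2 T * ev ly2 T))
    rw [abs_mul (2 : ℝ), abs_two] at this
    linarith
  exact Ap.take (n := 24) (q := 4) (by norm_num) h (fun T hT => mem_SL hT)

/-- the shifted logarithm -/
noncomputable def om (T : ℝ) : ℝ := Real.log T - Real.log (25 / 6) / 2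

lemma FF_left {T : ℝ} (h0 : 0 < T) (h1 : T < 1) : FF n0 n1 n2 n3 nt ns b T =
    (ev n0 T + ev n1 T * (y1 T * lam1 T) + ev n2 T * (y12 T * lam0 T) +
      ev n3 T * (b13 T * lam3 T)) + cA * (ev n1 T * y1 T + (1 - T) ^ b * ev nt T) +
      cB * (ev n3 T * b13 T + (1 - T) ^ b * ev ns T) -
      om T * (ev n1 T * y1 T + 2 * (ev n2 T * y12 T) + ev n3 T * b13 T) := by
  unfold FF om cA cB
  have e3 : F3 T = b13 T * (lam3 T + Real.log 5 - Real.log T - Real.log (4 + √15) + √15 / 2) := by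
    unfold F3
    have h := f3_left h0
    unfold f3 at h
    have hb := (b13_pos h0).ne'
    have h' : L13 T = lam3 T + Real.log 5 - Real.log T := mul_left_cancel₀ hb h
    rw [h', L13_one]
  have e1 : Real.log (10 / 3) = Real.log (8 / 3) / 2 + Real.log (25 / 6) / 2 := by
    have h2 : Real.log ((10 / 3) ^ 2) = Real.log (8 / 3 * (25 / 6)) := by norm_num
    rw [Real.log_pow, Real.log_mul (by norm_num) (by norm_num)] at h2
    push_cast at h2
    linarith
  rw [f1_left h0 h1, f2_left h0 h1, e3, e1]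
  ring

end models

end Vale.Agent.P224.SP
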