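import Vale.Agent.P224.OT.Sharp

/-!
The certificate with a parameter in dimension five at the parameter zero: the static rows and the
identity with the resources.
-/

namespace Vale.Agent.P224.SP

open MeasureTheory Set Vale.Agent.P224.UE Vale.Agent.P224.PO
open scoped RealInnerProductSpace

noncomputable section

/-- the rows at the parameter zero; `r` is a square root of `6`, `l` the number `log (8 / 3)`,
`κ` the coefficient of `s ^ 3` -/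
def S0 (r l κ : ℝ) : OT.SCert :=
  [(⟨0, 0, 0, 0, 0, 0, 0, 0⟩, fun _ => (1 - l) * (-(18 / 125)) + κ * (-(3554 / 78125))),
   (⟨0, 0, 0, 1, 0, 0, 0, 0⟩, fun _ => (1 - l) * (339 / 205) * (r / 6)),
   (⟨0, 1, 0, 0, 0, 0, 0, 0⟩, fun _ => (1 - l) * (-(52557 / 2050))),
   (⟨1, 0, 0, 1, 0, 0, 0, 0⟩, fun _ => (1 - l) * (-(648 / 205)) / 6),
   (⟨3, 0, 0, 0, 0, 0, 0, 0⟩, fun _ => (1 - l) * (-(2466 / 1025))),
   (⟨0, 0, 0, 2, 0, 0, 0, 0⟩, fun _ => κ * (-(72 / 625)) / 6),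
   (⟨0, 1, 0, 1, 0, 0, 0, 0⟩, fun _ => κ * (216 / 3125) * (r / 6)),
   (⟨0, 2, 0, 0, 0, 0, 0, 0⟩, fun _ => κ * (-(2131 / 15625))),
   (⟨1, 0, 0, 0, 0, 0, 0, 0⟩, fun _ => κ * (756 / 78125) * (r / 6)),
   (⟨1, 0, 0, 2, 0, 0, 0, 0⟩, fun _ => κ * (-(972 / 15625)) * (r / 36)),
   (⟨1, 1, 0, 1, 0, 0, 0, 0⟩, fun _ => κ * (4248 / 15625) / 6),
   (⟨1, 2, 0, 0, 0, 0, 0, 0⟩, fun _ => κ * (-(924 / 15625)) * (r / 6)),
   (⟨3, 1, 0, 0, 0, 0, 0, 0⟩, fun _ => κ * (236 / 15625))]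

/-- the symmetrised rows at the parameter zero -/
def R00 (r l κ : ℝ) (d : R9) : ℝ :=
  (OT.Rs 5 (S0 r l κ) 0 d + OT.Rs 5 (S0 r l κ) 0 (sw9 d)) / 2

/-- the rows with the special value at the parameter zero -/
def RoT (r l κ : ℝ) (S : OT.SCert) (T : ℝ) (d : R9) : ℝ :=
  if T = 0 then R00 r l κ d else (OT.Rs 5 S T d + OT.Rs 5 S T (sw9 d)) / 2

lemma RoT_zero (r l κ : ℝ) (S : OT.SCert) (d : R9) : RoT r l κ S 0 d = R00 r l κ d :=
  if_pos rfl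

lemma RoT_pos (r l κ : ℝ) (S : OT.SCert) {T : ℝ} (hT : 0 < T) (d : R9) :
    RoT r l κ S T d = (OT.Rs 5 S T d + OT.Rs 5 S T (sw9 d)) / 2 :=
  if_neg hT.ne'

/-- the rows are null -/
theorem null_RoT {X : Type*} [MeasurableSpace X] {E : Type*} [NormedAddCommGroup E]
    [InnerProductSpace ℝ E] [MeasurableSpace E] [BorelSpace E] [SecondCountableTopology E]
    {μ : Measure X} [IsFiniteMeasure μ] {p n : X → E} (hG : TwoG μ 5 p n) (r l κ : ℝ)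
    (S : OT.SCert) {T : ℝ} (hT : T ∈ Ico (0 : ℝ) 1) : Null μ p n 0 (RoT r l κ S T) := by
  rcases hT.1.eq_or_lt with h | h
  · subst h
    have e : RoT r l κ S 0 = fun d => (OT.Rs 5 (S0 r l κ) 0 d
        + OT.Rs 5 (S0 r l κ) 0 (sw9 d)) / 2 := by
      funext d
      exact RoT_zero _ _ _ _ _
    rw [e]
    exact OT.null_sym hG _ hT
  · have e : RoT r l κ S T = fun d => (OT.Rs 5 S T d + OT.Rs 5 S T (sw9 d)) / 2 := by
      funext d
      exact RoT_pos _ _ _ _ h _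
    rw [e]
    exact OT.null_sym hG _ hT

/-- the value part at the parameter zero (the ten functions of the base) -/
def G00 (r l K : ℝ) (s t p c : ℝ) : ℝ :=
  (-107 + 132 * l) / 25 + 9 * (l - 1) / 25 * (1 - s) ^ 2 + (88 - 48 * l + 96 * K) / 25 * c
    + (9 * (l - 1) / 25 + 6 * (l - 1) / 25) * (c * (r / 6 * (t + p) / 2))
    + (2088 * (1 - l) / 25 + 2358 * (1 - l) / 25 + 333 * (1 - l) / 5) * ((t ^ 2 + p ^ 2) / 12)

/-- **The identity at the parameter zero.** -/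
theorem zero_id {r : ℝ} (hr : r ^ 2 = 6) (l K κ : ℝ) (d : R9) :
    1 + (88 / 25 - 48 / 25 * l + 96 / 25 * K + 236 / 15625 * κ) * d 3
      - (450 / 41 * (1 - l) * RF (-(187 / 100)) 14 (-(r / 6)) d + κ * d 0 ^ 3) + R00 r l κ d
      = G00 r l K (d 0) (d 1) (d 2) (d 3)
        + (1 - l) * (108 / 205 * (d 3 - d 0 - r / 6 * ((d 1 + d 2) / 2)) ^ 2
          - 29484 / 205 * (r / 12 * (d 2 - d 1)) ^ 2)
        + κ * (648 / 15625 * ((r / 12 * (d 2 - d 1)) ^ 2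
              * (d 3 - d 0 - r / 6 * ((d 1 + d 2) / 2)))
            + 324 / 15625 * (r / 12 * (d 1 + d 2)
              * (d 3 - d 0 - r / 6 * ((d 1 + d 2) / 2)) ^ 2)
            + 5508 / 3125 * (r / 12 * (d 1 + d 2) * (r / 12 * (d 2 - d 1)) ^ 2)
            - 708 / 15625 * (d 0 * (d 3 - d 0 - r / 6 * ((d 1 + d 2) / 2)) ^ 2)
            + 3516 / 3125 * (d 0 * (r / 12 * (d 2 - d 1)) ^ 2)) := by
  have e0 : sw9 d 0 = d 0 := rfl
  have e1 : sw9 d 1 = d 2 := rfl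
  have e2 : sw9 d 2 = d 1 := rfl
  have e3 : sw9 d 3 = d 3 := rfl
  obtain ⟨s, hs⟩ : ∃ s, d 0 = s := ⟨_, rfl⟩
  obtain ⟨t, ht⟩ : ∃ t, d 1 = t := ⟨_, rfl⟩
  obtain ⟨p, hp⟩ : ∃ p, d 2 = p := ⟨_, rfl⟩
  obtain ⟨c, hc⟩ : ∃ c, d 3 = c := ⟨_, rfl⟩
  have k0 : ∀ q s, SM2.ker 0 q s = 1 := by
    intro q s
    simp [SM2.ker]
  simp only [R00, S0, OT.Rs, OT.STerm.R, rG, rowE, sk, sk', RF, G00, List.map_cons, List.map_nil,
    List.sum_cons, List.sum_nil, e0, e1, e2, e3, hs, ht, hp, hc, k0, pow_zero, pow_one, one_mul,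
    mul_one, Nat.cast_zero, Nat.cast_one, Nat.cast_ofNat, zero_mul, mul_zero, add_zero, zero_add,
    Nat.sub_self, Nat.add_one_sub_one, Nat.reduceSub]
  linear_combination ((204/205) * p^2 + (-204/205) * p^2 * l + (-63/62500) * p^3 * r * κ + (-411/205) * t * p +
    (411/205) * t * p * l + (18/15625) * t * p * c * κ + (3/3125) * t * p^2 * r * κ +
    (204/205) * t^2 + (-204/205) * t^2 * l + (3/3125) * t^2 * p * r * κ + (-63/62500) * t^3 *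
    r * κ + (-703/93750) * s * p^2 * κ + (236/15625) * s * t * p * κ + (-703/93750) * s * t^2
    * κ) * hr

end

end Vale.Agent.P224.SP
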