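import Mathlib.Analysis.SpecialFunctions.Log.Deriv
import Mathlib.Analysis.SpecialFunctions.Exponential
import Mathlib.Analysis.Complex.ExponentialBounds

/-!
Bounds for `log (8 / 3)`.
-/

namespace Vale.Agent.P224.SP

open Real

lemma log_eight_ninths : |log (8 / 9) + 11778303565 / 100000000000| ≤ 1 / 10000000000 := by
  have h := Real.abs_log_sub_add_sum_range_le (x := 1 / 9) (by rw [abs_of_pos] <;> norm_num) 11
  have e1 : (1 : ℝ) - 1 / 9 = 8 / 9 := by norm_num
  rw [e1, abs_of_pos (show (0 : ℝ) < 1 / 9 by norm_num)] at h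
  simp only [Finset.sum_range_succ, Finset.sum_range_zero] at h
  norm_num at h
  rw [abs_le] at h ⊢
  constructor <;> linarith [h.1, h.2]

lemma one_sub_log : (191707465 : ℝ) / 10000000000 ≤ 1 - log (8 / 3)
    ∧ 1 - log (8 / 3) ≤ 191707475 / 10000000000 := by
  have h1 := abs_le.1 log_eight_ninths
  have h2 := Real.log_two_gt_d9
  have h3 := Real.log_two_lt_d9
  have e : 2 * log (8 / 3) = 3 * log 2 + log (8 / 9) := by
    have e8 : (3 : ℝ) * log 2 = log 8 := by
      rw [show (8 : ℝ) = 2 ^ (3 : ℕ) by norm_num, Real.log_pow]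
      norm_num
    have e2 : (2 : ℝ) * log (8 / 3) = log (64 / 9) := by
      rw [show (64 / 9 : ℝ) = (8 / 3) ^ (2 : ℕ) by norm_num, Real.log_pow]
      norm_num
    rw [e8, e2, ← Real.log_mul (by norm_num) (by norm_num)]
    norm_num
  constructor <;> linarith [h1.1, h1.2]

end Vale.Agent.P224.SP
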