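import Vale.Agent.P224.SP.ZeroV
import Vale.Agent.P224.SP.ZeroX

/-!
The certificate with a parameter in dimension five at the parameter zero: the free functions.
-/

namespace Vale.Agent.P224.SP

open Vale.Agent.P224.UE Vale.Agent.P224.POS Vale.Agent.P224.PO Vale.Agent.P224.SO Set

noncomputable section

/-- the sum of the free columns as an expression -/
def fPE (F : List (VK × ℤ)) : PE :=
  F.foldr (fun y a => .add (.mul (.c y.2) y.1.Q) a) (.c 0)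

lemma ev_fPE (F : List (VK × ℤ)) (f : ℕ → ℝ) :
    PE.ev f (fPE F) = (F.map fun y => (y.2 : ℝ) * PE.ev f y.1.Q).sum := by
  induction F with
  | nil => simp [fPE, PE.ev_c]
  | cons y F ih =>
    rw [List.map_cons, List.sum_cons, ← ih]
    rfl

/-- the polynomial of the cubic resource times `15625` -/
def kPE : PE :=
  .add (.mul (.c 648) (.mul (.pow (.v 2) 2) (.v 3)))
    (.add (.mul (.c 324) (.mul (.v 1) (.pow (.v 3) 2)))
    (.add (.mul (.c 27540) (.mul (.v 1) (.pow (.v 2) 2)))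
    (.add (.mul (.c (-708)) (.mul (.v 0) (.pow (.v 3) 2)))
      (.mul (.c 17580) (.mul (.v 0) (.pow (.v 2) 2))))))

/-- the right side of the identity -/
def zPE (ku kv kk : ℤ) : PE :=
  .add (.mul (.c ku) (.pow (.v 2) 2)) (.add (.mul (.c kv) (.pow (.v 3) 2)) (.mul (.c kk) kPE))

/-- The free part at zero from a kernel identity: `m F = ku u ^ 2 + kv v ^ 2 + kk K`. -/
theorem hQ_of {F : List (VK × ℤ)} {m ku kv kk : ℤ}
    (hc : chk [] ((PE.mul (.c m) (fPE F)).sub (zPE ku kv kk)) = true)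
    {D0 κ X1 X2 ℓu ℓv : ℝ} (hm : (0 : ℝ) < m) (hD : 0 < D0)
    (hk : κ / 15625 * (2 * D0 * m) = kk)
    (hu : (ku : ℝ) ≤ (-(X2 * (29484 / 205)) - 6 * ℓu) * (2 * D0 * m))
    (hv : (kv : ℝ) ≤ (X1 * (108 / 205) - ℓv) * (2 * D0 * m))
    (f : ℕ → ℝ) (hf : ∀ i, 5 ≤ i → f i = 0) :
    0 ≤ X1 * (108 / 205 * f 3 ^ 2) - X2 * (29484 / 205 * f 2 ^ 2)
        + κ * (648 / 15625 * (f 2 ^ 2 * f 3) + 324 / 15625 * (f 1 * f 3 ^ 2)
          + 5508 / 3125 * (f 1 * f 2 ^ 2) - 708 / 15625 * (f 0 * f 3 ^ 2)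
          + 3516 / 3125 * (f 0 * f 2 ^ 2))
        - (6 * ℓu * f 2 ^ 2 + ℓv * f 3 ^ 2)
        - 1 / (2 * D0) * (F.map fun y => (y.2 : ℝ) * PE.ev f y.1.Q).sum := by
  have h1 := ev_eq_of_chk hc f (fun i hi => hf i (by simp at hi; omega))
  rw [PE.ev_mul, PE.ev_c, ev_fPE] at h1
  simp only [zPE, kPE, PE.ev_add, PE.ev_mul, PE.ev_pow, PE.ev_c, PE.ev_v] at h1
  push_cast at h1
  set S := (F.map fun y => (y.2 : ℝ) * PE.ev f y.1.Q).sum with hS
  have h2 : (0 : ℝ) < 2 * D0 * m := by positivity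
  have hk2 : κ = 15625 * kk / (2 * D0 * m) := by
    rw [eq_div_iff h2.ne']
    linarith
  have e : 1 / (2 * D0) * S = (ku * f 2 ^ 2 + (kv * f 3 ^ 2 + kk *
      (648 * (f 2 ^ 2 * f 3) + (324 * (f 1 * f 3 ^ 2) + (27540 * (f 1 * f 2 ^ 2)
        + (-708 * (f 0 * f 3 ^ 2) + 17580 * (f 0 * f 2 ^ 2))))))) / (2 * D0 * m) := by
    rw [← h1]
    field_simp
  rw [e, hk2]
  have hu2 := (div_le_iff₀ h2).2 hu
  have hv2 := (div_le_iff₀ h2).2 hv
  have h3 := mul_le_mul_of_nonneg_right hu2 (sq_nonneg (f 2))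
  have h4 := mul_le_mul_of_nonneg_right hv2 (sq_nonneg (f 3))
  have e2 : (ku * f 2 ^ 2 + (kv * f 3 ^ 2 + kk *
      (648 * (f 2 ^ 2 * f 3) + (324 * (f 1 * f 3 ^ 2) + (27540 * (f 1 * f 2 ^ 2)
        + (-708 * (f 0 * f 3 ^ 2) + 17580 * (f 0 * f 2 ^ 2))))))) / (2 * D0 * m)
      = ku / (2 * D0 * m) * f 2 ^ 2 + kv / (2 * D0 * m) * f 3 ^ 2
        + 15625 * kk / (2 * D0 * m) * (648 / 15625 * (f 2 ^ 2 * f 3) + 324 / 15625 * (f 1 * f 3 ^ 2)
          + 5508 / 3125 * (f 1 * f 2 ^ 2) - 708 / 15625 * (f 0 * f 3 ^ 2)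
          + 3516 / 3125 * (f 0 * f 2 ^ 2)) := by
    ring
  rw [e2]
  linarith

end

end Vale.Agent.P224.SP
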